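import Crest.Agent.Lib.Bc.GridPFR
import Crest.Agent.Lib.Bc.CloLite.Wire2
/-! Row 163: the Poisson grid orbit of the closure window `mu ∈ [33/100, 34/100]`: upper chain `d' = 8913/1000`, tilt `-17/50`,
grid size 18, weights in units of `2^-28`; at level 4: `s < 462/1000`, `r ≤ 342769/1048576`. -/
set_option maxRecDepth 1000000
open Crest.ProbabilityR.Broadcast
namespace Crest.Agent.Lib.Bc.GridO.W33
def ks : List ℕ := [nat_lit 7,nat_lit 8,nat_lit 14,nat_lit 15,nat_lit 16,nat_lit 21,nat_lit 22,nat_lit 23,nat_lit 24,nat_lit 28,nat_lit 29,nat_lit 30,nat_lit 31,nat_lit 32,nat_lit 35,nat_lit 36,nat_lit 37,nat_lit 38,nat_lit 39,nat_lit 40,nat_lit 42,nat_lit 43,nat_lit 44,nat_lit 45,nat_lit 46,nat_lit 47,nat_lit 48,nat_lit 49,nat_lit 50,nat_lit 51,nat_lit 52,nat_lit 53,nat_lit 56,nat_lit 57,nat_lit 58,nat_lit 63]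
def P : List Pt := [⟨nat_lit 18,nat_lit 0,nat_lit 0⟩,⟨nat_lit 17,nat_lit 1,nat_lit 0⟩,⟨nat_lit 16,nat_lit 1,nat_lit 1⟩,⟨nat_lit 16,nat_lit 2,nat_lit 0⟩,⟨nat_lit 15,nat_lit 2,nat_lit 1⟩,⟨nat_lit 14,nat_lit 2,nat_lit 2⟩,⟨nat_lit 15,nat_lit 3,nat_lit 0⟩,⟨nat_lit 14,nat_lit 3,nat_lit 1⟩,⟨nat_lit 13,nat_lit 3,nat_lit 2⟩,⟨nat_lit 12,nat_lit 3,nat_lit 3⟩,⟨nat_lit 14,nat_lit 4,nat_lit 0⟩,⟨nat_lit 13,nat_lit 4,nat_lit 1⟩,⟨nat_lit 12,nat_lit 4,nat_lit 2⟩,⟨nat_lit 11,nat_lit 4,nat_lit 3⟩,⟨nat_lit 10,nat_lit 4,nat_lit 4⟩,⟨nat_lit 13,nat_lit 5,nat_lit 0⟩,⟨nat_lit 12,nat_lit 5,nat_lit 1⟩,⟨nat_lit 11,nat_lit 5,nat_lit 2⟩,⟨nat_lit 10,nat_lit 5,nat_lit 3⟩,⟨nat_lit 9,nat_lit 5,nat_lit 4⟩,⟨nat_lit 8,nat_lit 5,nat_lit 5⟩,⟨nat_lit 12,nat_lit 6,nat_lit 0⟩,⟨nat_lit 11,nat_lit 6,nat_lit 1⟩,⟨nat_lit 10,nat_lit 6,nat_lit 2⟩,⟨nat_lit 9,nat_lit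 6,nat_lit 3⟩,⟨nat_lit 8,nat_lit 6,nat_lit 4⟩,⟨nat_lit 7,nat_lit 6,nat_lit 5⟩,⟨nat_lit 6,nat_lit 6,nat_lit 6⟩,⟨nat_lit 11,nat_lit 7,nat_lit 0⟩,⟨nat_lit 10,nat_lit 7,nat_lit 1⟩,⟨nat_lit 9,nat_lit 7,nat_lit 2⟩,⟨nat_lit 8,nat_lit 7,nat_lit 3⟩,⟨nat_lit 7,nat_lit 7,nat_lit 4⟩,⟨nat_lit 10,nat_lit 8,nat_lit 0⟩,⟨nat_lit 9,nat_lit 8,nat_lit 1⟩,⟨nat_lit 8,nat_lit 8,nat_lit 2⟩,⟨nat_lit 9,nat_lit 9,nat_lit 0⟩]
def K : List Pt := [⟨nat_lit 288,nat_lit 1206,nat_lit 1206⟩,⟨nat_lit 339,nat_lit 1155,nat_lit 1206⟩,⟨nat_lit 390,nat_lit 1155,nat_lit 1155⟩,⟨nat_lit 390,nat_lit 1104,nat_lit 1206⟩,⟨nat_lit 441,nat_lit 1104,nat_lit 1155⟩,⟨nat_lit 492,nat_lit 1104,nat_lit 1104⟩,⟨nat_lit 441,nat_lit 1053,nat_lit 1206⟩,⟨nat_lit 492,nat_lit 1053,nat_lit 1155⟩,⟨nat_lit 543,nat_lit 1053,nat_lit 1104⟩,⟨nat_lit 594,nat_lit 1053,nat_lit 1053⟩,⟨nat_lit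 492,nat_lit 1002,nat_lit 1206⟩,⟨nat_lit 543,nat_lit 1002,nat_lit 1155⟩,⟨nat_lit 594,nat_lit 1002,nat_lit 1104⟩,⟨nat_lit 645,nat_lit 1002,nat_lit 1053⟩,⟨nat_lit 696,nat_lit 1002,nat_lit 1002⟩,⟨nat_lit 543,nat_lit 951,nat_lit 1206⟩,⟨nat_lit 594,nat_lit 951,nat_lit 1155⟩,⟨nat_lit 645,nat_lit 951,nat_lit 1104⟩,⟨nat_lit 696,nat_lit 951,nat_lit 1053⟩,⟨nat_lit 747,nat_lit 951,nat_lit 1002⟩,⟨nat_lit 798,nat_lit 951,nat_lit 951⟩,⟨nat_lit 594,nat_lit 900,nat_lit 1206⟩,⟨nat_lit 645,nat_lit 900,nat_lit 1155⟩,⟨nat_lit 696,nat_lit 900,nat_lit 1104⟩,⟨nat_lit 747,nat_lit 900,nat_lit 1053⟩,⟨nat_lit 798,nat_lit 900,nat_lit 1002⟩,⟨nat_lit 849,nat_lit 900,nat_lit 951⟩,⟨nat_lit 900,nat_lit 900,nat_lit 900⟩,⟨nat_lit 645,nat_lit 849,nat_lit 1206⟩,⟨nat_lit 696,nat_lit 849,nat_lit 1155⟩,⟨nat_lit 747,nat_lit 849,nat_lit 1104⟩,⟨nat_lit 798,nat_lit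 849,nat_lit 1053⟩,⟨nat_lit 849,nat_lit 849,nat_lit 1002⟩,⟨nat_lit 696,nat_lit 798,nat_lit 1206⟩,⟨nat_lit 747,nat_lit 798,nat_lit 1155⟩,⟨nat_lit 798,nat_lit 798,nat_lit 1104⟩,⟨nat_lit 747,nat_lit 747,nat_lit 1206⟩]
theorem hP0 : eqPtsP P (ptsOf 18 7 ks) = true := by decide +kernel
theorem hK0 : eqPtsP K (P.map (tiltPtQ 17 50 18)) = true := by decide +kernel
theorem hP : P = ptsOf 18 7 ks := eqPtsP_eq _ _ hP0
theorem hK : K = P.map (tiltPtQ 17 50 18) := eqPtsP_eq _ _ hK0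
theorem hnodup : ks.Nodup := by decide +kernel
theorem hvalid : ∀ k ∈ ks, k < 70 ∧ Valid 18 7 k := by
  have : ∀ k ∈ ks, k < 70 ∧ k / 7 + k % 7 ≤ 18 := by decide +kernel
  exact this
def g0 : List ℕ := [nat_lit 0,nat_lit 0,nat_lit 0,nat_lit 0,nat_lit 0,nat_lit 0,nat_lit 0,nat_lit 0,nat_lit 0,nat_lit 0,nat_lit 0,nat_lit 0,nat_lit 0,nat_lit 0,nat_lit 0,nat_lit 0,nat_lit 0,nat_lit 0,nat_lit 0,nat_lit 0,nat_lit 0,nat_lit 0,nat_lit 0,nat_lit 0,nat_lit 0,nat_lit 0,nat_lit 0,nat_lit 268435456,nat_lit 0,nat_lit 0,nat_lit 0,nat_lit 0,nat_lit 0,nat_lit 0,nat_lit 0,nat_lit 0,nat_lit 0]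
def ms : List ℕ := [nat_lit 36138,nat_lit 322104,nat_lit 1435459,nat_lit 4264750,nat_lit 9502930,nat_lit 16939923,nat_lit 25164256,nat_lit 32041288,nat_lit 35698000,nat_lit 35352919,nat_lit 31510057,nat_lit 25531740,nat_lit 18963699,nat_lit 13001804,nat_lit 8277505,nat_lit 4918494,nat_lit 2739908,nat_lit 1436517,nat_lit 711315,nat_lit 333681,nat_lit 148705,nat_lit 63114,nat_lit 25570,nat_lit 9908,nat_lit 3679,nat_lit 1311]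
theorem hg0 : Good 18 268435456 (ptsOf 18 7 ks) g0 := by
  rw [← hP]
  refine ⟨by norm_num, by norm_num, ?_, ?_, ?_⟩
  · have : ∀ p ∈ P, p.a + p.b + p.c = 18 := by decide +kernel
    exact this
  · decide +kernel
  · decide +kernel
theorem hd0 : (0 : ℝ) ≤ (((8913 : ℕ) : ℝ) / ((1000 : ℕ) : ℝ)) := by positivity
theorem hq0 : ∀ i, i < ms.length → ((ms.getD i 0 : ℕ) : ℝ) / ((268435456 : ℕ) : ℝ)
    ≤ Real.exp (-(((8913 : ℕ) : ℝ) / ((1000 : ℕ) : ℝ))) * (((8913 : ℕ) : ℝ) / ((1000 : ℕ) : ℝ)) ^ i / Nat.factorial i :=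
  hq_of_chk (a := 8913) (b := 1000) (en := 37894228907) (ed := 281474976710656) (by norm_num) (by norm_num) (by norm_num)
    (by decide +kernel) (by decide +kernel)
theorem setup : SetupP 18 7 73 70 268435456 17 50 268435456 ks g0 ms (((8913 : ℕ) : ℝ) / ((1000 : ℕ) : ℝ)) :=
  ⟨by norm_num, by norm_num, by norm_num, by norm_num, by norm_num, by norm_num, by norm_num, by norm_num,
    by norm_num, hnodup, hvalid, hg0, by decide +kernel, hd0, hq0⟩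
theorem hB : 9444732965739290427392 = 2 ^ 73 := by norm_num
theorem hT : 7003998140486595379200 = 2 * 18 * (3 * 50 * 18) * 268435456 * 268435456 := by norm_num
theorem hTE : 72057594037927936 = 268435456 * 268435456 := by norm_num
theorem hdfc : 183072980992 = (268435456 - ms.sum) * 268435456 := by decide +kernel
lemma hch0 (i j : Fin 3) : 0 ≤ channel 3 (-(((17 : ℕ) : ℝ) / ((50 : ℕ) : ℝ))) i j :=
  ch3 (by norm_num) (by norm_num) i j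
def w0 : List ℕ := [nat_lit 268435456,nat_lit 0,nat_lit 0,nat_lit 0,nat_lit 0,nat_lit 0,nat_lit 0,nat_lit 0,nat_lit 0,nat_lit 0,nat_lit 0,nat_lit 0,nat_lit 0,nat_lit 0,nat_lit 0,nat_lit 0,nat_lit 0,nat_lit 0,nat_lit 0,nat_lit 0,nat_lit 0,nat_lit 0,nat_lit 0,nat_lit 0,nat_lit 0,nat_lit 0,nat_lit 0,nat_lit 0,nat_lit 0,nat_lit 0,nat_lit 0,nat_lit 0,nat_lit 0,nat_lit 0,nat_lit 0,nat_lit 0,nat_lit 0]
theorem h0 : w0 = 268435456 :: List.replicate ks.length 0 := by decide +kernel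
theorem inv0 : InvP (-(((17 : ℕ) : ℝ) / ((50 : ℕ) : ℝ))) (((8913 : ℕ) : ℝ) / ((1000 : ℕ) : ℝ)) hd0 hch0 18 7 268435456 ks 0 w0 := by
  rw [h0]
  exact InvP.zero setup
def wE : List ℕ := [nat_lit 22651312,nat_lit 26287834,nat_lit 7822852,nat_lit 20047054,nat_lit 10774560,nat_lit 4101922,nat_lit 15994683,nat_lit 8305988,nat_lit 6531548,nat_lit 2820403,nat_lit 13312723,nat_lit 6926804,nat_lit 5529307,nat_lit 4504596,nat_lit 1878579,nat_lit 11728254,nat_lit 5944112,nat_lit 4924441,nat_lit 4110264,nat_lit 3457804,nat_lit 1628983,nat_lit 10908942,nat_lit 5354932,nat_lit 4686773,nat_lit 3687905,nat_lit 3334665,nat_lit 3018025,nat_lit 565443,nat_lit 10190988,nat_lit 5072246,nat_lit 4602732,nat_lit 3616806,nat_lit 1669790,nat_lit 10071681,nat_lit 5090938,nat_lit 2327648,nat_lit 4951919]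
theorem chk : eqF (levelsPF 73 9444732965739290427392 7003998140486595379200 72057594037927936 268435456 (mkTabF 18 7 73 P K) ks (0 :: ks) g0 ms 183072980992 4 w0) wE = true := by
  decide +kernel
theorem invE : InvP (-(((17 : ℕ) : ℝ) / ((50 : ℕ) : ℝ))) (((8913 : ℕ) : ℝ) / ((1000 : ℕ) : ℝ)) hd0 hch0 18 7 268435456 ks 4 wE :=
  InvP.check (m := 0) (k := 4) setup hP hK hB hT hTE hdfc inv0 chk
theorem hs : momS (gwSL 3 (-(((17 : ℕ) : ℝ) / ((50 : ℕ) : ℝ))) (((8913 : ℕ) : ℝ) / ((1000 : ℕ) : ℝ)) 4 hd0 (by norm_num) hch0) < ((462 : ℕ) : ℝ) / ((1000 : ℕ) : ℝ) :=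
  momS_gw_lt (by norm_num) invE hP (by decide +kernel)
theorem hr : momR (gwSL 3 (-(((17 : ℕ) : ℝ) / ((50 : ℕ) : ℝ))) (((8913 : ℕ) : ℝ) / ((1000 : ℕ) : ℝ)) 4 hd0 (by norm_num) hch0) ≤ ((342769 : ℕ) : ℝ) / ((1048576 : ℕ) : ℝ) :=
  momR_gw_le (by norm_num) invE hP (by decide +kernel)
/-- the closure window `mu ∈ [33/100, 34/100]` -/
theorem exit : CloLite.ExitPR ((10000 : ℝ) / 34 ^ 2) ((10000 : ℝ) / 33 ^ 2) (462 / 1000) (342769 / 1048576) := by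
  have := CloLite.exitPR_of_upper (d₁ := (10000 : ℝ) / 34 ^ 2) (d₂ := (10000 : ℝ) / 33 ^ 2) (mu := (((17 : ℕ) : ℝ) / ((50 : ℕ) : ℝ)))
    (d' := (((8913 : ℕ) : ℝ) / ((1000 : ℕ) : ℝ))) (x := (((462 : ℕ) : ℝ) / ((1000 : ℕ) : ℝ))) (r0 := (((342769 : ℕ) : ℝ) / ((1048576 : ℕ) : ℝ)))
    (by norm_num) (by norm_num) (by norm_num) (by norm_num) hd0 hch0 hs hr
  simpa using this
end Crest.Agent.Lib.Bc.GridO.W33
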