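import Crest.Agent.Lib.Bc.GridPFR
import Crest.Agent.Lib.Bc.CloLite.Wire2
/-! Row 163: the Poisson grid orbit of the closure window `mu ∈ [34/100, 35/100]`: upper chain `d' = 2101/250`, tilt `-7/20`,
grid size 18, weights in units of `2^-28`; at level 5: `s < 428/1000`, `r ≤ 280725/1048576`. -/
set_option maxRecDepth 1000000
open Crest.ProbabilityR.Broadcast
namespace Crest.Agent.Lib.Bc.GridO.W34
def ks : List ℕ := [nat_lit 7,nat_lit 8,nat_lit 14,nat_lit 15,nat_lit 16,nat_lit 21,nat_lit 22,nat_lit 23,nat_lit 24,nat_lit 28,nat_lit 29,nat_lit 30,nat_lit 31,nat_lit 32,nat_lit 35,nat_lit 36,nat_lit 37,nat_lit 38,nat_lit 39,nat_lit 40,nat_lit 42,nat_lit 43,nat_lit 44,nat_lit 45,nat_lit 46,nat_lit 47,nat_lit 48,nat_lit 49,nat_lit 50,nat_lit 51,nat_lit 52,nat_lit 53,nat_lit 56,nat_lit 57,nat_lit 58,nat_lit 63]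
def P : List Pt := [⟨nat_lit 18,nat_lit 0,nat_lit 0⟩,⟨nat_lit 17,nat_lit 1,nat_lit 0⟩,⟨nat_lit 16,nat_lit 1,nat_lit 1⟩,⟨nat_lit 16,nat_lit 2,nat_lit 0⟩,⟨nat_lit 15,nat_lit 2,nat_lit 1⟩,⟨nat_lit 14,nat_lit 2,nat_lit 2⟩,⟨nat_lit 15,nat_lit 3,nat_lit 0⟩,⟨nat_lit 14,nat_lit 3,nat_lit 1⟩,⟨nat_lit 13,nat_lit 3,nat_lit 2⟩,⟨nat_lit 12,nat_lit 3,nat_lit 3⟩,⟨nat_lit 14,nat_lit 4,nat_lit 0⟩,⟨nat_lit 13,nat_lit 4,nat_lit 1⟩,⟨nat_lit 12,nat_lit 4,nat_lit 2⟩,⟨nat_lit 11,nat_lit 4,nat_lit 3⟩,⟨nat_lit 10,nat_lit 4,nat_lit 4⟩,⟨nat_lit 13,nat_lit 5,nat_lit 0⟩,⟨nat_lit 12,nat_lit 5,nat_lit 1⟩,⟨nat_lit 11,nat_lit 5,nat_lit 2⟩,⟨nat_lit 10,nat_lit 5,nat_lit 3⟩,⟨nat_lit 9,nat_lit 5,nat_lit 4⟩,⟨nat_lit 8,nat_lit 5,nat_lit 5⟩,⟨nat_lit 12,nat_lit 6,nat_lit 0⟩,⟨nat_lit 11,nat_lit 6,nat_lit 1⟩,⟨nat_lit 10,nat_lit 6,nat_lit 2⟩,⟨nat_lit 9,nat_lit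 6,nat_lit 3⟩,⟨nat_lit 8,nat_lit 6,nat_lit 4⟩,⟨nat_lit 7,nat_lit 6,nat_lit 5⟩,⟨nat_lit 6,nat_lit 6,nat_lit 6⟩,⟨nat_lit 11,nat_lit 7,nat_lit 0⟩,⟨nat_lit 10,nat_lit 7,nat_lit 1⟩,⟨nat_lit 9,nat_lit 7,nat_lit 2⟩,⟨nat_lit 8,nat_lit 7,nat_lit 3⟩,⟨nat_lit 7,nat_lit 7,nat_lit 4⟩,⟨nat_lit 10,nat_lit 8,nat_lit 0⟩,⟨nat_lit 9,nat_lit 8,nat_lit 1⟩,⟨nat_lit 8,nat_lit 8,nat_lit 2⟩,⟨nat_lit 9,nat_lit 9,nat_lit 0⟩]
def K : List Pt := [⟨nat_lit 108,nat_lit 486,nat_lit 486⟩,⟨nat_lit 129,nat_lit 465,nat_lit 486⟩,⟨nat_lit 150,nat_lit 465,nat_lit 465⟩,⟨nat_lit 150,nat_lit 444,nat_lit 486⟩,⟨nat_lit 171,nat_lit 444,nat_lit 465⟩,⟨nat_lit 192,nat_lit 444,nat_lit 444⟩,⟨nat_lit 171,nat_lit 423,nat_lit 486⟩,⟨nat_lit 192,nat_lit 423,nat_lit 465⟩,⟨nat_lit 213,nat_lit 423,nat_lit 444⟩,⟨nat_lit 234,nat_lit 423,nat_lit 423⟩,⟨nat_lit 192,nat_lit 402,nat_lit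 486⟩,⟨nat_lit 213,nat_lit 402,nat_lit 465⟩,⟨nat_lit 234,nat_lit 402,nat_lit 444⟩,⟨nat_lit 255,nat_lit 402,nat_lit 423⟩,⟨nat_lit 276,nat_lit 402,nat_lit 402⟩,⟨nat_lit 213,nat_lit 381,nat_lit 486⟩,⟨nat_lit 234,nat_lit 381,nat_lit 465⟩,⟨nat_lit 255,nat_lit 381,nat_lit 444⟩,⟨nat_lit 276,nat_lit 381,nat_lit 423⟩,⟨nat_lit 297,nat_lit 381,nat_lit 402⟩,⟨nat_lit 318,nat_lit 381,nat_lit 381⟩,⟨nat_lit 234,nat_lit 360,nat_lit 486⟩,⟨nat_lit 255,nat_lit 360,nat_lit 465⟩,⟨nat_lit 276,nat_lit 360,nat_lit 444⟩,⟨nat_lit 297,nat_lit 360,nat_lit 423⟩,⟨nat_lit 318,nat_lit 360,nat_lit 402⟩,⟨nat_lit 339,nat_lit 360,nat_lit 381⟩,⟨nat_lit 360,nat_lit 360,nat_lit 360⟩,⟨nat_lit 255,nat_lit 339,nat_lit 486⟩,⟨nat_lit 276,nat_lit 339,nat_lit 465⟩,⟨nat_lit 297,nat_lit 339,nat_lit 444⟩,⟨nat_lit 318,nat_lit 339,nat_lit 423⟩,⟨nat_lit 339,nat_lit 339,nat_lit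 402⟩,⟨nat_lit 276,nat_lit 318,nat_lit 486⟩,⟨nat_lit 297,nat_lit 318,nat_lit 465⟩,⟨nat_lit 318,nat_lit 318,nat_lit 444⟩,⟨nat_lit 297,nat_lit 297,nat_lit 486⟩]
theorem hP0 : eqPtsP P (ptsOf 18 7 ks) = true := by decide +kernel
theorem hK0 : eqPtsP K (P.map (tiltPtQ 7 20 18)) = true := by decide +kernel
theorem hP : P = ptsOf 18 7 ks := eqPtsP_eq _ _ hP0
theorem hK : K = P.map (tiltPtQ 7 20 18) := eqPtsP_eq _ _ hK0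
theorem hnodup : ks.Nodup := by decide +kernel
theorem hvalid : ∀ k ∈ ks, k < 70 ∧ Valid 18 7 k := by
  have : ∀ k ∈ ks, k < 70 ∧ k / 7 + k % 7 ≤ 18 := by decide +kernel
  exact this
def g0 : List ℕ := [nat_lit 0,nat_lit 0,nat_lit 0,nat_lit 0,nat_lit 0,nat_lit 0,nat_lit 0,nat_lit 0,nat_lit 0,nat_lit 0,nat_lit 0,nat_lit 0,nat_lit 0,nat_lit 0,nat_lit 0,nat_lit 0,nat_lit 0,nat_lit 0,nat_lit 0,nat_lit 0,nat_lit 0,nat_lit 0,nat_lit 0,nat_lit 0,nat_lit 0,nat_lit 0,nat_lit 0,nat_lit 268435456,nat_lit 0,nat_lit 0,nat_lit 0,nat_lit 0,nat_lit 0,nat_lit 0,nat_lit 0,nat_lit 0,nat_lit 0]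
def ms : List ℕ := [nat_lit 60121,nat_lit 505260,nat_lit 2123103,nat_lit 5947520,nat_lit 12495740,nat_lit 21002840,nat_lit 29417977,nat_lit 35318383,nat_lit 37101962,nat_lit 34644987,nat_lit 29115647,nat_lit 22244354,nat_lit 15578463,nat_lit 10070877,nat_lit 6045403,nat_lit 3387038,nat_lit 1779041,nat_lit 879474,nat_lit 410616,nat_lit 181622,nat_lit 76317,nat_lit 30541,nat_lit 11666,nat_lit 4262,nat_lit 1492]
theorem hg0 : Good 18 268435456 (ptsOf 18 7 ks) g0 := by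
  rw [← hP]
  refine ⟨by norm_num, by norm_num, ?_, ?_, ?_⟩
  · have : ∀ p ∈ P, p.a + p.b + p.c = 18 := by decide +kernel
    exact this
  · decide +kernel
  · decide +kernel
theorem hd0 : (0 : ℝ) ≤ (((2101 : ℕ) : ℝ) / ((250 : ℕ) : ℝ)) := by positivity
theorem hq0 : ∀ i, i < ms.length → ((ms.getD i 0 : ℕ) : ℝ) / ((268435456 : ℕ) : ℝ)
    ≤ Real.exp (-(((2101 : ℕ) : ℝ) / ((250 : ℕ) : ℝ))) * (((2101 : ℕ) : ℝ) / ((250 : ℕ) : ℝ)) ^ i / Nat.factorial i :=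
  hq_of_chk (a := 2101) (b := 250) (en := 63041852355) (ed := 281474976710656) (by norm_num) (by norm_num) (by norm_num)
    (by decide +kernel) (by decide +kernel)
theorem setup : SetupP 18 7 72 70 268435456 7 20 268435456 ks g0 ms (((2101 : ℕ) : ℝ) / ((250 : ℕ) : ℝ)) :=
  ⟨by norm_num, by norm_num, by norm_num, by norm_num, by norm_num, by norm_num, by norm_num, by norm_num,
    by norm_num, hnodup, hvalid, hg0, by decide +kernel, hd0, hq0⟩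
theorem hB : 4722366482869645213696 = 2 ^ 72 := by norm_num
theorem hT : 2801599256194638151680 = 2 * 18 * (3 * 20 * 18) * 268435456 * 268435456 := by norm_num
theorem hTE : 72057594037927936 = 268435456 * 268435456 := by norm_num
theorem hdfc : 201326592000 = (268435456 - ms.sum) * 268435456 := by decide +kernel
lemma hch0 (i j : Fin 3) : 0 ≤ channel 3 (-(((7 : ℕ) : ℝ) / ((20 : ℕ) : ℝ))) i j :=
  ch3 (by norm_num) (by norm_num) i j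
def w0 : List ℕ := [nat_lit 268435456,nat_lit 0,nat_lit 0,nat_lit 0,nat_lit 0,nat_lit 0,nat_lit 0,nat_lit 0,nat_lit 0,nat_lit 0,nat_lit 0,nat_lit 0,nat_lit 0,nat_lit 0,nat_lit 0,nat_lit 0,nat_lit 0,nat_lit 0,nat_lit 0,nat_lit 0,nat_lit 0,nat_lit 0,nat_lit 0,nat_lit 0,nat_lit 0,nat_lit 0,nat_lit 0,nat_lit 0,nat_lit 0,nat_lit 0,nat_lit 0,nat_lit 0,nat_lit 0,nat_lit 0,nat_lit 0,nat_lit 0,nat_lit 0]
theorem h0 : w0 = 268435456 :: List.replicate ks.length 0 := by decide +kernel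
theorem inv0 : InvP (-(((7 : ℕ) : ℝ) / ((20 : ℕ) : ℝ))) (((2101 : ℕ) : ℝ) / ((250 : ℕ) : ℝ)) hd0 hch0 18 7 268435456 ks 0 w0 := by
  rw [h0]
  exact InvP.zero setup
def wE : List ℕ := [nat_lit 16951154,nat_lit 22481413,nat_lit 7665903,nat_lit 18037220,nat_lit 11189830,nat_lit 4420696,nat_lit 14721257,nat_lit 8926903,nat_lit 7272030,nat_lit 3135385,nat_lit 12601306,nat_lit 7594742,nat_lit 6230509,nat_lit 5230208,nat_lit 2235310,nat_lit 11241167,nat_lit 6611501,nat_lit 5681708,nat_lit 4765363,nat_lit 4070745,nat_lit 1931591,nat_lit 10492510,nat_lit 6114049,nat_lit 5378754,nat_lit 4408288,nat_lit 3938533,nat_lit 3674289,nat_lit 676115,nat_lit 9977449,nat_lit 5858354,nat_lit 5296993,nat_lit 4348654,nat_lit 1973683,nat_lit 9835844,nat_lit 5883894,nat_lit 2703789,nat_lit 4878317]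
theorem chk : eqF (levelsPF 72 4722366482869645213696 2801599256194638151680 72057594037927936 268435456 (mkTabF 18 7 72 P K) ks (0 :: ks) g0 ms 201326592000 5 w0) wE = true := by
  decide +kernel
theorem invE : InvP (-(((7 : ℕ) : ℝ) / ((20 : ℕ) : ℝ))) (((2101 : ℕ) : ℝ) / ((250 : ℕ) : ℝ)) hd0 hch0 18 7 268435456 ks 5 wE :=
  InvP.check (m := 0) (k := 5) setup hP hK hB hT hTE hdfc inv0 chk
theorem hs : momS (gwSL 3 (-(((7 : ℕ) : ℝ) / ((20 : ℕ) : ℝ))) (((2101 : ℕ) : ℝ) / ((250 : ℕ) : ℝ)) 5 hd0 (by norm_num) hch0) < ((428 : ℕ) : ℝ) / ((1000 : ℕ) : ℝ) :=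
  momS_gw_lt (by norm_num) invE hP (by decide +kernel)
theorem hr : momR (gwSL 3 (-(((7 : ℕ) : ℝ) / ((20 : ℕ) : ℝ))) (((2101 : ℕ) : ℝ) / ((250 : ℕ) : ℝ)) 5 hd0 (by norm_num) hch0) ≤ ((280725 : ℕ) : ℝ) / ((1048576 : ℕ) : ℝ) :=
  momR_gw_le (by norm_num) invE hP (by decide +kernel)
/-- the closure window `mu ∈ [34/100, 35/100]` -/
theorem exit : CloLite.ExitPR ((10000 : ℝ) / 35 ^ 2) ((10000 : ℝ) / 34 ^ 2) (428 / 1000) (280725 / 1048576) := by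
  have := CloLite.exitPR_of_upper (d₁ := (10000 : ℝ) / 35 ^ 2) (d₂ := (10000 : ℝ) / 34 ^ 2) (mu := (((7 : ℕ) : ℝ) / ((20 : ℕ) : ℝ)))
    (d' := (((2101 : ℕ) : ℝ) / ((250 : ℕ) : ℝ))) (x := (((428 : ℕ) : ℝ) / ((1000 : ℕ) : ℝ))) (r0 := (((280725 : ℕ) : ℝ) / ((1048576 : ℕ) : ℝ)))
    (by norm_num) (by norm_num) (by norm_num) (by norm_num) hd0 hch0 hs hr
  simpa using this
end Crest.Agent.Lib.Bc.GridO.W34
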