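import Crest.Agent.Lib.Bc.GridPFR
import Crest.Agent.Lib.Bc.CloLite.Wire2
/-! Row 163: the Poisson grid orbit of the closure window `mu ∈ [35/100, 36/100]`: upper chain `d' = 7937/1000`, tilt `-9/25`,
grid size 18, weights in units of `2^-28`; at level 7: `s < 379/1000`, `r ≤ 58993/262144`. -/
set_option maxRecDepth 1000000
open Crest.ProbabilityR.Broadcast
namespace Crest.Agent.Lib.Bc.GridO.W35
def ks : List ℕ := [nat_lit 7,nat_lit 8,nat_lit 14,nat_lit 15,nat_lit 16,nat_lit 21,nat_lit 22,nat_lit 23,nat_lit 24,nat_lit 28,nat_lit 29,nat_lit 30,nat_lit 31,nat_lit 32,nat_lit 35,nat_lit 36,nat_lit 37,nat_lit 38,nat_lit 39,nat_lit 40,nat_lit 42,nat_lit 43,nat_lit 44,nat_lit 45,nat_lit 46,nat_lit 47,nat_lit 48,nat_lit 49,nat_lit 50,nat_lit 51,nat_lit 52,nat_lit 53,nat_lit 56,nat_lit 57,nat_lit 58,nat_lit 63]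
def P : List Pt := [⟨nat_lit 18,nat_lit 0,nat_lit 0⟩,⟨nat_lit 17,nat_lit 1,nat_lit 0⟩,⟨nat_lit 16,nat_lit 1,nat_lit 1⟩,⟨nat_lit 16,nat_lit 2,nat_lit 0⟩,⟨nat_lit 15,nat_lit 2,nat_lit 1⟩,⟨nat_lit 14,nat_lit 2,nat_lit 2⟩,⟨nat_lit 15,nat_lit 3,nat_lit 0⟩,⟨nat_lit 14,nat_lit 3,nat_lit 1⟩,⟨nat_lit 13,nat_lit 3,nat_lit 2⟩,⟨nat_lit 12,nat_lit 3,nat_lit 3⟩,⟨nat_lit 14,nat_lit 4,nat_lit 0⟩,⟨nat_lit 13,nat_lit 4,nat_lit 1⟩,⟨nat_lit 12,nat_lit 4,nat_lit 2⟩,⟨nat_lit 11,nat_lit 4,nat_lit 3⟩,⟨nat_lit 10,nat_lit 4,nat_lit 4⟩,⟨nat_lit 13,nat_lit 5,nat_lit 0⟩,⟨nat_lit 12,nat_lit 5,nat_lit 1⟩,⟨nat_lit 11,nat_lit 5,nat_lit 2⟩,⟨nat_lit 10,nat_lit 5,nat_lit 3⟩,⟨nat_lit 9,nat_lit 5,nat_lit 4⟩,⟨nat_lit 8,nat_lit 5,nat_lit 5⟩,⟨nat_lit 12,nat_lit 6,nat_lit 0⟩,⟨nat_lit 11,nat_lit 6,nat_lit 1⟩,⟨nat_lit 10,nat_lit 6,nat_lit 2⟩,⟨nat_lit 9,nat_lit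 6,nat_lit 3⟩,⟨nat_lit 8,nat_lit 6,nat_lit 4⟩,⟨nat_lit 7,nat_lit 6,nat_lit 5⟩,⟨nat_lit 6,nat_lit 6,nat_lit 6⟩,⟨nat_lit 11,nat_lit 7,nat_lit 0⟩,⟨nat_lit 10,nat_lit 7,nat_lit 1⟩,⟨nat_lit 9,nat_lit 7,nat_lit 2⟩,⟨nat_lit 8,nat_lit 7,nat_lit 3⟩,⟨nat_lit 7,nat_lit 7,nat_lit 4⟩,⟨nat_lit 10,nat_lit 8,nat_lit 0⟩,⟨nat_lit 9,nat_lit 8,nat_lit 1⟩,⟨nat_lit 8,nat_lit 8,nat_lit 2⟩,⟨nat_lit 9,nat_lit 9,nat_lit 0⟩]
def K : List Pt := [⟨nat_lit 126,nat_lit 612,nat_lit 612⟩,⟨nat_lit 153,nat_lit 585,nat_lit 612⟩,⟨nat_lit 180,nat_lit 585,nat_lit 585⟩,⟨nat_lit 180,nat_lit 558,nat_lit 612⟩,⟨nat_lit 207,nat_lit 558,nat_lit 585⟩,⟨nat_lit 234,nat_lit 558,nat_lit 558⟩,⟨nat_lit 207,nat_lit 531,nat_lit 612⟩,⟨nat_lit 234,nat_lit 531,nat_lit 585⟩,⟨nat_lit 261,nat_lit 531,nat_lit 558⟩,⟨nat_lit 288,nat_lit 531,nat_lit 531⟩,⟨nat_lit 234,nat_lit 504,nat_lit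 612⟩,⟨nat_lit 261,nat_lit 504,nat_lit 585⟩,⟨nat_lit 288,nat_lit 504,nat_lit 558⟩,⟨nat_lit 315,nat_lit 504,nat_lit 531⟩,⟨nat_lit 342,nat_lit 504,nat_lit 504⟩,⟨nat_lit 261,nat_lit 477,nat_lit 612⟩,⟨nat_lit 288,nat_lit 477,nat_lit 585⟩,⟨nat_lit 315,nat_lit 477,nat_lit 558⟩,⟨nat_lit 342,nat_lit 477,nat_lit 531⟩,⟨nat_lit 369,nat_lit 477,nat_lit 504⟩,⟨nat_lit 396,nat_lit 477,nat_lit 477⟩,⟨nat_lit 288,nat_lit 450,nat_lit 612⟩,⟨nat_lit 315,nat_lit 450,nat_lit 585⟩,⟨nat_lit 342,nat_lit 450,nat_lit 558⟩,⟨nat_lit 369,nat_lit 450,nat_lit 531⟩,⟨nat_lit 396,nat_lit 450,nat_lit 504⟩,⟨nat_lit 423,nat_lit 450,nat_lit 477⟩,⟨nat_lit 450,nat_lit 450,nat_lit 450⟩,⟨nat_lit 315,nat_lit 423,nat_lit 612⟩,⟨nat_lit 342,nat_lit 423,nat_lit 585⟩,⟨nat_lit 369,nat_lit 423,nat_lit 558⟩,⟨nat_lit 396,nat_lit 423,nat_lit 531⟩,⟨nat_lit 423,nat_lit 423,nat_lit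 504⟩,⟨nat_lit 342,nat_lit 396,nat_lit 612⟩,⟨nat_lit 369,nat_lit 396,nat_lit 585⟩,⟨nat_lit 396,nat_lit 396,nat_lit 558⟩,⟨nat_lit 369,nat_lit 369,nat_lit 612⟩]
theorem hP0 : eqPtsP P (ptsOf 18 7 ks) = true := by decide +kernel
theorem hK0 : eqPtsP K (P.map (tiltPtQ 9 25 18)) = true := by decide +kernel
theorem hP : P = ptsOf 18 7 ks := eqPtsP_eq _ _ hP0
theorem hK : K = P.map (tiltPtQ 9 25 18) := eqPtsP_eq _ _ hK0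
theorem hnodup : ks.Nodup := by decide +kernel
theorem hvalid : ∀ k ∈ ks, k < 70 ∧ Valid 18 7 k := by
  have : ∀ k ∈ ks, k < 70 ∧ k / 7 + k % 7 ≤ 18 := by decide +kernel
  exact this
def g0 : List ℕ := [nat_lit 0,nat_lit 0,nat_lit 0,nat_lit 0,nat_lit 0,nat_lit 0,nat_lit 0,nat_lit 0,nat_lit 0,nat_lit 0,nat_lit 0,nat_lit 0,nat_lit 0,nat_lit 0,nat_lit 0,nat_lit 0,nat_lit 0,nat_lit 0,nat_lit 0,nat_lit 0,nat_lit 0,nat_lit 0,nat_lit 0,nat_lit 0,nat_lit 0,nat_lit 0,nat_lit 0,nat_lit 268435456,nat_lit 0,nat_lit 0,nat_lit 0,nat_lit 0,nat_lit 0,nat_lit 0,nat_lit 0,nat_lit 0,nat_lit 0]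
def ms : List ℕ := [nat_lit 95905,nat_lit 761203,nat_lit 3020837,nat_lit 7992128,nat_lit 15858381,nat_lit 25173594,nat_lit 33300469,nat_lit 37757975,nat_lit 37460631,nat_lit 33036114,nat_lit 26220764,nat_lit 18919473,nat_lit 12513654,nat_lit 7640067,nat_lit 4331372,nat_lit 2291873,nat_lit 1136912,nat_lit 530804,nat_lit 234055,nat_lit 97773,nat_lit 38801,nat_lit 14665,nat_lit 5290,nat_lit 1825,nat_lit 603]
theorem hg0 : Good 18 268435456 (ptsOf 18 7 ks) g0 := by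
  rw [← hP]
  refine ⟨by norm_num, by norm_num, ?_, ?_, ?_⟩
  · have : ∀ p ∈ P, p.a + p.b + p.c = 18 := by decide +kernel
    exact this
  · decide +kernel
  · decide +kernel
theorem hd0 : (0 : ℝ) ≤ (((7937 : ℕ) : ℝ) / ((1000 : ℕ) : ℝ)) := by positivity
theorem hq0 : ∀ i, i < ms.length → ((ms.getD i 0 : ℕ) : ℝ) / ((268435456 : ℕ) : ℝ)
    ≤ Real.exp (-(((7937 : ℕ) : ℝ) / ((1000 : ℕ) : ℝ))) * (((7937 : ℕ) : ℝ) / ((1000 : ℕ) : ℝ)) ^ i / Nat.factorial i :=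
  hq_of_chk (a := 7937) (b := 1000) (en := 100564451351) (ed := 281474976710656) (by norm_num) (by norm_num) (by norm_num)
    (by decide +kernel) (by decide +kernel)
theorem setup : SetupP 18 7 72 70 268435456 9 25 268435456 ks g0 ms (((7937 : ℕ) : ℝ) / ((1000 : ℕ) : ℝ)) :=
  ⟨by norm_num, by norm_num, by norm_num, by norm_num, by norm_num, by norm_num, by norm_num, by norm_num,
    by norm_num, hnodup, hvalid, hg0, by decide +kernel, hd0, hq0⟩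
theorem hB : 4722366482869645213696 = 2 ^ 72 := by norm_num
theorem hT : 3501999070243297689600 = 2 * 18 * (3 * 25 * 18) * 268435456 * 268435456 := by norm_num
theorem hTE : 72057594037927936 = 268435456 * 268435456 := by norm_num
theorem hdfc : 77309411328 = (268435456 - ms.sum) * 268435456 := by decide +kernel
lemma hch0 (i j : Fin 3) : 0 ≤ channel 3 (-(((9 : ℕ) : ℝ) / ((25 : ℕ) : ℝ))) i j :=
  ch3 (by norm_num) (by norm_num) i j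
def w0 : List ℕ := [nat_lit 268435456,nat_lit 0,nat_lit 0,nat_lit 0,nat_lit 0,nat_lit 0,nat_lit 0,nat_lit 0,nat_lit 0,nat_lit 0,nat_lit 0,nat_lit 0,nat_lit 0,nat_lit 0,nat_lit 0,nat_lit 0,nat_lit 0,nat_lit 0,nat_lit 0,nat_lit 0,nat_lit 0,nat_lit 0,nat_lit 0,nat_lit 0,nat_lit 0,nat_lit 0,nat_lit 0,nat_lit 0,nat_lit 0,nat_lit 0,nat_lit 0,nat_lit 0,nat_lit 0,nat_lit 0,nat_lit 0,nat_lit 0,nat_lit 0]
theorem h0 : w0 = 268435456 :: List.replicate ks.length 0 := by decide +kernel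
theorem inv0 : InvP (-(((9 : ℕ) : ℝ) / ((25 : ℕ) : ℝ))) (((7937 : ℕ) : ℝ) / ((1000 : ℕ) : ℝ)) hd0 hch0 18 7 268435456 ks 0 w0 := by
  rw [h0]
  exact InvP.zero setup
def wE : List ℕ := [nat_lit 10466910,nat_lit 16952030,nat_lit 7096052,nat_lit 14732449,nat_lit 11348936,nat_lit 4786133,nat_lit 12586617,nat_lit 9517638,nat_lit 8246218,nat_lit 3661240,nat_lit 11079339,nat_lit 8395800,nat_lit 7277453,nat_lit 6411183,nat_lit 2813931,nat_lit 10191323,nat_lit 7577596,nat_lit 6762244,nat_lit 5973324,nat_lit 5221920,nat_lit 2513970,nat_lit 9625691,nat_lit 7155644,nat_lit 6549311,nat_lit 5615494,nat_lit 5113864,nat_lit 4874825,nat_lit 894109,nat_lit 9309467,nat_lit 6985501,nat_lit 6417069,nat_lit 5670550,nat_lit 2536392,nat_lit 9159204,nat_lit 7031093,nat_lit 3287627,nat_lit 4597309]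
theorem chk : eqF (levelsPF 72 4722366482869645213696 3501999070243297689600 72057594037927936 268435456 (mkTabF 18 7 72 P K) ks (0 :: ks) g0 ms 77309411328 7 w0) wE = true := by
  decide +kernel
theorem invE : InvP (-(((9 : ℕ) : ℝ) / ((25 : ℕ) : ℝ))) (((7937 : ℕ) : ℝ) / ((1000 : ℕ) : ℝ)) hd0 hch0 18 7 268435456 ks 7 wE :=
  InvP.check (m := 0) (k := 7) setup hP hK hB hT hTE hdfc inv0 chk
theorem hs : momS (gwSL 3 (-(((9 : ℕ) : ℝ) / ((25 : ℕ) : ℝ))) (((7937 : ℕ) : ℝ) / ((1000 : ℕ) : ℝ)) 7 hd0 (by norm_num) hch0) < ((379 : ℕ) : ℝ) / ((1000 : ℕ) : ℝ) :=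
  momS_gw_lt (by norm_num) invE hP (by decide +kernel)
theorem hr : momR (gwSL 3 (-(((9 : ℕ) : ℝ) / ((25 : ℕ) : ℝ))) (((7937 : ℕ) : ℝ) / ((1000 : ℕ) : ℝ)) 7 hd0 (by norm_num) hch0) ≤ ((58993 : ℕ) : ℝ) / ((262144 : ℕ) : ℝ) :=
  momR_gw_le (by norm_num) invE hP (by decide +kernel)
/-- the closure window `mu ∈ [35/100, 36/100]` -/
theorem exit : CloLite.ExitPR ((10000 : ℝ) / 36 ^ 2) ((10000 : ℝ) / 35 ^ 2) (379 / 1000) (58993 / 262144) := by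
  have := CloLite.exitPR_of_upper (d₁ := (10000 : ℝ) / 36 ^ 2) (d₂ := (10000 : ℝ) / 35 ^ 2) (mu := (((9 : ℕ) : ℝ) / ((25 : ℕ) : ℝ)))
    (d' := (((7937 : ℕ) : ℝ) / ((1000 : ℕ) : ℝ))) (x := (((379 : ℕ) : ℝ) / ((1000 : ℕ) : ℝ))) (r0 := (((58993 : ℕ) : ℝ) / ((262144 : ℕ) : ℝ)))
    (by norm_num) (by norm_num) (by norm_num) (by norm_num) hd0 hch0 hs hr
  simpa using this
end Crest.Agent.Lib.Bc.GridO.W35
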