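import Crest.Agent.Lib.Bc.GridPFR
import Crest.Agent.Lib.Bc.CloLite.Wire2
/-! Row 163: the Poisson grid orbit of the closure window `mu ∈ [36/100, 37/100]`: upper chain `d' = 1877/250`, tilt `-37/100`,
grid size 18, weights in units of `2^-28`; at level 9: `s < 349/1000`, `r ≤ 99169/524288`. -/
set_option maxRecDepth 1000000
open Crest.ProbabilityR.Broadcast
namespace Crest.Agent.Lib.Bc.GridO.W36
def ks : List ℕ := [nat_lit 7,nat_lit 8,nat_lit 14,nat_lit 15,nat_lit 16,nat_lit 21,nat_lit 22,nat_lit 23,nat_lit 24,nat_lit 28,nat_lit 29,nat_lit 30,nat_lit 31,nat_lit 32,nat_lit 35,nat_lit 36,nat_lit 37,nat_lit 38,nat_lit 39,nat_lit 40,nat_lit 42,nat_lit 43,nat_lit 44,nat_lit 45,nat_lit 46,nat_lit 47,nat_lit 48,nat_lit 49,nat_lit 50,nat_lit 51,nat_lit 52,nat_lit 53,nat_lit 56,nat_lit 57,nat_lit 58,nat_lit 63]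
def P : List Pt := [⟨nat_lit 18,nat_lit 0,nat_lit 0⟩,⟨nat_lit 17,nat_lit 1,nat_lit 0⟩,⟨nat_lit 16,nat_lit 1,nat_lit 1⟩,⟨nat_lit 16,nat_lit 2,nat_lit 0⟩,⟨nat_lit 15,nat_lit 2,nat_lit 1⟩,⟨nat_lit 14,nat_lit 2,nat_lit 2⟩,⟨nat_lit 15,nat_lit 3,nat_lit 0⟩,⟨nat_lit 14,nat_lit 3,nat_lit 1⟩,⟨nat_lit 13,nat_lit 3,nat_lit 2⟩,⟨nat_lit 12,nat_lit 3,nat_lit 3⟩,⟨nat_lit 14,nat_lit 4,nat_lit 0⟩,⟨nat_lit 13,nat_lit 4,nat_lit 1⟩,⟨nat_lit 12,nat_lit 4,nat_lit 2⟩,⟨nat_lit 11,nat_lit 4,nat_lit 3⟩,⟨nat_lit 10,nat_lit 4,nat_lit 4⟩,⟨nat_lit 13,nat_lit 5,nat_lit 0⟩,⟨nat_lit 12,nat_lit 5,nat_lit 1⟩,⟨nat_lit 11,nat_lit 5,nat_lit 2⟩,⟨nat_lit 10,nat_lit 5,nat_lit 3⟩,⟨nat_lit 9,nat_lit 5,nat_lit 4⟩,⟨nat_lit 8,nat_lit 5,nat_lit 5⟩,⟨nat_lit 12,nat_lit 6,nat_lit 0⟩,⟨nat_lit 11,nat_lit 6,nat_lit 1⟩,⟨nat_lit 10,nat_lit 6,nat_lit 2⟩,⟨nat_lit 9,nat_lit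 6,nat_lit 3⟩,⟨nat_lit 8,nat_lit 6,nat_lit 4⟩,⟨nat_lit 7,nat_lit 6,nat_lit 5⟩,⟨nat_lit 6,nat_lit 6,nat_lit 6⟩,⟨nat_lit 11,nat_lit 7,nat_lit 0⟩,⟨nat_lit 10,nat_lit 7,nat_lit 1⟩,⟨nat_lit 9,nat_lit 7,nat_lit 2⟩,⟨nat_lit 8,nat_lit 7,nat_lit 3⟩,⟨nat_lit 7,nat_lit 7,nat_lit 4⟩,⟨nat_lit 10,nat_lit 8,nat_lit 0⟩,⟨nat_lit 9,nat_lit 8,nat_lit 1⟩,⟨nat_lit 8,nat_lit 8,nat_lit 2⟩,⟨nat_lit 9,nat_lit 9,nat_lit 0⟩]
def K : List Pt := [⟨nat_lit 468,nat_lit 2466,nat_lit 2466⟩,⟨nat_lit 579,nat_lit 2355,nat_lit 2466⟩,⟨nat_lit 690,nat_lit 2355,nat_lit 2355⟩,⟨nat_lit 690,nat_lit 2244,nat_lit 2466⟩,⟨nat_lit 801,nat_lit 2244,nat_lit 2355⟩,⟨nat_lit 912,nat_lit 2244,nat_lit 2244⟩,⟨nat_lit 801,nat_lit 2133,nat_lit 2466⟩,⟨nat_lit 912,nat_lit 2133,nat_lit 2355⟩,⟨nat_lit 1023,nat_lit 2133,nat_lit 2244⟩,⟨nat_lit 1134,nat_lit 2133,nat_lit 2133⟩,⟨nat_lit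 912,nat_lit 2022,nat_lit 2466⟩,⟨nat_lit 1023,nat_lit 2022,nat_lit 2355⟩,⟨nat_lit 1134,nat_lit 2022,nat_lit 2244⟩,⟨nat_lit 1245,nat_lit 2022,nat_lit 2133⟩,⟨nat_lit 1356,nat_lit 2022,nat_lit 2022⟩,⟨nat_lit 1023,nat_lit 1911,nat_lit 2466⟩,⟨nat_lit 1134,nat_lit 1911,nat_lit 2355⟩,⟨nat_lit 1245,nat_lit 1911,nat_lit 2244⟩,⟨nat_lit 1356,nat_lit 1911,nat_lit 2133⟩,⟨nat_lit 1467,nat_lit 1911,nat_lit 2022⟩,⟨nat_lit 1578,nat_lit 1911,nat_lit 1911⟩,⟨nat_lit 1134,nat_lit 1800,nat_lit 2466⟩,⟨nat_lit 1245,nat_lit 1800,nat_lit 2355⟩,⟨nat_lit 1356,nat_lit 1800,nat_lit 2244⟩,⟨nat_lit 1467,nat_lit 1800,nat_lit 2133⟩,⟨nat_lit 1578,nat_lit 1800,nat_lit 2022⟩,⟨nat_lit 1689,nat_lit 1800,nat_lit 1911⟩,⟨nat_lit 1800,nat_lit 1800,nat_lit 1800⟩,⟨nat_lit 1245,nat_lit 1689,nat_lit 2466⟩,⟨nat_lit 1356,nat_lit 1689,nat_lit 2355⟩,⟨nat_lit 1467,nat_lit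 1689,nat_lit 2244⟩,⟨nat_lit 1578,nat_lit 1689,nat_lit 2133⟩,⟨nat_lit 1689,nat_lit 1689,nat_lit 2022⟩,⟨nat_lit 1356,nat_lit 1578,nat_lit 2466⟩,⟨nat_lit 1467,nat_lit 1578,nat_lit 2355⟩,⟨nat_lit 1578,nat_lit 1578,nat_lit 2244⟩,⟨nat_lit 1467,nat_lit 1467,nat_lit 2466⟩]
theorem hP0 : eqPtsP P (ptsOf 18 7 ks) = true := by decide +kernel
theorem hK0 : eqPtsP K (P.map (tiltPtQ 37 100 18)) = true := by decide +kernel
theorem hP : P = ptsOf 18 7 ks := eqPtsP_eq _ _ hP0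
theorem hK : K = P.map (tiltPtQ 37 100 18) := eqPtsP_eq _ _ hK0
theorem hnodup : ks.Nodup := by decide +kernel
theorem hvalid : ∀ k ∈ ks, k < 70 ∧ Valid 18 7 k := by
  have : ∀ k ∈ ks, k < 70 ∧ k / 7 + k % 7 ≤ 18 := by decide +kernel
  exact this
def g0 : List ℕ := [nat_lit 0,nat_lit 0,nat_lit 0,nat_lit 0,nat_lit 0,nat_lit 0,nat_lit 0,nat_lit 0,nat_lit 0,nat_lit 0,nat_lit 0,nat_lit 0,nat_lit 0,nat_lit 0,nat_lit 0,nat_lit 0,nat_lit 0,nat_lit 0,nat_lit 0,nat_lit 0,nat_lit 0,nat_lit 0,nat_lit 0,nat_lit 0,nat_lit 0,nat_lit 0,nat_lit 0,nat_lit 268435456,nat_lit 0,nat_lit 0,nat_lit 0,nat_lit 0,nat_lit 0,nat_lit 0,nat_lit 0,nat_lit 0,nat_lit 0]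
def ms : List ℕ := [nat_lit 147284,nat_lit 1105811,nat_lit 4151217,nat_lit 10389112,nat_lit 19500364,nat_lit 29281746,nat_lit 36641225,nat_lit 39300332,nat_lit 36883361,nat_lit 30768919,nat_lit 23101305,nat_lit 15767690,nat_lit 9865318,nat_lit 5697600,nat_lit 3055541,nat_lit 1529400,nat_lit 717671,nat_lit 316957,nat_lit 132206,nat_lit 52242,nat_lit 19611,nat_lit 7011,nat_lit 2392,nat_lit 781]
theorem hg0 : Good 18 268435456 (ptsOf 18 7 ks) g0 := by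
  rw [← hP]
  refine ⟨by norm_num, by norm_num, ?_, ?_, ?_⟩
  · have : ∀ p ∈ P, p.a + p.b + p.c = 18 := by decide +kernel
    exact this
  · decide +kernel
  · decide +kernel
theorem hd0 : (0 : ℝ) ≤ (((1877 : ℕ) : ℝ) / ((250 : ℕ) : ℝ)) := by positivity
theorem hq0 : ∀ i, i < ms.length → ((ms.getD i 0 : ℕ) : ℝ) / ((268435456 : ℕ) : ℝ)
    ≤ Real.exp (-(((1877 : ℕ) : ℝ) / ((250 : ℕ) : ℝ))) * (((1877 : ℕ) : ℝ) / ((250 : ℕ) : ℝ)) ^ i / Nat.factorial i :=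
  hq_of_chk (a := 1877) (b := 250) (en := 154438943253) (ed := 281474976710656) (by norm_num) (by norm_num) (by norm_num)
    (by decide +kernel) (by decide +kernel)
theorem setup : SetupP 18 7 74 70 268435456 37 100 268435456 ks g0 ms (((1877 : ℕ) : ℝ) / ((250 : ℕ) : ℝ)) :=
  ⟨by norm_num, by norm_num, by norm_num, by norm_num, by norm_num, by norm_num, by norm_num, by norm_num,
    by norm_num, hnodup, hvalid, hg0, by decide +kernel, hd0, hq0⟩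
theorem hB : 18889465931478580854784 = 2 ^ 74 := by norm_num
theorem hT : 14007996280973190758400 = 2 * 18 * (3 * 100 * 18) * 268435456 * 268435456 := by norm_num
theorem hTE : 72057594037927936 = 268435456 * 268435456 := by norm_num
theorem hdfc : 96636764160 = (268435456 - ms.sum) * 268435456 := by decide +kernel
lemma hch0 (i j : Fin 3) : 0 ≤ channel 3 (-(((37 : ℕ) : ℝ) / ((100 : ℕ) : ℝ))) i j :=
  ch3 (by norm_num) (by norm_num) i j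
def w0 : List ℕ := [nat_lit 268435456,nat_lit 0,nat_lit 0,nat_lit 0,nat_lit 0,nat_lit 0,nat_lit 0,nat_lit 0,nat_lit 0,nat_lit 0,nat_lit 0,nat_lit 0,nat_lit 0,nat_lit 0,nat_lit 0,nat_lit 0,nat_lit 0,nat_lit 0,nat_lit 0,nat_lit 0,nat_lit 0,nat_lit 0,nat_lit 0,nat_lit 0,nat_lit 0,nat_lit 0,nat_lit 0,nat_lit 0,nat_lit 0,nat_lit 0,nat_lit 0,nat_lit 0,nat_lit 0,nat_lit 0,nat_lit 0,nat_lit 0,nat_lit 0]
theorem h0 : w0 = 268435456 :: List.replicate ks.length 0 := by decide +kernel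
theorem inv0 : InvP (-(((37 : ℕ) : ℝ) / ((100 : ℕ) : ℝ))) (((1877 : ℕ) : ℝ) / ((250 : ℕ) : ℝ)) hd0 hch0 18 7 268435456 ks 0 w0 := by
  rw [h0]
  exact InvP.zero setup
def wE : List ℕ := [nat_lit 7492014,nat_lit 13704400,nat_lit 6505907,nat_lit 12565686,nat_lit 11027950,nat_lit 4891583,nat_lit 11075706,nat_lit 9601428,nat_lit 8664291,nat_lit 3966542,nat_lit 10030480,nat_lit 8735280,nat_lit 7903552,nat_lit 7131683,nat_lit 3249059,nat_lit 9375407,nat_lit 8055110,nat_lit 7453665,nat_lit 6784230,nat_lit 6085598,nat_lit 2957030,nat_lit 8928787,nat_lit 7734185,nat_lit 7287869,nat_lit 6478594,nat_lit 6064667,nat_lit 5789407,nat_lit 1102500,nat_lit 8770794,nat_lit 7680181,nat_lit 7198489,nat_lit 6621308,nat_lit 3003216,nat_lit 8674676,nat_lit 7771595,nat_lit 3718860,nat_lit 4353727]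
theorem chk : eqF (levelsPF 74 18889465931478580854784 14007996280973190758400 72057594037927936 268435456 (mkTabF 18 7 74 P K) ks (0 :: ks) g0 ms 96636764160 9 w0) wE = true := by
  decide +kernel
theorem invE : InvP (-(((37 : ℕ) : ℝ) / ((100 : ℕ) : ℝ))) (((1877 : ℕ) : ℝ) / ((250 : ℕ) : ℝ)) hd0 hch0 18 7 268435456 ks 9 wE :=
  InvP.check (m := 0) (k := 9) setup hP hK hB hT hTE hdfc inv0 chk
theorem hs : momS (gwSL 3 (-(((37 : ℕ) : ℝ) / ((100 : ℕ) : ℝ))) (((1877 : ℕ) : ℝ) / ((250 : ℕ) : ℝ)) 9 hd0 (by norm_num) hch0) < ((349 : ℕ) : ℝ) / ((1000 : ℕ) : ℝ) :=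
  momS_gw_lt (by norm_num) invE hP (by decide +kernel)
theorem hr : momR (gwSL 3 (-(((37 : ℕ) : ℝ) / ((100 : ℕ) : ℝ))) (((1877 : ℕ) : ℝ) / ((250 : ℕ) : ℝ)) 9 hd0 (by norm_num) hch0) ≤ ((99169 : ℕ) : ℝ) / ((524288 : ℕ) : ℝ) :=
  momR_gw_le (by norm_num) invE hP (by decide +kernel)
/-- the closure window `mu ∈ [36/100, 37/100]` -/
theorem exit : CloLite.ExitPR ((10000 : ℝ) / 37 ^ 2) ((10000 : ℝ) / 36 ^ 2) (349 / 1000) (99169 / 524288) := by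
  have := CloLite.exitPR_of_upper (d₁ := (10000 : ℝ) / 37 ^ 2) (d₂ := (10000 : ℝ) / 36 ^ 2) (mu := (((37 : ℕ) : ℝ) / ((100 : ℕ) : ℝ)))
    (d' := (((1877 : ℕ) : ℝ) / ((250 : ℕ) : ℝ))) (x := (((349 : ℕ) : ℝ) / ((1000 : ℕ) : ℝ))) (r0 := (((99169 : ℕ) : ℝ) / ((524288 : ℕ) : ℝ)))
    (by norm_num) (by norm_num) (by norm_num) (by norm_num) hd0 hch0 hs hr
  simpa using this
end Crest.Agent.Lib.Bc.GridO.W36
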