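import Crest.Agent.Lib.Bc.GridPFR
import Crest.Agent.Lib.Bc.CloLite.Wire2
/-! Row 163: the Poisson grid orbit of the closure window `mu ∈ [37/100, 38/100]`: upper chain `d' = 7113/1000`, tilt `-19/50`,
grid size 18, weights in units of `2^-28`; at level 11: `s < 329/1000`, `r ≤ 176979/1048576`. -/
set_option maxRecDepth 1000000
open Crest.ProbabilityR.Broadcast
namespace Crest.Agent.Lib.Bc.GridO.W37
def ks : List ℕ := [nat_lit 7,nat_lit 8,nat_lit 14,nat_lit 15,nat_lit 16,nat_lit 21,nat_lit 22,nat_lit 23,nat_lit 24,nat_lit 28,nat_lit 29,nat_lit 30,nat_lit 31,nat_lit 32,nat_lit 35,nat_lit 36,nat_lit 37,nat_lit 38,nat_lit 39,nat_lit 40,nat_lit 42,nat_lit 43,nat_lit 44,nat_lit 45,nat_lit 46,nat_lit 47,nat_lit 48,nat_lit 49,nat_lit 50,nat_lit 51,nat_lit 52,nat_lit 53,nat_lit 56,nat_lit 57,nat_lit 58,nat_lit 63]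
def P : List Pt := [⟨nat_lit 18,nat_lit 0,nat_lit 0⟩,⟨nat_lit 17,nat_lit 1,nat_lit 0⟩,⟨nat_lit 16,nat_lit 1,nat_lit 1⟩,⟨nat_lit 16,nat_lit 2,nat_lit 0⟩,⟨nat_lit 15,nat_lit 2,nat_lit 1⟩,⟨nat_lit 14,nat_lit 2,nat_lit 2⟩,⟨nat_lit 15,nat_lit 3,nat_lit 0⟩,⟨nat_lit 14,nat_lit 3,nat_lit 1⟩,⟨nat_lit 13,nat_lit 3,nat_lit 2⟩,⟨nat_lit 12,nat_lit 3,nat_lit 3⟩,⟨nat_lit 14,nat_lit 4,nat_lit 0⟩,⟨nat_lit 13,nat_lit 4,nat_lit 1⟩,⟨nat_lit 12,nat_lit 4,nat_lit 2⟩,⟨nat_lit 11,nat_lit 4,nat_lit 3⟩,⟨nat_lit 10,nat_lit 4,nat_lit 4⟩,⟨nat_lit 13,nat_lit 5,nat_lit 0⟩,⟨nat_lit 12,nat_lit 5,nat_lit 1⟩,⟨nat_lit 11,nat_lit 5,nat_lit 2⟩,⟨nat_lit 10,nat_lit 5,nat_lit 3⟩,⟨nat_lit 9,nat_lit 5,nat_lit 4⟩,⟨nat_lit 8,nat_lit 5,nat_lit 5⟩,⟨nat_lit 12,nat_lit 6,nat_lit 0⟩,⟨nat_lit 11,nat_lit 6,nat_lit 1⟩,⟨nat_lit 10,nat_lit 6,nat_lit 2⟩,⟨nat_lit 9,nat_lit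 6,nat_lit 3⟩,⟨nat_lit 8,nat_lit 6,nat_lit 4⟩,⟨nat_lit 7,nat_lit 6,nat_lit 5⟩,⟨nat_lit 6,nat_lit 6,nat_lit 6⟩,⟨nat_lit 11,nat_lit 7,nat_lit 0⟩,⟨nat_lit 10,nat_lit 7,nat_lit 1⟩,⟨nat_lit 9,nat_lit 7,nat_lit 2⟩,⟨nat_lit 8,nat_lit 7,nat_lit 3⟩,⟨nat_lit 7,nat_lit 7,nat_lit 4⟩,⟨nat_lit 10,nat_lit 8,nat_lit 0⟩,⟨nat_lit 9,nat_lit 8,nat_lit 1⟩,⟨nat_lit 8,nat_lit 8,nat_lit 2⟩,⟨nat_lit 9,nat_lit 9,nat_lit 0⟩]
def K : List Pt := [⟨nat_lit 216,nat_lit 1242,nat_lit 1242⟩,⟨nat_lit 273,nat_lit 1185,nat_lit 1242⟩,⟨nat_lit 330,nat_lit 1185,nat_lit 1185⟩,⟨nat_lit 330,nat_lit 1128,nat_lit 1242⟩,⟨nat_lit 387,nat_lit 1128,nat_lit 1185⟩,⟨nat_lit 444,nat_lit 1128,nat_lit 1128⟩,⟨nat_lit 387,nat_lit 1071,nat_lit 1242⟩,⟨nat_lit 444,nat_lit 1071,nat_lit 1185⟩,⟨nat_lit 501,nat_lit 1071,nat_lit 1128⟩,⟨nat_lit 558,nat_lit 1071,nat_lit 1071⟩,⟨nat_lit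 444,nat_lit 1014,nat_lit 1242⟩,⟨nat_lit 501,nat_lit 1014,nat_lit 1185⟩,⟨nat_lit 558,nat_lit 1014,nat_lit 1128⟩,⟨nat_lit 615,nat_lit 1014,nat_lit 1071⟩,⟨nat_lit 672,nat_lit 1014,nat_lit 1014⟩,⟨nat_lit 501,nat_lit 957,nat_lit 1242⟩,⟨nat_lit 558,nat_lit 957,nat_lit 1185⟩,⟨nat_lit 615,nat_lit 957,nat_lit 1128⟩,⟨nat_lit 672,nat_lit 957,nat_lit 1071⟩,⟨nat_lit 729,nat_lit 957,nat_lit 1014⟩,⟨nat_lit 786,nat_lit 957,nat_lit 957⟩,⟨nat_lit 558,nat_lit 900,nat_lit 1242⟩,⟨nat_lit 615,nat_lit 900,nat_lit 1185⟩,⟨nat_lit 672,nat_lit 900,nat_lit 1128⟩,⟨nat_lit 729,nat_lit 900,nat_lit 1071⟩,⟨nat_lit 786,nat_lit 900,nat_lit 1014⟩,⟨nat_lit 843,nat_lit 900,nat_lit 957⟩,⟨nat_lit 900,nat_lit 900,nat_lit 900⟩,⟨nat_lit 615,nat_lit 843,nat_lit 1242⟩,⟨nat_lit 672,nat_lit 843,nat_lit 1185⟩,⟨nat_lit 729,nat_lit 843,nat_lit 1128⟩,⟨nat_lit 786,nat_lit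 843,nat_lit 1071⟩,⟨nat_lit 843,nat_lit 843,nat_lit 1014⟩,⟨nat_lit 672,nat_lit 786,nat_lit 1242⟩,⟨nat_lit 729,nat_lit 786,nat_lit 1185⟩,⟨nat_lit 786,nat_lit 786,nat_lit 1128⟩,⟨nat_lit 729,nat_lit 729,nat_lit 1242⟩]
theorem hP0 : eqPtsP P (ptsOf 18 7 ks) = true := by decide +kernel
theorem hK0 : eqPtsP K (P.map (tiltPtQ 19 50 18)) = true := by decide +kernel
theorem hP : P = ptsOf 18 7 ks := eqPtsP_eq _ _ hP0
theorem hK : K = P.map (tiltPtQ 19 50 18) := eqPtsP_eq _ _ hK0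
theorem hnodup : ks.Nodup := by decide +kernel
theorem hvalid : ∀ k ∈ ks, k < 70 ∧ Valid 18 7 k := by
  have : ∀ k ∈ ks, k < 70 ∧ k / 7 + k % 7 ≤ 18 := by decide +kernel
  exact this
def g0 : List ℕ := [nat_lit 0,nat_lit 0,nat_lit 0,nat_lit 0,nat_lit 0,nat_lit 0,nat_lit 0,nat_lit 0,nat_lit 0,nat_lit 0,nat_lit 0,nat_lit 0,nat_lit 0,nat_lit 0,nat_lit 0,nat_lit 0,nat_lit 0,nat_lit 0,nat_lit 0,nat_lit 0,nat_lit 0,nat_lit 0,nat_lit 0,nat_lit 0,nat_lit 0,nat_lit 0,nat_lit 0,nat_lit 268435456,nat_lit 0,nat_lit 0,nat_lit 0,nat_lit 0,nat_lit 0,nat_lit 0,nat_lit 0,nat_lit 0,nat_lit 0]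
def ms : List ℕ := [nat_lit 218626,nat_lit 1555091,nat_lit 5530684,nat_lit 13113251,nat_lit 23318640,nat_lit 33173097,nat_lit 39326707,nat_lit 39961552,nat_lit 35530815,nat_lit 28081187,nat_lit 19974148,nat_lit 12916010,nat_lit 7655965,nat_lit 4188990,nat_lit 2128306,nat_lit 1009243,nat_lit 448671,nat_lit 187729,nat_lit 74184,nat_lit 27772,nat_lit 9877,nat_lit 3345,nat_lit 1081]
theorem hg0 : Good 18 268435456 (ptsOf 18 7 ks) g0 := by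
  rw [← hP]
  refine ⟨by norm_num, by norm_num, ?_, ?_, ?_⟩
  · have : ∀ p ∈ P, p.a + p.b + p.c = 18 := by decide +kernel
    exact this
  · decide +kernel
  · decide +kernel
theorem hd0 : (0 : ℝ) ≤ (((7113 : ℕ) : ℝ) / ((1000 : ℕ) : ℝ)) := by positivity
theorem hq0 : ∀ i, i < ms.length → ((ms.getD i 0 : ℕ) : ℝ) / ((268435456 : ℕ) : ℝ)
    ≤ Real.exp (-(((7113 : ℕ) : ℝ) / ((1000 : ℕ) : ℝ))) * (((7113 : ℕ) : ℝ) / ((1000 : ℕ) : ℝ)) ^ i / Nat.factorial i :=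
  hq_of_chk (a := 7113) (b := 1000) (en := 229246725827) (ed := 281474976710656) (by norm_num) (by norm_num) (by norm_num)
    (by decide +kernel) (by decide +kernel)
theorem setup : SetupP 18 7 73 70 268435456 19 50 268435456 ks g0 ms (((7113 : ℕ) : ℝ) / ((1000 : ℕ) : ℝ)) :=
  ⟨by norm_num, by norm_num, by norm_num, by norm_num, by norm_num, by norm_num, by norm_num, by norm_num,
    by norm_num, hnodup, hvalid, hg0, by decide +kernel, hd0, hq0⟩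
theorem hB : 9444732965739290427392 = 2 ^ 73 := by norm_num
theorem hT : 7003998140486595379200 = 2 * 18 * (3 * 50 * 18) * 268435456 * 268435456 := by norm_num
theorem hTE : 72057594037927936 = 268435456 * 268435456 := by norm_num
theorem hdfc : 130191196160 = (268435456 - ms.sum) * 268435456 := by decide +kernel
lemma hch0 (i j : Fin 3) : 0 ≤ channel 3 (-(((19 : ℕ) : ℝ) / ((50 : ℕ) : ℝ))) i j :=
  ch3 (by norm_num) (by norm_num) i j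
def w0 : List ℕ := [nat_lit 268435456,nat_lit 0,nat_lit 0,nat_lit 0,nat_lit 0,nat_lit 0,nat_lit 0,nat_lit 0,nat_lit 0,nat_lit 0,nat_lit 0,nat_lit 0,nat_lit 0,nat_lit 0,nat_lit 0,nat_lit 0,nat_lit 0,nat_lit 0,nat_lit 0,nat_lit 0,nat_lit 0,nat_lit 0,nat_lit 0,nat_lit 0,nat_lit 0,nat_lit 0,nat_lit 0,nat_lit 0,nat_lit 0,nat_lit 0,nat_lit 0,nat_lit 0,nat_lit 0,nat_lit 0,nat_lit 0,nat_lit 0,nat_lit 0]
theorem h0 : w0 = 268435456 :: List.replicate ks.length 0 := by decide +kernel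
theorem inv0 : InvP (-(((19 : ℕ) : ℝ) / ((50 : ℕ) : ℝ))) (((7113 : ℕ) : ℝ) / ((1000 : ℕ) : ℝ)) hd0 hch0 18 7 268435456 ks 0 w0 := by
  rw [h0]
  exact InvP.zero setup
def wE : List ℕ := [nat_lit 5890773,nat_lit 11700724,nat_lit 6015776,nat_lit 11101862,nat_lit 10616653,nat_lit 4859787,nat_lit 10028162,nat_lit 9530658,nat_lit 8857550,nat_lit 4144229,nat_lit 9277992,nat_lit 8816084,nat_lit 8256684,nat_lit 7598003,nat_lit 3550410,nat_lit 8751494,nat_lit 8280180,nat_lit 7904228,nat_lit 7329384,nat_lit 6710185,nat_lit 3300820,nat_lit 8450270,nat_lit 8079371,nat_lit 7796437,nat_lit 7127365,nat_lit 6828242,nat_lit 6507798,nat_lit 1304858,nat_lit 8351709,nat_lit 8125828,nat_lit 7774715,nat_lit 7360605,nat_lit 3359247,nat_lit 8352701,nat_lit 8256172,nat_lit 4056287,nat_lit 4182213]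
theorem chk : eqF (levelsPF 73 9444732965739290427392 7003998140486595379200 72057594037927936 268435456 (mkTabF 18 7 73 P K) ks (0 :: ks) g0 ms 130191196160 11 w0) wE = true := by
  decide +kernel
theorem invE : InvP (-(((19 : ℕ) : ℝ) / ((50 : ℕ) : ℝ))) (((7113 : ℕ) : ℝ) / ((1000 : ℕ) : ℝ)) hd0 hch0 18 7 268435456 ks 11 wE :=
  InvP.check (m := 0) (k := 11) setup hP hK hB hT hTE hdfc inv0 chk
theorem hs : momS (gwSL 3 (-(((19 : ℕ) : ℝ) / ((50 : ℕ) : ℝ))) (((7113 : ℕ) : ℝ) / ((1000 : ℕ) : ℝ)) 11 hd0 (by norm_num) hch0) < ((329 : ℕ) : ℝ) / ((1000 : ℕ) : ℝ) :=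
  momS_gw_lt (by norm_num) invE hP (by decide +kernel)
theorem hr : momR (gwSL 3 (-(((19 : ℕ) : ℝ) / ((50 : ℕ) : ℝ))) (((7113 : ℕ) : ℝ) / ((1000 : ℕ) : ℝ)) 11 hd0 (by norm_num) hch0) ≤ ((176979 : ℕ) : ℝ) / ((1048576 : ℕ) : ℝ) :=
  momR_gw_le (by norm_num) invE hP (by decide +kernel)
/-- the closure window `mu ∈ [37/100, 38/100]` -/
theorem exit : CloLite.ExitPR ((10000 : ℝ) / 38 ^ 2) ((10000 : ℝ) / 37 ^ 2) (329 / 1000) (176979 / 1048576) := by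
  have := CloLite.exitPR_of_upper (d₁ := (10000 : ℝ) / 38 ^ 2) (d₂ := (10000 : ℝ) / 37 ^ 2) (mu := (((19 : ℕ) : ℝ) / ((50 : ℕ) : ℝ)))
    (d' := (((7113 : ℕ) : ℝ) / ((1000 : ℕ) : ℝ))) (x := (((329 : ℕ) : ℝ) / ((1000 : ℕ) : ℝ))) (r0 := (((176979 : ℕ) : ℝ) / ((1048576 : ℕ) : ℝ)))
    (by norm_num) (by norm_num) (by norm_num) (by norm_num) hd0 hch0 hs hr
  simpa using this
end Crest.Agent.Lib.Bc.GridO.W37
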