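import Crest.Agent.Lib.Bc.GridPFR
import Crest.Agent.Lib.Bc.CloLite.Wire2
/-! Row 163: the Poisson grid orbit of the closure window `mu ∈ [38/100, 39/100]`: upper chain `d' = 1687/250`, tilt `-39/100`,
grid size 18, weights in units of `2^-28`; at level 15: `s < 301/1000`, `r ≤ 19071/131072`. -/
set_option maxRecDepth 1000000
open Crest.ProbabilityR.Broadcast
namespace Crest.Agent.Lib.Bc.GridO.W38
def ks : List ℕ := [nat_lit 7,nat_lit 8,nat_lit 14,nat_lit 15,nat_lit 16,nat_lit 21,nat_lit 22,nat_lit 23,nat_lit 24,nat_lit 28,nat_lit 29,nat_lit 30,nat_lit 31,nat_lit 32,nat_lit 35,nat_lit 36,nat_lit 37,nat_lit 38,nat_lit 39,nat_lit 40,nat_lit 42,nat_lit 43,nat_lit 44,nat_lit 45,nat_lit 46,nat_lit 47,nat_lit 48,nat_lit 49,nat_lit 50,nat_lit 51,nat_lit 52,nat_lit 53,nat_lit 56,nat_lit 57,nat_lit 58,nat_lit 63]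
def P : List Pt := [⟨nat_lit 18,nat_lit 0,nat_lit 0⟩,⟨nat_lit 17,nat_lit 1,nat_lit 0⟩,⟨nat_lit 16,nat_lit 1,nat_lit 1⟩,⟨nat_lit 16,nat_lit 2,nat_lit 0⟩,⟨nat_lit 15,nat_lit 2,nat_lit 1⟩,⟨nat_lit 14,nat_lit 2,nat_lit 2⟩,⟨nat_lit 15,nat_lit 3,nat_lit 0⟩,⟨nat_lit 14,nat_lit 3,nat_lit 1⟩,⟨nat_lit 13,nat_lit 3,nat_lit 2⟩,⟨nat_lit 12,nat_lit 3,nat_lit 3⟩,⟨nat_lit 14,nat_lit 4,nat_lit 0⟩,⟨nat_lit 13,nat_lit 4,nat_lit 1⟩,⟨nat_lit 12,nat_lit 4,nat_lit 2⟩,⟨nat_lit 11,nat_lit 4,nat_lit 3⟩,⟨nat_lit 10,nat_lit 4,nat_lit 4⟩,⟨nat_lit 13,nat_lit 5,nat_lit 0⟩,⟨nat_lit 12,nat_lit 5,nat_lit 1⟩,⟨nat_lit 11,nat_lit 5,nat_lit 2⟩,⟨nat_lit 10,nat_lit 5,nat_lit 3⟩,⟨nat_lit 9,nat_lit 5,nat_lit 4⟩,⟨nat_lit 8,nat_lit 5,nat_lit 5⟩,⟨nat_lit 12,nat_lit 6,nat_lit 0⟩,⟨nat_lit 11,nat_lit 6,nat_lit 1⟩,⟨nat_lit 10,nat_lit 6,nat_lit 2⟩,⟨nat_lit 9,nat_lit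 6,nat_lit 3⟩,⟨nat_lit 8,nat_lit 6,nat_lit 4⟩,⟨nat_lit 7,nat_lit 6,nat_lit 5⟩,⟨nat_lit 6,nat_lit 6,nat_lit 6⟩,⟨nat_lit 11,nat_lit 7,nat_lit 0⟩,⟨nat_lit 10,nat_lit 7,nat_lit 1⟩,⟨nat_lit 9,nat_lit 7,nat_lit 2⟩,⟨nat_lit 8,nat_lit 7,nat_lit 3⟩,⟨nat_lit 7,nat_lit 7,nat_lit 4⟩,⟨nat_lit 10,nat_lit 8,nat_lit 0⟩,⟨nat_lit 9,nat_lit 8,nat_lit 1⟩,⟨nat_lit 8,nat_lit 8,nat_lit 2⟩,⟨nat_lit 9,nat_lit 9,nat_lit 0⟩]
def K : List Pt := [⟨nat_lit 396,nat_lit 2502,nat_lit 2502⟩,⟨nat_lit 513,nat_lit 2385,nat_lit 2502⟩,⟨nat_lit 630,nat_lit 2385,nat_lit 2385⟩,⟨nat_lit 630,nat_lit 2268,nat_lit 2502⟩,⟨nat_lit 747,nat_lit 2268,nat_lit 2385⟩,⟨nat_lit 864,nat_lit 2268,nat_lit 2268⟩,⟨nat_lit 747,nat_lit 2151,nat_lit 2502⟩,⟨nat_lit 864,nat_lit 2151,nat_lit 2385⟩,⟨nat_lit 981,nat_lit 2151,nat_lit 2268⟩,⟨nat_lit 1098,nat_lit 2151,nat_lit 2151⟩,⟨nat_lit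 864,nat_lit 2034,nat_lit 2502⟩,⟨nat_lit 981,nat_lit 2034,nat_lit 2385⟩,⟨nat_lit 1098,nat_lit 2034,nat_lit 2268⟩,⟨nat_lit 1215,nat_lit 2034,nat_lit 2151⟩,⟨nat_lit 1332,nat_lit 2034,nat_lit 2034⟩,⟨nat_lit 981,nat_lit 1917,nat_lit 2502⟩,⟨nat_lit 1098,nat_lit 1917,nat_lit 2385⟩,⟨nat_lit 1215,nat_lit 1917,nat_lit 2268⟩,⟨nat_lit 1332,nat_lit 1917,nat_lit 2151⟩,⟨nat_lit 1449,nat_lit 1917,nat_lit 2034⟩,⟨nat_lit 1566,nat_lit 1917,nat_lit 1917⟩,⟨nat_lit 1098,nat_lit 1800,nat_lit 2502⟩,⟨nat_lit 1215,nat_lit 1800,nat_lit 2385⟩,⟨nat_lit 1332,nat_lit 1800,nat_lit 2268⟩,⟨nat_lit 1449,nat_lit 1800,nat_lit 2151⟩,⟨nat_lit 1566,nat_lit 1800,nat_lit 2034⟩,⟨nat_lit 1683,nat_lit 1800,nat_lit 1917⟩,⟨nat_lit 1800,nat_lit 1800,nat_lit 1800⟩,⟨nat_lit 1215,nat_lit 1683,nat_lit 2502⟩,⟨nat_lit 1332,nat_lit 1683,nat_lit 2385⟩,⟨nat_lit 1449,nat_lit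 1683,nat_lit 2268⟩,⟨nat_lit 1566,nat_lit 1683,nat_lit 2151⟩,⟨nat_lit 1683,nat_lit 1683,nat_lit 2034⟩,⟨nat_lit 1332,nat_lit 1566,nat_lit 2502⟩,⟨nat_lit 1449,nat_lit 1566,nat_lit 2385⟩,⟨nat_lit 1566,nat_lit 1566,nat_lit 2268⟩,⟨nat_lit 1449,nat_lit 1449,nat_lit 2502⟩]
theorem hP0 : eqPtsP P (ptsOf 18 7 ks) = true := by decide +kernel
theorem hK0 : eqPtsP K (P.map (tiltPtQ 39 100 18)) = true := by decide +kernel
theorem hP : P = ptsOf 18 7 ks := eqPtsP_eq _ _ hP0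
theorem hK : K = P.map (tiltPtQ 39 100 18) := eqPtsP_eq _ _ hK0
theorem hnodup : ks.Nodup := by decide +kernel
theorem hvalid : ∀ k ∈ ks, k < 70 ∧ Valid 18 7 k := by
  have : ∀ k ∈ ks, k < 70 ∧ k / 7 + k % 7 ≤ 18 := by decide +kernel
  exact this
def g0 : List ℕ := [nat_lit 0,nat_lit 0,nat_lit 0,nat_lit 0,nat_lit 0,nat_lit 0,nat_lit 0,nat_lit 0,nat_lit 0,nat_lit 0,nat_lit 0,nat_lit 0,nat_lit 0,nat_lit 0,nat_lit 0,nat_lit 0,nat_lit 0,nat_lit 0,nat_lit 0,nat_lit 0,nat_lit 0,nat_lit 0,nat_lit 0,nat_lit 0,nat_lit 0,nat_lit 0,nat_lit 0,nat_lit 268435456,nat_lit 0,nat_lit 0,nat_lit 0,nat_lit 0,nat_lit 0,nat_lit 0,nat_lit 0,nat_lit 0,nat_lit 0]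
def ms : List ℕ := [nat_lit 314934,nat_lit 2125180,nat_lit 7170358,nat_lit 16128526,nat_lit 27208823,nat_lit 36721028,nat_lit 41298916,nat_lit 39812155,nat_lit 33581553,nat_lit 25178702,nat_lit 16990588,nat_lit 10422953,nat_lit 5861174,nat_lit 3042400,nat_lit 1466436,nat_lit 659701,nat_lit 278228,nat_lit 110440,nat_lit 41402,nat_lit 14704,nat_lit 4961,nat_lit 1594]
theorem hg0 : Good 18 268435456 (ptsOf 18 7 ks) g0 := by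
  rw [← hP]
  refine ⟨by norm_num, by norm_num, ?_, ?_, ?_⟩
  · have : ∀ p ∈ P, p.a + p.b + p.c = 18 := by decide +kernel
    exact this
  · decide +kernel
  · decide +kernel
theorem hd0 : (0 : ℝ) ≤ (((1687 : ℕ) : ℝ) / ((250 : ℕ) : ℝ)) := by positivity
theorem hq0 : ∀ i, i < ms.length → ((ms.getD i 0 : ℕ) : ℝ) / ((268435456 : ℕ) : ℝ)
    ≤ Real.exp (-(((1687 : ℕ) : ℝ) / ((250 : ℕ) : ℝ))) * (((1687 : ℕ) : ℝ) / ((250 : ℕ) : ℝ)) ^ i / Nat.factorial i :=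
  hq_of_chk (a := 1687) (b := 250) (en := 330233119877) (ed := 281474976710656) (by norm_num) (by norm_num) (by norm_num)
    (by decide +kernel) (by decide +kernel)
theorem setup : SetupP 18 7 74 70 268435456 39 100 268435456 ks g0 ms (((1687 : ℕ) : ℝ) / ((250 : ℕ) : ℝ)) :=
  ⟨by norm_num, by norm_num, by norm_num, by norm_num, by norm_num, by norm_num, by norm_num, by norm_num,
    by norm_num, hnodup, hvalid, hg0, by decide +kernel, hd0, hq0⟩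
theorem hB : 18889465931478580854784 = 2 ^ 74 := by norm_num
theorem hT : 14007996280973190758400 = 2 * 18 * (3 * 100 * 18) * 268435456 * 268435456 := by norm_num
theorem hTE : 72057594037927936 = 268435456 * 268435456 := by norm_num
theorem hdfc : 187904819200 = (268435456 - ms.sum) * 268435456 := by decide +kernel
lemma hch0 (i j : Fin 3) : 0 ≤ channel 3 (-(((39 : ℕ) : ℝ) / ((100 : ℕ) : ℝ))) i j :=
  ch3 (by norm_num) (by norm_num) i j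
def w0 : List ℕ := [nat_lit 268435456,nat_lit 0,nat_lit 0,nat_lit 0,nat_lit 0,nat_lit 0,nat_lit 0,nat_lit 0,nat_lit 0,nat_lit 0,nat_lit 0,nat_lit 0,nat_lit 0,nat_lit 0,nat_lit 0,nat_lit 0,nat_lit 0,nat_lit 0,nat_lit 0,nat_lit 0,nat_lit 0,nat_lit 0,nat_lit 0,nat_lit 0,nat_lit 0,nat_lit 0,nat_lit 0,nat_lit 0,nat_lit 0,nat_lit 0,nat_lit 0,nat_lit 0,nat_lit 0,nat_lit 0,nat_lit 0,nat_lit 0,nat_lit 0]
theorem h0 : w0 = 268435456 :: List.replicate ks.length 0 := by decide +kernel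
theorem inv0 : InvP (-(((39 : ℕ) : ℝ) / ((100 : ℕ) : ℝ))) (((1687 : ℕ) : ℝ) / ((250 : ℕ) : ℝ)) hd0 hch0 18 7 268435456 ks 0 w0 := by
  rw [h0]
  exact InvP.zero setup
def wE : List ℕ := [nat_lit 4054159,nat_lit 9095597,nat_lit 5290231,nat_lit 9119504,nat_lit 9902054,nat_lit 4789933,nat_lit 8543252,nat_lit 9306216,nat_lit 9066253,nat_lit 4398335,nat_lit 8075459,nat_lit 8795423,nat_lit 8675406,nat_lit 8327141,nat_lit 3947484,nat_lit 7810207,nat_lit 8515491,nat_lit 8492731,nat_lit 8201862,nat_lit 7720283,nat_lit 3892306,nat_lit 7658844,nat_lit 8466641,nat_lit 8560123,nat_lit 8142734,nat_lit 8018940,nat_lit 7761840,nat_lit 1610888,nat_lit 7629129,nat_lit 8617930,nat_lit 8623199,nat_lit 8478403,nat_lit 3950449,nat_lit 7698096,nat_lit 8806445,nat_lit 4527757,nat_lit 3864711]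
theorem chk : eqF (levelsPF 74 18889465931478580854784 14007996280973190758400 72057594037927936 268435456 (mkTabF 18 7 74 P K) ks (0 :: ks) g0 ms 187904819200 15 w0) wE = true := by
  decide +kernel
theorem invE : InvP (-(((39 : ℕ) : ℝ) / ((100 : ℕ) : ℝ))) (((1687 : ℕ) : ℝ) / ((250 : ℕ) : ℝ)) hd0 hch0 18 7 268435456 ks 15 wE :=
  InvP.check (m := 0) (k := 15) setup hP hK hB hT hTE hdfc inv0 chk
theorem hs : momS (gwSL 3 (-(((39 : ℕ) : ℝ) / ((100 : ℕ) : ℝ))) (((1687 : ℕ) : ℝ) / ((250 : ℕ) : ℝ)) 15 hd0 (by norm_num) hch0) < ((301 : ℕ) : ℝ) / ((1000 : ℕ) : ℝ) :=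
  momS_gw_lt (by norm_num) invE hP (by decide +kernel)
theorem hr : momR (gwSL 3 (-(((39 : ℕ) : ℝ) / ((100 : ℕ) : ℝ))) (((1687 : ℕ) : ℝ) / ((250 : ℕ) : ℝ)) 15 hd0 (by norm_num) hch0) ≤ ((19071 : ℕ) : ℝ) / ((131072 : ℕ) : ℝ) :=
  momR_gw_le (by norm_num) invE hP (by decide +kernel)
/-- the closure window `mu ∈ [38/100, 39/100]` -/
theorem exit : CloLite.ExitPR ((10000 : ℝ) / 39 ^ 2) ((10000 : ℝ) / 38 ^ 2) (301 / 1000) (19071 / 131072) := by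
  have := CloLite.exitPR_of_upper (d₁ := (10000 : ℝ) / 39 ^ 2) (d₂ := (10000 : ℝ) / 38 ^ 2) (mu := (((39 : ℕ) : ℝ) / ((100 : ℕ) : ℝ)))
    (d' := (((1687 : ℕ) : ℝ) / ((250 : ℕ) : ℝ))) (x := (((301 : ℕ) : ℝ) / ((1000 : ℕ) : ℝ))) (r0 := (((19071 : ℕ) : ℝ) / ((131072 : ℕ) : ℝ)))
    (by norm_num) (by norm_num) (by norm_num) (by norm_num) hd0 hch0 hs hr
  simpa using this
end Crest.Agent.Lib.Bc.GridO.W38
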