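import Crest.Agent.Lib.Bc.GridPFR
import Crest.Agent.Lib.Bc.CloLite.Wire2
/-! Row 163: the Poisson grid orbit of the closure window `mu ∈ [39/100, 40/100]`: upper chain `d' = 6411/1000`, tilt `-2/5`,
grid size 24, weights in units of `2^-28`; at level 13: `s < 282/1000`, `r ≤ 132225/1048576`. -/
set_option maxRecDepth 1000000
open Crest.ProbabilityR.Broadcast
namespace Crest.Agent.Lib.Bc.GridO.W39
def ks : List ℕ := [nat_lit 9,nat_lit 10,nat_lit 18,nat_lit 19,nat_lit 20,nat_lit 27,nat_lit 28,nat_lit 29,nat_lit 30,nat_lit 36,nat_lit 37,nat_lit 38,nat_lit 39,nat_lit 40,nat_lit 45,nat_lit 46,nat_lit 47,nat_lit 48,nat_lit 49,nat_lit 50,nat_lit 54,nat_lit 55,nat_lit 56,nat_lit 57,nat_lit 58,nat_lit 59,nat_lit 60,nat_lit 63,nat_lit 64,nat_lit 65,nat_lit 66,nat_lit 67,nat_lit 68,nat_lit 69,nat_lit 70,nat_lit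 72,nat_lit 73,nat_lit 74,nat_lit 75,nat_lit 76,nat_lit 77,nat_lit 78,nat_lit 79,nat_lit 80,nat_lit 81,nat_lit 82,nat_lit 83,nat_lit 84,nat_lit 85,nat_lit 86,nat_lit 87,nat_lit 90,nat_lit 91,nat_lit 92,nat_lit 93,nat_lit 94,nat_lit 99,nat_lit 100,nat_lit 101,nat_lit 108]
def P : List Pt := [⟨nat_lit 24,nat_lit 0,nat_lit 0⟩,⟨nat_lit 23,nat_lit 1,nat_lit 0⟩,⟨nat_lit 22,nat_lit 1,nat_lit 1⟩,⟨nat_lit 22,nat_lit 2,nat_lit 0⟩,⟨nat_lit 21,nat_lit 2,nat_lit 1⟩,⟨nat_lit 20,nat_lit 2,nat_lit 2⟩,⟨nat_lit 21,nat_lit 3,nat_lit 0⟩,⟨nat_lit 20,nat_lit 3,nat_lit 1⟩,⟨nat_lit 19,nat_lit 3,nat_lit 2⟩,⟨nat_lit 18,nat_lit 3,nat_lit 3⟩,⟨nat_lit 20,nat_lit 4,nat_lit 0⟩,⟨nat_lit 19,nat_lit 4,nat_lit 1⟩,⟨nat_lit 18,nat_lit 4,nat_lit 2⟩,⟨nat_lit 17,nat_lit 4,nat_lit 3⟩,⟨nat_lit 16,nat_lit 4,nat_lit 4⟩,⟨nat_lit 19,nat_lit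 5,nat_lit 0⟩,⟨nat_lit 18,nat_lit 5,nat_lit 1⟩,⟨nat_lit 17,nat_lit 5,nat_lit 2⟩,⟨nat_lit 16,nat_lit 5,nat_lit 3⟩,⟨nat_lit 15,nat_lit 5,nat_lit 4⟩,⟨nat_lit 14,nat_lit 5,nat_lit 5⟩,⟨nat_lit 18,nat_lit 6,nat_lit 0⟩,⟨nat_lit 17,nat_lit 6,nat_lit 1⟩,⟨nat_lit 16,nat_lit 6,nat_lit 2⟩,⟨nat_lit 15,nat_lit 6,nat_lit 3⟩,⟨nat_lit 14,nat_lit 6,nat_lit 4⟩,⟨nat_lit 13,nat_lit 6,nat_lit 5⟩,⟨nat_lit 12,nat_lit 6,nat_lit 6⟩,⟨nat_lit 17,nat_lit 7,nat_lit 0⟩,⟨nat_lit 16,nat_lit 7,nat_lit 1⟩,⟨nat_lit 15,nat_lit 7,nat_lit 2⟩,⟨nat_lit 14,nat_lit 7,nat_lit 3⟩,⟨nat_lit 13,nat_lit 7,nat_lit 4⟩,⟨nat_lit 12,nat_lit 7,nat_lit 5⟩,⟨nat_lit 11,nat_lit 7,nat_lit 6⟩,⟨nat_lit 10,nat_lit 7,nat_lit 7⟩,⟨nat_lit 16,nat_lit 8,nat_lit 0⟩,⟨nat_lit 15,nat_lit 8,nat_lit 1⟩,⟨nat_lit 14,nat_lit 8,nat_lit 2⟩,⟨nat_lit 13,nat_lit 8,nat_lit 3⟩,⟨nat_lit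 12,nat_lit 8,nat_lit 4⟩,⟨nat_lit 11,nat_lit 8,nat_lit 5⟩,⟨nat_lit 10,nat_lit 8,nat_lit 6⟩,⟨nat_lit 9,nat_lit 8,nat_lit 7⟩,⟨nat_lit 8,nat_lit 8,nat_lit 8⟩,⟨nat_lit 15,nat_lit 9,nat_lit 0⟩,⟨nat_lit 14,nat_lit 9,nat_lit 1⟩,⟨nat_lit 13,nat_lit 9,nat_lit 2⟩,⟨nat_lit 12,nat_lit 9,nat_lit 3⟩,⟨nat_lit 11,nat_lit 9,nat_lit 4⟩,⟨nat_lit 10,nat_lit 9,nat_lit 5⟩,⟨nat_lit 9,nat_lit 9,nat_lit 6⟩,⟨nat_lit 14,nat_lit 10,nat_lit 0⟩,⟨nat_lit 13,nat_lit 10,nat_lit 1⟩,⟨nat_lit 12,nat_lit 10,nat_lit 2⟩,⟨nat_lit 11,nat_lit 10,nat_lit 3⟩,⟨nat_lit 10,nat_lit 10,nat_lit 4⟩,⟨nat_lit 13,nat_lit 11,nat_lit 0⟩,⟨nat_lit 12,nat_lit 11,nat_lit 1⟩,⟨nat_lit 11,nat_lit 11,nat_lit 2⟩,⟨nat_lit 12,nat_lit 12,nat_lit 0⟩]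
def K : List Pt := [⟨nat_lit 24,nat_lit 168,nat_lit 168⟩,⟨nat_lit 30,nat_lit 162,nat_lit 168⟩,⟨nat_lit 36,nat_lit 162,nat_lit 162⟩,⟨nat_lit 36,nat_lit 156,nat_lit 168⟩,⟨nat_lit 42,nat_lit 156,nat_lit 162⟩,⟨nat_lit 48,nat_lit 156,nat_lit 156⟩,⟨nat_lit 42,nat_lit 150,nat_lit 168⟩,⟨nat_lit 48,nat_lit 150,nat_lit 162⟩,⟨nat_lit 54,nat_lit 150,nat_lit 156⟩,⟨nat_lit 60,nat_lit 150,nat_lit 150⟩,⟨nat_lit 48,nat_lit 144,nat_lit 168⟩,⟨nat_lit 54,nat_lit 144,nat_lit 162⟩,⟨nat_lit 60,nat_lit 144,nat_lit 156⟩,⟨nat_lit 66,nat_lit 144,nat_lit 150⟩,⟨nat_lit 72,nat_lit 144,nat_lit 144⟩,⟨nat_lit 54,nat_lit 138,nat_lit 168⟩,⟨nat_lit 60,nat_lit 138,nat_lit 162⟩,⟨nat_lit 66,nat_lit 138,nat_lit 156⟩,⟨nat_lit 72,nat_lit 138,nat_lit 150⟩,⟨nat_lit 78,nat_lit 138,nat_lit 144⟩,⟨nat_lit 84,nat_lit 138,nat_lit 138⟩,⟨nat_lit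 60,nat_lit 132,nat_lit 168⟩,⟨nat_lit 66,nat_lit 132,nat_lit 162⟩,⟨nat_lit 72,nat_lit 132,nat_lit 156⟩,⟨nat_lit 78,nat_lit 132,nat_lit 150⟩,⟨nat_lit 84,nat_lit 132,nat_lit 144⟩,⟨nat_lit 90,nat_lit 132,nat_lit 138⟩,⟨nat_lit 96,nat_lit 132,nat_lit 132⟩,⟨nat_lit 66,nat_lit 126,nat_lit 168⟩,⟨nat_lit 72,nat_lit 126,nat_lit 162⟩,⟨nat_lit 78,nat_lit 126,nat_lit 156⟩,⟨nat_lit 84,nat_lit 126,nat_lit 150⟩,⟨nat_lit 90,nat_lit 126,nat_lit 144⟩,⟨nat_lit 96,nat_lit 126,nat_lit 138⟩,⟨nat_lit 102,nat_lit 126,nat_lit 132⟩,⟨nat_lit 108,nat_lit 126,nat_lit 126⟩,⟨nat_lit 72,nat_lit 120,nat_lit 168⟩,⟨nat_lit 78,nat_lit 120,nat_lit 162⟩,⟨nat_lit 84,nat_lit 120,nat_lit 156⟩,⟨nat_lit 90,nat_lit 120,nat_lit 150⟩,⟨nat_lit 96,nat_lit 120,nat_lit 144⟩,⟨nat_lit 102,nat_lit 120,nat_lit 138⟩,⟨nat_lit 108,nat_lit 120,nat_lit 132⟩,⟨nat_lit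 114,nat_lit 120,nat_lit 126⟩,⟨nat_lit 120,nat_lit 120,nat_lit 120⟩,⟨nat_lit 78,nat_lit 114,nat_lit 168⟩,⟨nat_lit 84,nat_lit 114,nat_lit 162⟩,⟨nat_lit 90,nat_lit 114,nat_lit 156⟩,⟨nat_lit 96,nat_lit 114,nat_lit 150⟩,⟨nat_lit 102,nat_lit 114,nat_lit 144⟩,⟨nat_lit 108,nat_lit 114,nat_lit 138⟩,⟨nat_lit 114,nat_lit 114,nat_lit 132⟩,⟨nat_lit 84,nat_lit 108,nat_lit 168⟩,⟨nat_lit 90,nat_lit 108,nat_lit 162⟩,⟨nat_lit 96,nat_lit 108,nat_lit 156⟩,⟨nat_lit 102,nat_lit 108,nat_lit 150⟩,⟨nat_lit 108,nat_lit 108,nat_lit 144⟩,⟨nat_lit 90,nat_lit 102,nat_lit 168⟩,⟨nat_lit 96,nat_lit 102,nat_lit 162⟩,⟨nat_lit 102,nat_lit 102,nat_lit 156⟩,⟨nat_lit 96,nat_lit 96,nat_lit 168⟩]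
theorem hP0 : eqPtsP P (ptsOf 24 9 ks) = true := by decide +kernel
theorem hK0 : eqPtsP K (P.map (tiltPtQ 2 5 24)) = true := by decide +kernel
theorem hP : P = ptsOf 24 9 ks := eqPtsP_eq _ _ hP0
theorem hK : K = P.map (tiltPtQ 2 5 24) := eqPtsP_eq _ _ hK0
theorem hnodup : ks.Nodup := by decide +kernel
theorem hvalid : ∀ k ∈ ks, k < 117 ∧ Valid 24 9 k := by
  have : ∀ k ∈ ks, k < 117 ∧ k / 9 + k % 9 ≤ 24 := by decide +kernel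
  exact this
def g0 : List ℕ := [nat_lit 0,nat_lit 0,nat_lit 0,nat_lit 0,nat_lit 0,nat_lit 0,nat_lit 0,nat_lit 0,nat_lit 0,nat_lit 0,nat_lit 0,nat_lit 0,nat_lit 0,nat_lit 0,nat_lit 0,nat_lit 0,nat_lit 0,nat_lit 0,nat_lit 0,nat_lit 0,nat_lit 0,nat_lit 0,nat_lit 0,nat_lit 0,nat_lit 0,nat_lit 0,nat_lit 0,nat_lit 0,nat_lit 0,nat_lit 0,nat_lit 0,nat_lit 0,nat_lit 0,nat_lit 0,nat_lit 0,nat_lit 0,nat_lit 0,nat_lit 0,nat_lit 0,nat_lit 0,nat_lit 0,nat_lit 0,nat_lit 0,nat_lit 0,nat_lit 268435456,nat_lit 0,nat_lit 0,nat_lit 0,nat_lit 0,nat_lit 0,nat_lit 0,nat_lit 0,nat_lit 0,nat_lit 0,nat_lit 0,nat_lit 0,nat_lit 0,nat_lit 0,nat_lit 0,nat_lit 0,nat_lit 0]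
def ms : List ℕ := [nat_lit 441141,nat_lit 2828158,nat_lit 9065661,nat_lit 19373319,nat_lit 31050587,nat_lit 39813063,nat_lit 42540258,nat_lit 38960799,nat_lit 31222210,nat_lit 22240621,nat_lit 14258462,nat_lit 8310091,nat_lit 4439666,nat_lit 2189438,nat_lit 1002606,nat_lit 428513,nat_lit 171700,nat_lit 64751,nat_lit 23062,nat_lit 7781,nat_lit 2494,nat_lit 761]
theorem hg0 : Good 24 268435456 (ptsOf 24 9 ks) g0 := by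
  rw [← hP]
  refine ⟨by norm_num, by norm_num, ?_, ?_, ?_⟩
  · have : ∀ p ∈ P, p.a + p.b + p.c = 24 := by decide +kernel
    exact this
  · decide +kernel
  · decide +kernel
theorem hd0 : (0 : ℝ) ≤ (((6411 : ℕ) : ℝ) / ((1000 : ℕ) : ℝ)) := by positivity
theorem hq0 : ∀ i, i < ms.length → ((ms.getD i 0 : ℕ) : ℝ) / ((268435456 : ℕ) : ℝ)
    ≤ Real.exp (-(((6411 : ℕ) : ℝ) / ((1000 : ℕ) : ℝ))) * (((6411 : ℕ) : ℝ) / ((1000 : ℕ) : ℝ)) ^ i / Nat.factorial i :=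
  hq_of_chk (a := 6411) (b := 1000) (en := 462570431152) (ed := 281474976710656) (by norm_num) (by norm_num) (by norm_num)
    (by decide +kernel) (by decide +kernel)
theorem setup : SetupP 24 9 71 117 268435456 2 5 268435456 ks g0 ms (((6411 : ℕ) : ℝ) / ((1000 : ℕ) : ℝ)) :=
  ⟨by norm_num, by norm_num, by norm_num, by norm_num, by norm_num, by norm_num, by norm_num, by norm_num,
    by norm_num, hnodup, hvalid, hg0, by decide +kernel, hd0, hq0⟩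
theorem hB : 2361183241434822606848 = 2 ^ 71 := by norm_num
theorem hT : 1245155224975394734080 = 2 * 24 * (3 * 5 * 24) * 268435456 * 268435456 := by norm_num
theorem hTE : 72057594037927936 = 268435456 * 268435456 := by norm_num
theorem hdfc : 84288733184 = (268435456 - ms.sum) * 268435456 := by decide +kernel
lemma hch0 (i j : Fin 3) : 0 ≤ channel 3 (-(((2 : ℕ) : ℝ) / ((5 : ℕ) : ℝ))) i j :=
  ch3 (by norm_num) (by norm_num) i j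
def w0 : List ℕ := [nat_lit 268435456,nat_lit 0,nat_lit 0,nat_lit 0,nat_lit 0,nat_lit 0,nat_lit 0,nat_lit 0,nat_lit 0,nat_lit 0,nat_lit 0,nat_lit 0,nat_lit 0,nat_lit 0,nat_lit 0,nat_lit 0,nat_lit 0,nat_lit 0,nat_lit 0,nat_lit 0,nat_lit 0,nat_lit 0,nat_lit 0,nat_lit 0,nat_lit 0,nat_lit 0,nat_lit 0,nat_lit 0,nat_lit 0,nat_lit 0,nat_lit 0,nat_lit 0,nat_lit 0,nat_lit 0,nat_lit 0,nat_lit 0,nat_lit 0,nat_lit 0,nat_lit 0,nat_lit 0,nat_lit 0,nat_lit 0,nat_lit 0,nat_lit 0,nat_lit 0,nat_lit 0,nat_lit 0,nat_lit 0,nat_lit 0,nat_lit 0,nat_lit 0,nat_lit 0,nat_lit 0,nat_lit 0,nat_lit 0,nat_lit 0,nat_lit 0,nat_lit 0,nat_lit 0,nat_lit 0,nat_lit 0]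
theorem h0 : w0 = 268435456 :: List.replicate ks.length 0 := by decide +kernel
theorem inv0 : InvP (-(((2 : ℕ) : ℝ) / ((5 : ℕ) : ℝ))) (((6411 : ℕ) : ℝ) / ((1000 : ℕ) : ℝ)) hd0 hch0 24 9 268435456 ks 0 w0 := by
  rw [h0]
  exact InvP.zero setup
def wE : List ℕ := [nat_lit 1840999,nat_lit 4713684,nat_lit 3113375,nat_lit 4856533,nat_lit 6006440,nat_lit 2968340,nat_lit 4598356,nat_lit 5673366,nat_lit 5628047,nat_lit 2751723,nat_lit 4372802,nat_lit 5399804,nat_lit 5401018,nat_lit 5243994,nat_lit 2495114,nat_lit 4210171,nat_lit 5184896,nat_lit 5243670,nat_lit 5129203,nat_lit 4831971,nat_lit 2392217,nat_lit 4105218,nat_lit 5078666,nat_lit 5200590,nat_lit 5031570,nat_lit 4814782,nat_lit 4714312,nat_lit 2318337,nat_lit 4039256,nat_lit 5060546,nat_lit 5179309,nat_lit 5051503,nat_lit 4792084,nat_lit 4704537,nat_lit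 4785344,nat_lit 2377235,nat_lit 4035324,nat_lit 5084894,nat_lit 5261880,nat_lit 5091754,nat_lit 4786786,nat_lit 4871789,nat_lit 4876467,nat_lit 4683628,nat_lit 1231167,nat_lit 4029384,nat_lit 5180643,nat_lit 5352844,nat_lit 5105238,nat_lit 4996012,nat_lit 4924593,nat_lit 2384176,nat_lit 4073811,nat_lit 5275728,nat_lit 5467871,nat_lit 5393471,nat_lit 2581632,nat_lit 4119274,nat_lit 5405404,nat_lit 2831929,nat_lit 2080745]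
theorem chk : eqF (levelsPF 71 2361183241434822606848 1245155224975394734080 72057594037927936 268435456 (mkTabF 24 9 71 P K) ks (0 :: ks) g0 ms 84288733184 13 w0) wE = true := by
  decide +kernel
theorem invE : InvP (-(((2 : ℕ) : ℝ) / ((5 : ℕ) : ℝ))) (((6411 : ℕ) : ℝ) / ((1000 : ℕ) : ℝ)) hd0 hch0 24 9 268435456 ks 13 wE :=
  InvP.check (m := 0) (k := 13) setup hP hK hB hT hTE hdfc inv0 chk
theorem hs : momS (gwSL 3 (-(((2 : ℕ) : ℝ) / ((5 : ℕ) : ℝ))) (((6411 : ℕ) : ℝ) / ((1000 : ℕ) : ℝ)) 13 hd0 (by norm_num) hch0) < ((282 : ℕ) : ℝ) / ((1000 : ℕ) : ℝ) :=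
  momS_gw_lt (by norm_num) invE hP (by decide +kernel)
theorem hr : momR (gwSL 3 (-(((2 : ℕ) : ℝ) / ((5 : ℕ) : ℝ))) (((6411 : ℕ) : ℝ) / ((1000 : ℕ) : ℝ)) 13 hd0 (by norm_num) hch0) ≤ ((132225 : ℕ) : ℝ) / ((1048576 : ℕ) : ℝ) :=
  momR_gw_le (by norm_num) invE hP (by decide +kernel)
/-- the closure window `mu ∈ [39/100, 40/100]` -/
theorem exit : CloLite.ExitPR ((10000 : ℝ) / 40 ^ 2) ((10000 : ℝ) / 39 ^ 2) (282 / 1000) (132225 / 1048576) := by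
  have := CloLite.exitPR_of_upper (d₁ := (10000 : ℝ) / 40 ^ 2) (d₂ := (10000 : ℝ) / 39 ^ 2) (mu := (((2 : ℕ) : ℝ) / ((5 : ℕ) : ℝ)))
    (d' := (((6411 : ℕ) : ℝ) / ((1000 : ℕ) : ℝ))) (x := (((282 : ℕ) : ℝ) / ((1000 : ℕ) : ℝ))) (r0 := (((132225 : ℕ) : ℝ) / ((1048576 : ℕ) : ℝ)))
    (by norm_num) (by norm_num) (by norm_num) (by norm_num) hd0 hch0 hs hr
  simpa using this
end Crest.Agent.Lib.Bc.GridO.W39
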