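import Crest.Agent.Lib.Bc.GridPFR
import Crest.Agent.Lib.Bc.CloLite.Wire2
/-! Row 163: the Poisson grid orbit of the closure window `mu ∈ [40/100, 41/100]`: upper chain `d' = 3049/500`, tilt `-41/100`,
grid size 24, weights in units of `2^-28`; at level 16: `s < 263/1000`, `r ≤ 58993/524288`. -/
set_option maxRecDepth 1000000
open Crest.ProbabilityR.Broadcast
namespace Crest.Agent.Lib.Bc.GridO.W40
def ks : List ℕ := [nat_lit 9,nat_lit 10,nat_lit 18,nat_lit 19,nat_lit 20,nat_lit 27,nat_lit 28,nat_lit 29,nat_lit 30,nat_lit 36,nat_lit 37,nat_lit 38,nat_lit 39,nat_lit 40,nat_lit 45,nat_lit 46,nat_lit 47,nat_lit 48,nat_lit 49,nat_lit 50,nat_lit 54,nat_lit 55,nat_lit 56,nat_lit 57,nat_lit 58,nat_lit 59,nat_lit 60,nat_lit 63,nat_lit 64,nat_lit 65,nat_lit 66,nat_lit 67,nat_lit 68,nat_lit 69,nat_lit 70,nat_lit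 72,nat_lit 73,nat_lit 74,nat_lit 75,nat_lit 76,nat_lit 77,nat_lit 78,nat_lit 79,nat_lit 80,nat_lit 81,nat_lit 82,nat_lit 83,nat_lit 84,nat_lit 85,nat_lit 86,nat_lit 87,nat_lit 90,nat_lit 91,nat_lit 92,nat_lit 93,nat_lit 94,nat_lit 99,nat_lit 100,nat_lit 101,nat_lit 108]
def P : List Pt := [⟨nat_lit 24,nat_lit 0,nat_lit 0⟩,⟨nat_lit 23,nat_lit 1,nat_lit 0⟩,⟨nat_lit 22,nat_lit 1,nat_lit 1⟩,⟨nat_lit 22,nat_lit 2,nat_lit 0⟩,⟨nat_lit 21,nat_lit 2,nat_lit 1⟩,⟨nat_lit 20,nat_lit 2,nat_lit 2⟩,⟨nat_lit 21,nat_lit 3,nat_lit 0⟩,⟨nat_lit 20,nat_lit 3,nat_lit 1⟩,⟨nat_lit 19,nat_lit 3,nat_lit 2⟩,⟨nat_lit 18,nat_lit 3,nat_lit 3⟩,⟨nat_lit 20,nat_lit 4,nat_lit 0⟩,⟨nat_lit 19,nat_lit 4,nat_lit 1⟩,⟨nat_lit 18,nat_lit 4,nat_lit 2⟩,⟨nat_lit 17,nat_lit 4,nat_lit 3⟩,⟨nat_lit 16,nat_lit 4,nat_lit 4⟩,⟨nat_lit 19,nat_lit 5,nat_lit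 0⟩,⟨nat_lit 18,nat_lit 5,nat_lit 1⟩,⟨nat_lit 17,nat_lit 5,nat_lit 2⟩,⟨nat_lit 16,nat_lit 5,nat_lit 3⟩,⟨nat_lit 15,nat_lit 5,nat_lit 4⟩,⟨nat_lit 14,nat_lit 5,nat_lit 5⟩,⟨nat_lit 18,nat_lit 6,nat_lit 0⟩,⟨nat_lit 17,nat_lit 6,nat_lit 1⟩,⟨nat_lit 16,nat_lit 6,nat_lit 2⟩,⟨nat_lit 15,nat_lit 6,nat_lit 3⟩,⟨nat_lit 14,nat_lit 6,nat_lit 4⟩,⟨nat_lit 13,nat_lit 6,nat_lit 5⟩,⟨nat_lit 12,nat_lit 6,nat_lit 6⟩,⟨nat_lit 17,nat_lit 7,nat_lit 0⟩,⟨nat_lit 16,nat_lit 7,nat_lit 1⟩,⟨nat_lit 15,nat_lit 7,nat_lit 2⟩,⟨nat_lit 14,nat_lit 7,nat_lit 3⟩,⟨nat_lit 13,nat_lit 7,nat_lit 4⟩,⟨nat_lit 12,nat_lit 7,nat_lit 5⟩,⟨nat_lit 11,nat_lit 7,nat_lit 6⟩,⟨nat_lit 10,nat_lit 7,nat_lit 7⟩,⟨nat_lit 16,nat_lit 8,nat_lit 0⟩,⟨nat_lit 15,nat_lit 8,nat_lit 1⟩,⟨nat_lit 14,nat_lit 8,nat_lit 2⟩,⟨nat_lit 13,nat_lit 8,nat_lit 3⟩,⟨nat_lit 12,nat_lit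 8,nat_lit 4⟩,⟨nat_lit 11,nat_lit 8,nat_lit 5⟩,⟨nat_lit 10,nat_lit 8,nat_lit 6⟩,⟨nat_lit 9,nat_lit 8,nat_lit 7⟩,⟨nat_lit 8,nat_lit 8,nat_lit 8⟩,⟨nat_lit 15,nat_lit 9,nat_lit 0⟩,⟨nat_lit 14,nat_lit 9,nat_lit 1⟩,⟨nat_lit 13,nat_lit 9,nat_lit 2⟩,⟨nat_lit 12,nat_lit 9,nat_lit 3⟩,⟨nat_lit 11,nat_lit 9,nat_lit 4⟩,⟨nat_lit 10,nat_lit 9,nat_lit 5⟩,⟨nat_lit 9,nat_lit 9,nat_lit 6⟩,⟨nat_lit 14,nat_lit 10,nat_lit 0⟩,⟨nat_lit 13,nat_lit 10,nat_lit 1⟩,⟨nat_lit 12,nat_lit 10,nat_lit 2⟩,⟨nat_lit 11,nat_lit 10,nat_lit 3⟩,⟨nat_lit 10,nat_lit 10,nat_lit 4⟩,⟨nat_lit 13,nat_lit 11,nat_lit 0⟩,⟨nat_lit 12,nat_lit 11,nat_lit 1⟩,⟨nat_lit 11,nat_lit 11,nat_lit 2⟩,⟨nat_lit 12,nat_lit 12,nat_lit 0⟩]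
def K : List Pt := [⟨nat_lit 432,nat_lit 3384,nat_lit 3384⟩,⟨nat_lit 555,nat_lit 3261,nat_lit 3384⟩,⟨nat_lit 678,nat_lit 3261,nat_lit 3261⟩,⟨nat_lit 678,nat_lit 3138,nat_lit 3384⟩,⟨nat_lit 801,nat_lit 3138,nat_lit 3261⟩,⟨nat_lit 924,nat_lit 3138,nat_lit 3138⟩,⟨nat_lit 801,nat_lit 3015,nat_lit 3384⟩,⟨nat_lit 924,nat_lit 3015,nat_lit 3261⟩,⟨nat_lit 1047,nat_lit 3015,nat_lit 3138⟩,⟨nat_lit 1170,nat_lit 3015,nat_lit 3015⟩,⟨nat_lit 924,nat_lit 2892,nat_lit 3384⟩,⟨nat_lit 1047,nat_lit 2892,nat_lit 3261⟩,⟨nat_lit 1170,nat_lit 2892,nat_lit 3138⟩,⟨nat_lit 1293,nat_lit 2892,nat_lit 3015⟩,⟨nat_lit 1416,nat_lit 2892,nat_lit 2892⟩,⟨nat_lit 1047,nat_lit 2769,nat_lit 3384⟩,⟨nat_lit 1170,nat_lit 2769,nat_lit 3261⟩,⟨nat_lit 1293,nat_lit 2769,nat_lit 3138⟩,⟨nat_lit 1416,nat_lit 2769,nat_lit 3015⟩,⟨nat_lit 1539,nat_lit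 2769,nat_lit 2892⟩,⟨nat_lit 1662,nat_lit 2769,nat_lit 2769⟩,⟨nat_lit 1170,nat_lit 2646,nat_lit 3384⟩,⟨nat_lit 1293,nat_lit 2646,nat_lit 3261⟩,⟨nat_lit 1416,nat_lit 2646,nat_lit 3138⟩,⟨nat_lit 1539,nat_lit 2646,nat_lit 3015⟩,⟨nat_lit 1662,nat_lit 2646,nat_lit 2892⟩,⟨nat_lit 1785,nat_lit 2646,nat_lit 2769⟩,⟨nat_lit 1908,nat_lit 2646,nat_lit 2646⟩,⟨nat_lit 1293,nat_lit 2523,nat_lit 3384⟩,⟨nat_lit 1416,nat_lit 2523,nat_lit 3261⟩,⟨nat_lit 1539,nat_lit 2523,nat_lit 3138⟩,⟨nat_lit 1662,nat_lit 2523,nat_lit 3015⟩,⟨nat_lit 1785,nat_lit 2523,nat_lit 2892⟩,⟨nat_lit 1908,nat_lit 2523,nat_lit 2769⟩,⟨nat_lit 2031,nat_lit 2523,nat_lit 2646⟩,⟨nat_lit 2154,nat_lit 2523,nat_lit 2523⟩,⟨nat_lit 1416,nat_lit 2400,nat_lit 3384⟩,⟨nat_lit 1539,nat_lit 2400,nat_lit 3261⟩,⟨nat_lit 1662,nat_lit 2400,nat_lit 3138⟩,⟨nat_lit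 1785,nat_lit 2400,nat_lit 3015⟩,⟨nat_lit 1908,nat_lit 2400,nat_lit 2892⟩,⟨nat_lit 2031,nat_lit 2400,nat_lit 2769⟩,⟨nat_lit 2154,nat_lit 2400,nat_lit 2646⟩,⟨nat_lit 2277,nat_lit 2400,nat_lit 2523⟩,⟨nat_lit 2400,nat_lit 2400,nat_lit 2400⟩,⟨nat_lit 1539,nat_lit 2277,nat_lit 3384⟩,⟨nat_lit 1662,nat_lit 2277,nat_lit 3261⟩,⟨nat_lit 1785,nat_lit 2277,nat_lit 3138⟩,⟨nat_lit 1908,nat_lit 2277,nat_lit 3015⟩,⟨nat_lit 2031,nat_lit 2277,nat_lit 2892⟩,⟨nat_lit 2154,nat_lit 2277,nat_lit 2769⟩,⟨nat_lit 2277,nat_lit 2277,nat_lit 2646⟩,⟨nat_lit 1662,nat_lit 2154,nat_lit 3384⟩,⟨nat_lit 1785,nat_lit 2154,nat_lit 3261⟩,⟨nat_lit 1908,nat_lit 2154,nat_lit 3138⟩,⟨nat_lit 2031,nat_lit 2154,nat_lit 3015⟩,⟨nat_lit 2154,nat_lit 2154,nat_lit 2892⟩,⟨nat_lit 1785,nat_lit 2031,nat_lit 3384⟩,⟨nat_lit 1908,nat_lit 2031,nat_lit 3261⟩,⟨nat_lit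 2031,nat_lit 2031,nat_lit 3138⟩,⟨nat_lit 1908,nat_lit 1908,nat_lit 3384⟩]
theorem hP0 : eqPtsP P (ptsOf 24 9 ks) = true := by decide +kernel
theorem hK0 : eqPtsP K (P.map (tiltPtQ 41 100 24)) = true := by decide +kernel
theorem hP : P = ptsOf 24 9 ks := eqPtsP_eq _ _ hP0
theorem hK : K = P.map (tiltPtQ 41 100 24) := eqPtsP_eq _ _ hK0
theorem hnodup : ks.Nodup := by decide +kernel
theorem hvalid : ∀ k ∈ ks, k < 117 ∧ Valid 24 9 k := by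
  have : ∀ k ∈ ks, k < 117 ∧ k / 9 + k % 9 ≤ 24 := by decide +kernel
  exact this
def g0 : List ℕ := [nat_lit 0,nat_lit 0,nat_lit 0,nat_lit 0,nat_lit 0,nat_lit 0,nat_lit 0,nat_lit 0,nat_lit 0,nat_lit 0,nat_lit 0,nat_lit 0,nat_lit 0,nat_lit 0,nat_lit 0,nat_lit 0,nat_lit 0,nat_lit 0,nat_lit 0,nat_lit 0,nat_lit 0,nat_lit 0,nat_lit 0,nat_lit 0,nat_lit 0,nat_lit 0,nat_lit 0,nat_lit 0,nat_lit 0,nat_lit 0,nat_lit 0,nat_lit 0,nat_lit 0,nat_lit 0,nat_lit 0,nat_lit 0,nat_lit 0,nat_lit 0,nat_lit 0,nat_lit 0,nat_lit 0,nat_lit 0,nat_lit 0,nat_lit 0,nat_lit 268435456,nat_lit 0,nat_lit 0,nat_lit 0,nat_lit 0,nat_lit 0,nat_lit 0,nat_lit 0,nat_lit 0,nat_lit 0,nat_lit 0,nat_lit 0,nat_lit 0,nat_lit 0,nat_lit 0,nat_lit 0,nat_lit 0]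
def ms : List ℕ := [nat_lit 603270,nat_lit 3678743,nat_lit 11216489,nat_lit 22799385,nat_lit 34757662,nat_lit 42390445,nat_lit 43082822,nat_lit 37531293,nat_lit 28608228,nat_lit 19383664,nat_lit 11820158,nat_lit 6552665,nat_lit 3329846,nat_lit 1561954,nat_lit 680342,nat_lit 276581,nat_lit 105412,nat_lit 37812,nat_lit 12809,nat_lit 4111,nat_lit 1253]
theorem hg0 : Good 24 268435456 (ptsOf 24 9 ks) g0 := by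
  rw [← hP]
  refine ⟨by norm_num, by norm_num, ?_, ?_, ?_⟩
  · have : ∀ p ∈ P, p.a + p.b + p.c = 24 := by decide +kernel
    exact this
  · decide +kernel
  · decide +kernel
theorem hd0 : (0 : ℝ) ≤ (((3049 : ℕ) : ℝ) / ((500 : ℕ) : ℝ)) := by positivity
theorem hq0 : ∀ i, i < ms.length → ((ms.getD i 0 : ℕ) : ℝ) / ((268435456 : ℕ) : ℝ)
    ≤ Real.exp (-(((3049 : ℕ) : ℝ) / ((500 : ℕ) : ℝ))) * (((3049 : ℕ) : ℝ) / ((500 : ℕ) : ℝ)) ^ i / Nat.factorial i :=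
  hq_of_chk (a := 3049) (b := 500) (en := 632575024217) (ed := 281474976710656) (by norm_num) (by norm_num) (by norm_num)
    (by decide +kernel) (by decide +kernel)
theorem setup : SetupP 24 9 75 117 268435456 41 100 268435456 ks g0 ms (((3049 : ℕ) : ℝ) / ((500 : ℕ) : ℝ)) :=
  ⟨by norm_num, by norm_num, by norm_num, by norm_num, by norm_num, by norm_num, by norm_num, by norm_num,
    by norm_num, hnodup, hvalid, hg0, by decide +kernel, hd0, hq0⟩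
theorem hB : 37778931862957161709568 = 2 ^ 75 := by norm_num
theorem hT : 24903104499507894681600 = 2 * 24 * (3 * 100 * 24) * 268435456 * 268435456 := by norm_num
theorem hTE : 72057594037927936 = 268435456 * 268435456 := by norm_num
theorem hdfc : 137438953472 = (268435456 - ms.sum) * 268435456 := by decide +kernel
lemma hch0 (i j : Fin 3) : 0 ≤ channel 3 (-(((41 : ℕ) : ℝ) / ((100 : ℕ) : ℝ))) i j :=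
  ch3 (by norm_num) (by norm_num) i j
def w0 : List ℕ := [nat_lit 268435456,nat_lit 0,nat_lit 0,nat_lit 0,nat_lit 0,nat_lit 0,nat_lit 0,nat_lit 0,nat_lit 0,nat_lit 0,nat_lit 0,nat_lit 0,nat_lit 0,nat_lit 0,nat_lit 0,nat_lit 0,nat_lit 0,nat_lit 0,nat_lit 0,nat_lit 0,nat_lit 0,nat_lit 0,nat_lit 0,nat_lit 0,nat_lit 0,nat_lit 0,nat_lit 0,nat_lit 0,nat_lit 0,nat_lit 0,nat_lit 0,nat_lit 0,nat_lit 0,nat_lit 0,nat_lit 0,nat_lit 0,nat_lit 0,nat_lit 0,nat_lit 0,nat_lit 0,nat_lit 0,nat_lit 0,nat_lit 0,nat_lit 0,nat_lit 0,nat_lit 0,nat_lit 0,nat_lit 0,nat_lit 0,nat_lit 0,nat_lit 0,nat_lit 0,nat_lit 0,nat_lit 0,nat_lit 0,nat_lit 0,nat_lit 0,nat_lit 0,nat_lit 0,nat_lit 0,nat_lit 0]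
theorem h0 : w0 = 268435456 :: List.replicate ks.length 0 := by decide +kernel
theorem inv0 : InvP (-(((41 : ℕ) : ℝ) / ((100 : ℕ) : ℝ))) (((3049 : ℕ) : ℝ) / ((500 : ℕ) : ℝ)) hd0 hch0 24 9 268435456 ks 0 w0 := by
  rw [h0]
  exact InvP.zero setup
def wE : List ℕ := [nat_lit 1315561,nat_lit 3665720,nat_lit 2625627,nat_lit 3935815,nat_lit 5297185,nat_lit 2719953,nat_lit 3838829,nat_lit 5182945,nat_lit 5340085,nat_lit 2690248,nat_lit 3730450,nat_lit 5036172,nat_lit 5242584,nat_lit 5254904,nat_lit 2557970,nat_lit 3647849,nat_lit 4923981,nat_lit 5171731,nat_lit 5217328,nat_lit 5067837,nat_lit 2530011,nat_lit 3610663,nat_lit 4916477,nat_lit 5212373,nat_lit 5239518,nat_lit 5136637,nat_lit 5130465,nat_lit 2563309,nat_lit 3598244,nat_lit 4968339,nat_lit 5285654,nat_lit 5320374,nat_lit 5183965,nat_lit 5166681,nat_lit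 5391764,nat_lit 2715847,nat_lit 3619087,nat_lit 5058929,nat_lit 5408323,nat_lit 5440628,nat_lit 5232883,nat_lit 5447114,nat_lit 5526992,nat_lit 5387072,nat_lit 1515565,nat_lit 3659152,nat_lit 5192269,nat_lit 5562762,nat_lit 5518744,nat_lit 5546793,nat_lit 5522828,nat_lit 2736743,nat_lit 3711520,nat_lit 5338906,nat_lit 5695122,nat_lit 5884248,nat_lit 2854403,nat_lit 3776518,nat_lit 5481820,nat_lit 2981695,nat_lit 1902245]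
theorem chk : eqF (levelsPF 75 37778931862957161709568 24903104499507894681600 72057594037927936 268435456 (mkTabF 24 9 75 P K) ks (0 :: ks) g0 ms 137438953472 16 w0) wE = true := by
  decide +kernel
theorem invE : InvP (-(((41 : ℕ) : ℝ) / ((100 : ℕ) : ℝ))) (((3049 : ℕ) : ℝ) / ((500 : ℕ) : ℝ)) hd0 hch0 24 9 268435456 ks 16 wE :=
  InvP.check (m := 0) (k := 16) setup hP hK hB hT hTE hdfc inv0 chk
theorem hs : momS (gwSL 3 (-(((41 : ℕ) : ℝ) / ((100 : ℕ) : ℝ))) (((3049 : ℕ) : ℝ) / ((500 : ℕ) : ℝ)) 16 hd0 (by norm_num) hch0) < ((263 : ℕ) : ℝ) / ((1000 : ℕ) : ℝ) :=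
  momS_gw_lt (by norm_num) invE hP (by decide +kernel)
theorem hr : momR (gwSL 3 (-(((41 : ℕ) : ℝ) / ((100 : ℕ) : ℝ))) (((3049 : ℕ) : ℝ) / ((500 : ℕ) : ℝ)) 16 hd0 (by norm_num) hch0) ≤ ((58993 : ℕ) : ℝ) / ((524288 : ℕ) : ℝ) :=
  momR_gw_le (by norm_num) invE hP (by decide +kernel)
/-- the closure window `mu ∈ [40/100, 41/100]` -/
theorem exit : CloLite.ExitPR ((10000 : ℝ) / 41 ^ 2) ((10000 : ℝ) / 40 ^ 2) (263 / 1000) (58993 / 524288) := by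
  have := CloLite.exitPR_of_upper (d₁ := (10000 : ℝ) / 41 ^ 2) (d₂ := (10000 : ℝ) / 40 ^ 2) (mu := (((41 : ℕ) : ℝ) / ((100 : ℕ) : ℝ)))
    (d' := (((3049 : ℕ) : ℝ) / ((500 : ℕ) : ℝ))) (x := (((263 : ℕ) : ℝ) / ((1000 : ℕ) : ℝ))) (r0 := (((58993 : ℕ) : ℝ) / ((524288 : ℕ) : ℝ)))
    (by norm_num) (by norm_num) (by norm_num) (by norm_num) hd0 hch0 hs hr
  simpa using this
end Crest.Agent.Lib.Bc.GridO.W40
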