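import Crest.Agent.Lib.Bc.GridPFR
import Crest.Agent.Lib.Bc.CloLite.Wire2
/-! Row 163: the Poisson grid orbit of the closure window `mu ∈ [41/100, 42/100]`: upper chain `d' = 726/125`, tilt `-21/50`,
grid size 24, weights in units of `2^-28`; at level 21: `s < 240/1000`, `r ≤ 6357/65536`. -/
set_option maxRecDepth 1000000
open Crest.ProbabilityR.Broadcast
namespace Crest.Agent.Lib.Bc.GridO.W41
def ks : List ℕ := [nat_lit 9,nat_lit 10,nat_lit 18,nat_lit 19,nat_lit 20,nat_lit 27,nat_lit 28,nat_lit 29,nat_lit 30,nat_lit 36,nat_lit 37,nat_lit 38,nat_lit 39,nat_lit 40,nat_lit 45,nat_lit 46,nat_lit 47,nat_lit 48,nat_lit 49,nat_lit 50,nat_lit 54,nat_lit 55,nat_lit 56,nat_lit 57,nat_lit 58,nat_lit 59,nat_lit 60,nat_lit 63,nat_lit 64,nat_lit 65,nat_lit 66,nat_lit 67,nat_lit 68,nat_lit 69,nat_lit 70,nat_lit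 72,nat_lit 73,nat_lit 74,nat_lit 75,nat_lit 76,nat_lit 77,nat_lit 78,nat_lit 79,nat_lit 80,nat_lit 81,nat_lit 82,nat_lit 83,nat_lit 84,nat_lit 85,nat_lit 86,nat_lit 87,nat_lit 90,nat_lit 91,nat_lit 92,nat_lit 93,nat_lit 94,nat_lit 99,nat_lit 100,nat_lit 101,nat_lit 108]
def P : List Pt := [⟨nat_lit 24,nat_lit 0,nat_lit 0⟩,⟨nat_lit 23,nat_lit 1,nat_lit 0⟩,⟨nat_lit 22,nat_lit 1,nat_lit 1⟩,⟨nat_lit 22,nat_lit 2,nat_lit 0⟩,⟨nat_lit 21,nat_lit 2,nat_lit 1⟩,⟨nat_lit 20,nat_lit 2,nat_lit 2⟩,⟨nat_lit 21,nat_lit 3,nat_lit 0⟩,⟨nat_lit 20,nat_lit 3,nat_lit 1⟩,⟨nat_lit 19,nat_lit 3,nat_lit 2⟩,⟨nat_lit 18,nat_lit 3,nat_lit 3⟩,⟨nat_lit 20,nat_lit 4,nat_lit 0⟩,⟨nat_lit 19,nat_lit 4,nat_lit 1⟩,⟨nat_lit 18,nat_lit 4,nat_lit 2⟩,⟨nat_lit 17,nat_lit 4,nat_lit 3⟩,⟨nat_lit 16,nat_lit 4,nat_lit 4⟩,⟨nat_lit 19,nat_lit 5,nat_lit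 0⟩,⟨nat_lit 18,nat_lit 5,nat_lit 1⟩,⟨nat_lit 17,nat_lit 5,nat_lit 2⟩,⟨nat_lit 16,nat_lit 5,nat_lit 3⟩,⟨nat_lit 15,nat_lit 5,nat_lit 4⟩,⟨nat_lit 14,nat_lit 5,nat_lit 5⟩,⟨nat_lit 18,nat_lit 6,nat_lit 0⟩,⟨nat_lit 17,nat_lit 6,nat_lit 1⟩,⟨nat_lit 16,nat_lit 6,nat_lit 2⟩,⟨nat_lit 15,nat_lit 6,nat_lit 3⟩,⟨nat_lit 14,nat_lit 6,nat_lit 4⟩,⟨nat_lit 13,nat_lit 6,nat_lit 5⟩,⟨nat_lit 12,nat_lit 6,nat_lit 6⟩,⟨nat_lit 17,nat_lit 7,nat_lit 0⟩,⟨nat_lit 16,nat_lit 7,nat_lit 1⟩,⟨nat_lit 15,nat_lit 7,nat_lit 2⟩,⟨nat_lit 14,nat_lit 7,nat_lit 3⟩,⟨nat_lit 13,nat_lit 7,nat_lit 4⟩,⟨nat_lit 12,nat_lit 7,nat_lit 5⟩,⟨nat_lit 11,nat_lit 7,nat_lit 6⟩,⟨nat_lit 10,nat_lit 7,nat_lit 7⟩,⟨nat_lit 16,nat_lit 8,nat_lit 0⟩,⟨nat_lit 15,nat_lit 8,nat_lit 1⟩,⟨nat_lit 14,nat_lit 8,nat_lit 2⟩,⟨nat_lit 13,nat_lit 8,nat_lit 3⟩,⟨nat_lit 12,nat_lit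 8,nat_lit 4⟩,⟨nat_lit 11,nat_lit 8,nat_lit 5⟩,⟨nat_lit 10,nat_lit 8,nat_lit 6⟩,⟨nat_lit 9,nat_lit 8,nat_lit 7⟩,⟨nat_lit 8,nat_lit 8,nat_lit 8⟩,⟨nat_lit 15,nat_lit 9,nat_lit 0⟩,⟨nat_lit 14,nat_lit 9,nat_lit 1⟩,⟨nat_lit 13,nat_lit 9,nat_lit 2⟩,⟨nat_lit 12,nat_lit 9,nat_lit 3⟩,⟨nat_lit 11,nat_lit 9,nat_lit 4⟩,⟨nat_lit 10,nat_lit 9,nat_lit 5⟩,⟨nat_lit 9,nat_lit 9,nat_lit 6⟩,⟨nat_lit 14,nat_lit 10,nat_lit 0⟩,⟨nat_lit 13,nat_lit 10,nat_lit 1⟩,⟨nat_lit 12,nat_lit 10,nat_lit 2⟩,⟨nat_lit 11,nat_lit 10,nat_lit 3⟩,⟨nat_lit 10,nat_lit 10,nat_lit 4⟩,⟨nat_lit 13,nat_lit 11,nat_lit 0⟩,⟨nat_lit 12,nat_lit 11,nat_lit 1⟩,⟨nat_lit 11,nat_lit 11,nat_lit 2⟩,⟨nat_lit 12,nat_lit 12,nat_lit 0⟩]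
def K : List Pt := [⟨nat_lit 192,nat_lit 1704,nat_lit 1704⟩,⟨nat_lit 255,nat_lit 1641,nat_lit 1704⟩,⟨nat_lit 318,nat_lit 1641,nat_lit 1641⟩,⟨nat_lit 318,nat_lit 1578,nat_lit 1704⟩,⟨nat_lit 381,nat_lit 1578,nat_lit 1641⟩,⟨nat_lit 444,nat_lit 1578,nat_lit 1578⟩,⟨nat_lit 381,nat_lit 1515,nat_lit 1704⟩,⟨nat_lit 444,nat_lit 1515,nat_lit 1641⟩,⟨nat_lit 507,nat_lit 1515,nat_lit 1578⟩,⟨nat_lit 570,nat_lit 1515,nat_lit 1515⟩,⟨nat_lit 444,nat_lit 1452,nat_lit 1704⟩,⟨nat_lit 507,nat_lit 1452,nat_lit 1641⟩,⟨nat_lit 570,nat_lit 1452,nat_lit 1578⟩,⟨nat_lit 633,nat_lit 1452,nat_lit 1515⟩,⟨nat_lit 696,nat_lit 1452,nat_lit 1452⟩,⟨nat_lit 507,nat_lit 1389,nat_lit 1704⟩,⟨nat_lit 570,nat_lit 1389,nat_lit 1641⟩,⟨nat_lit 633,nat_lit 1389,nat_lit 1578⟩,⟨nat_lit 696,nat_lit 1389,nat_lit 1515⟩,⟨nat_lit 759,nat_lit 1389,nat_lit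 1452⟩,⟨nat_lit 822,nat_lit 1389,nat_lit 1389⟩,⟨nat_lit 570,nat_lit 1326,nat_lit 1704⟩,⟨nat_lit 633,nat_lit 1326,nat_lit 1641⟩,⟨nat_lit 696,nat_lit 1326,nat_lit 1578⟩,⟨nat_lit 759,nat_lit 1326,nat_lit 1515⟩,⟨nat_lit 822,nat_lit 1326,nat_lit 1452⟩,⟨nat_lit 885,nat_lit 1326,nat_lit 1389⟩,⟨nat_lit 948,nat_lit 1326,nat_lit 1326⟩,⟨nat_lit 633,nat_lit 1263,nat_lit 1704⟩,⟨nat_lit 696,nat_lit 1263,nat_lit 1641⟩,⟨nat_lit 759,nat_lit 1263,nat_lit 1578⟩,⟨nat_lit 822,nat_lit 1263,nat_lit 1515⟩,⟨nat_lit 885,nat_lit 1263,nat_lit 1452⟩,⟨nat_lit 948,nat_lit 1263,nat_lit 1389⟩,⟨nat_lit 1011,nat_lit 1263,nat_lit 1326⟩,⟨nat_lit 1074,nat_lit 1263,nat_lit 1263⟩,⟨nat_lit 696,nat_lit 1200,nat_lit 1704⟩,⟨nat_lit 759,nat_lit 1200,nat_lit 1641⟩,⟨nat_lit 822,nat_lit 1200,nat_lit 1578⟩,⟨nat_lit 885,nat_lit 1200,nat_lit 1515⟩,⟨nat_lit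 948,nat_lit 1200,nat_lit 1452⟩,⟨nat_lit 1011,nat_lit 1200,nat_lit 1389⟩,⟨nat_lit 1074,nat_lit 1200,nat_lit 1326⟩,⟨nat_lit 1137,nat_lit 1200,nat_lit 1263⟩,⟨nat_lit 1200,nat_lit 1200,nat_lit 1200⟩,⟨nat_lit 759,nat_lit 1137,nat_lit 1704⟩,⟨nat_lit 822,nat_lit 1137,nat_lit 1641⟩,⟨nat_lit 885,nat_lit 1137,nat_lit 1578⟩,⟨nat_lit 948,nat_lit 1137,nat_lit 1515⟩,⟨nat_lit 1011,nat_lit 1137,nat_lit 1452⟩,⟨nat_lit 1074,nat_lit 1137,nat_lit 1389⟩,⟨nat_lit 1137,nat_lit 1137,nat_lit 1326⟩,⟨nat_lit 822,nat_lit 1074,nat_lit 1704⟩,⟨nat_lit 885,nat_lit 1074,nat_lit 1641⟩,⟨nat_lit 948,nat_lit 1074,nat_lit 1578⟩,⟨nat_lit 1011,nat_lit 1074,nat_lit 1515⟩,⟨nat_lit 1074,nat_lit 1074,nat_lit 1452⟩,⟨nat_lit 885,nat_lit 1011,nat_lit 1704⟩,⟨nat_lit 948,nat_lit 1011,nat_lit 1641⟩,⟨nat_lit 1011,nat_lit 1011,nat_lit 1578⟩,⟨nat_lit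 948,nat_lit 948,nat_lit 1704⟩]
theorem hP0 : eqPtsP P (ptsOf 24 9 ks) = true := by decide +kernel
theorem hK0 : eqPtsP K (P.map (tiltPtQ 21 50 24)) = true := by decide +kernel
theorem hP : P = ptsOf 24 9 ks := eqPtsP_eq _ _ hP0
theorem hK : K = P.map (tiltPtQ 21 50 24) := eqPtsP_eq _ _ hK0
theorem hnodup : ks.Nodup := by decide +kernel
theorem hvalid : ∀ k ∈ ks, k < 117 ∧ Valid 24 9 k := by
  have : ∀ k ∈ ks, k < 117 ∧ k / 9 + k % 9 ≤ 24 := by decide +kernel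
  exact this
def g0 : List ℕ := [nat_lit 0,nat_lit 0,nat_lit 0,nat_lit 0,nat_lit 0,nat_lit 0,nat_lit 0,nat_lit 0,nat_lit 0,nat_lit 0,nat_lit 0,nat_lit 0,nat_lit 0,nat_lit 0,nat_lit 0,nat_lit 0,nat_lit 0,nat_lit 0,nat_lit 0,nat_lit 0,nat_lit 0,nat_lit 0,nat_lit 0,nat_lit 0,nat_lit 0,nat_lit 0,nat_lit 0,nat_lit 0,nat_lit 0,nat_lit 0,nat_lit 0,nat_lit 0,nat_lit 0,nat_lit 0,nat_lit 0,nat_lit 0,nat_lit 0,nat_lit 0,nat_lit 0,nat_lit 0,nat_lit 0,nat_lit 0,nat_lit 0,nat_lit 0,nat_lit 268435456,nat_lit 0,nat_lit 0,nat_lit 0,nat_lit 0,nat_lit 0,nat_lit 0,nat_lit 0,nat_lit 0,nat_lit 0,nat_lit 0,nat_lit 0,nat_lit 0,nat_lit 0,nat_lit 0,nat_lit 0,nat_lit 0]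
def ms : List ℕ := [nat_lit 806227,nat_lit 4682568,nat_lit 13598178,nat_lit 26326074,nat_lit 38225459,nat_lit 44402693,nat_lit 42981807,nat_lit 35662619,nat_lit 25891062,nat_lit 16708365,nat_lit 9704218,nat_lit 5123827,nat_lit 2479932,nat_lit 1107957,nat_lit 459644,nat_lit 177974,nat_lit 64604,nat_lit 22071,nat_lit 7121,nat_lit 2177,nat_lit 632]
theorem hg0 : Good 24 268435456 (ptsOf 24 9 ks) g0 := by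
  rw [← hP]
  refine ⟨by norm_num, by norm_num, ?_, ?_, ?_⟩
  · have : ∀ p ∈ P, p.a + p.b + p.c = 24 := by decide +kernel
    exact this
  · decide +kernel
  · decide +kernel
theorem hd0 : (0 : ℝ) ≤ (((726 : ℕ) : ℝ) / ((125 : ℕ) : ℝ)) := by positivity
theorem hq0 : ∀ i, i < ms.length → ((ms.getD i 0 : ℕ) : ℝ) / ((268435456 : ℕ) : ℝ)
    ≤ Real.exp (-(((726 : ℕ) : ℝ) / ((125 : ℕ) : ℝ))) * (((726 : ℕ) : ℝ) / ((125 : ℕ) : ℝ)) ^ i / Nat.factorial i :=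
  hq_of_chk (a := 726) (b := 125) (en := 845390650602) (ed := 281474976710656) (by norm_num) (by norm_num) (by norm_num)
    (by decide +kernel) (by decide +kernel)
theorem setup : SetupP 24 9 74 117 268435456 21 50 268435456 ks g0 ms (((726 : ℕ) : ℝ) / ((125 : ℕ) : ℝ)) :=
  ⟨by norm_num, by norm_num, by norm_num, by norm_num, by norm_num, by norm_num, by norm_num, by norm_num,
    by norm_num, hnodup, hvalid, hg0, by decide +kernel, hd0, hq0⟩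
theorem hB : 18889465931478580854784 = 2 ^ 74 := by norm_num
theorem hT : 12451552249753947340800 = 2 * 24 * (3 * 50 * 24) * 268435456 * 268435456 := by norm_num
theorem hTE : 72057594037927936 = 268435456 * 268435456 := by norm_num
theorem hdfc : 66303557632 = (268435456 - ms.sum) * 268435456 := by decide +kernel
lemma hch0 (i j : Fin 3) : 0 ≤ channel 3 (-(((21 : ℕ) : ℝ) / ((50 : ℕ) : ℝ))) i j :=
  ch3 (by norm_num) (by norm_num) i j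
def w0 : List ℕ := [nat_lit 268435456,nat_lit 0,nat_lit 0,nat_lit 0,nat_lit 0,nat_lit 0,nat_lit 0,nat_lit 0,nat_lit 0,nat_lit 0,nat_lit 0,nat_lit 0,nat_lit 0,nat_lit 0,nat_lit 0,nat_lit 0,nat_lit 0,nat_lit 0,nat_lit 0,nat_lit 0,nat_lit 0,nat_lit 0,nat_lit 0,nat_lit 0,nat_lit 0,nat_lit 0,nat_lit 0,nat_lit 0,nat_lit 0,nat_lit 0,nat_lit 0,nat_lit 0,nat_lit 0,nat_lit 0,nat_lit 0,nat_lit 0,nat_lit 0,nat_lit 0,nat_lit 0,nat_lit 0,nat_lit 0,nat_lit 0,nat_lit 0,nat_lit 0,nat_lit 0,nat_lit 0,nat_lit 0,nat_lit 0,nat_lit 0,nat_lit 0,nat_lit 0,nat_lit 0,nat_lit 0,nat_lit 0,nat_lit 0,nat_lit 0,nat_lit 0,nat_lit 0,nat_lit 0,nat_lit 0,nat_lit 0]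
theorem h0 : w0 = 268435456 :: List.replicate ks.length 0 := by decide +kernel
theorem inv0 : InvP (-(((21 : ℕ) : ℝ) / ((50 : ℕ) : ℝ))) (((726 : ℕ) : ℝ) / ((125 : ℕ) : ℝ)) hd0 hch0 24 9 268435456 ks 0 w0 := by
  rw [h0]
  exact InvP.zero setup
def wE : List ℕ := [nat_lit 845585,nat_lit 2618486,nat_lit 2078348,nat_lit 2975111,nat_lit 4459720,nat_lit 2422459,nat_lit 3012815,nat_lit 4534183,nat_lit 4942467,nat_lit 2588046,nat_lit 3005391,nat_lit 4541464,nat_lit 4996189,nat_lit 5198006,nat_lit 2621480,nat_lit 3006153,nat_lit 4553777,nat_lit 5049349,nat_lit 5295717,nat_lit 5317350,nat_lit 2735459,nat_lit 3025023,nat_lit 4630214,nat_lit 5192018,nat_lit 5432476,nat_lit 5526330,nat_lit 5652621,nat_lit 2883310,nat_lit 3058185,nat_lit 4762038,nat_lit 5356001,nat_lit 5625250,nat_lit 5644702,nat_lit 5789846,nat_lit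 6212190,nat_lit 3161540,nat_lit 3114304,nat_lit 4920737,nat_lit 5555810,nat_lit 5827391,nat_lit 5811561,nat_lit 6241468,nat_lit 6419846,nat_lit 6381033,nat_lit 1900143,nat_lit 3178487,nat_lit 5091979,nat_lit 5767357,nat_lit 5998037,nat_lit 6238540,nat_lit 6363657,nat_lit 3197611,nat_lit 3244992,nat_lit 5293574,nat_lit 5945907,nat_lit 6432726,nat_lit 3197840,nat_lit 3310580,nat_lit 5446984,nat_lit 3131048,nat_lit 1674545]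
theorem chk : eqF (levelsPF 74 18889465931478580854784 12451552249753947340800 72057594037927936 268435456 (mkTabF 24 9 74 P K) ks (0 :: ks) g0 ms 66303557632 21 w0) wE = true := by
  decide +kernel
theorem invE : InvP (-(((21 : ℕ) : ℝ) / ((50 : ℕ) : ℝ))) (((726 : ℕ) : ℝ) / ((125 : ℕ) : ℝ)) hd0 hch0 24 9 268435456 ks 21 wE :=
  InvP.check (m := 0) (k := 21) setup hP hK hB hT hTE hdfc inv0 chk
theorem hs : momS (gwSL 3 (-(((21 : ℕ) : ℝ) / ((50 : ℕ) : ℝ))) (((726 : ℕ) : ℝ) / ((125 : ℕ) : ℝ)) 21 hd0 (by norm_num) hch0) < ((240 : ℕ) : ℝ) / ((1000 : ℕ) : ℝ) :=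
  momS_gw_lt (by norm_num) invE hP (by decide +kernel)
theorem hr : momR (gwSL 3 (-(((21 : ℕ) : ℝ) / ((50 : ℕ) : ℝ))) (((726 : ℕ) : ℝ) / ((125 : ℕ) : ℝ)) 21 hd0 (by norm_num) hch0) ≤ ((6357 : ℕ) : ℝ) / ((65536 : ℕ) : ℝ) :=
  momR_gw_le (by norm_num) invE hP (by decide +kernel)
/-- the closure window `mu ∈ [41/100, 42/100]` -/
theorem exit : CloLite.ExitPR ((10000 : ℝ) / 42 ^ 2) ((10000 : ℝ) / 41 ^ 2) (240 / 1000) (6357 / 65536) := by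
  have := CloLite.exitPR_of_upper (d₁ := (10000 : ℝ) / 42 ^ 2) (d₂ := (10000 : ℝ) / 41 ^ 2) (mu := (((21 : ℕ) : ℝ) / ((50 : ℕ) : ℝ)))
    (d' := (((726 : ℕ) : ℝ) / ((125 : ℕ) : ℝ))) (x := (((240 : ℕ) : ℝ) / ((1000 : ℕ) : ℝ))) (r0 := (((6357 : ℕ) : ℝ) / ((65536 : ℕ) : ℝ)))
    (by norm_num) (by norm_num) (by norm_num) (by norm_num) hd0 hch0 hs hr
  simpa using this
end Crest.Agent.Lib.Bc.GridO.W41
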