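import Crest.Agent.Lib.Bc.GridPFR
import Crest.Agent.Lib.Bc.CloLite.Wire2
/-! Row 163: the Poisson grid orbit of the closure window `mu ∈ [42/100, 43/100]`: upper chain `d' = 2769/500`, tilt `-43/100`,
grid size 24, weights in units of `2^-28`; at level 26: `s < 227/1000`, `r ≤ 91541/1048576`. -/
set_option maxRecDepth 1000000
open Crest.ProbabilityR.Broadcast
namespace Crest.Agent.Lib.Bc.GridO.W42
def ks : List ℕ := [nat_lit 9,nat_lit 10,nat_lit 18,nat_lit 19,nat_lit 20,nat_lit 27,nat_lit 28,nat_lit 29,nat_lit 30,nat_lit 36,nat_lit 37,nat_lit 38,nat_lit 39,nat_lit 40,nat_lit 45,nat_lit 46,nat_lit 47,nat_lit 48,nat_lit 49,nat_lit 50,nat_lit 54,nat_lit 55,nat_lit 56,nat_lit 57,nat_lit 58,nat_lit 59,nat_lit 60,nat_lit 63,nat_lit 64,nat_lit 65,nat_lit 66,nat_lit 67,nat_lit 68,nat_lit 69,nat_lit 70,nat_lit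 72,nat_lit 73,nat_lit 74,nat_lit 75,nat_lit 76,nat_lit 77,nat_lit 78,nat_lit 79,nat_lit 80,nat_lit 81,nat_lit 82,nat_lit 83,nat_lit 84,nat_lit 85,nat_lit 86,nat_lit 87,nat_lit 90,nat_lit 91,nat_lit 92,nat_lit 93,nat_lit 94,nat_lit 99,nat_lit 100,nat_lit 101,nat_lit 108]
def P : List Pt := [⟨nat_lit 24,nat_lit 0,nat_lit 0⟩,⟨nat_lit 23,nat_lit 1,nat_lit 0⟩,⟨nat_lit 22,nat_lit 1,nat_lit 1⟩,⟨nat_lit 22,nat_lit 2,nat_lit 0⟩,⟨nat_lit 21,nat_lit 2,nat_lit 1⟩,⟨nat_lit 20,nat_lit 2,nat_lit 2⟩,⟨nat_lit 21,nat_lit 3,nat_lit 0⟩,⟨nat_lit 20,nat_lit 3,nat_lit 1⟩,⟨nat_lit 19,nat_lit 3,nat_lit 2⟩,⟨nat_lit 18,nat_lit 3,nat_lit 3⟩,⟨nat_lit 20,nat_lit 4,nat_lit 0⟩,⟨nat_lit 19,nat_lit 4,nat_lit 1⟩,⟨nat_lit 18,nat_lit 4,nat_lit 2⟩,⟨nat_lit 17,nat_lit 4,nat_lit 3⟩,⟨nat_lit 16,nat_lit 4,nat_lit 4⟩,⟨nat_lit 19,nat_lit 5,nat_lit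 0⟩,⟨nat_lit 18,nat_lit 5,nat_lit 1⟩,⟨nat_lit 17,nat_lit 5,nat_lit 2⟩,⟨nat_lit 16,nat_lit 5,nat_lit 3⟩,⟨nat_lit 15,nat_lit 5,nat_lit 4⟩,⟨nat_lit 14,nat_lit 5,nat_lit 5⟩,⟨nat_lit 18,nat_lit 6,nat_lit 0⟩,⟨nat_lit 17,nat_lit 6,nat_lit 1⟩,⟨nat_lit 16,nat_lit 6,nat_lit 2⟩,⟨nat_lit 15,nat_lit 6,nat_lit 3⟩,⟨nat_lit 14,nat_lit 6,nat_lit 4⟩,⟨nat_lit 13,nat_lit 6,nat_lit 5⟩,⟨nat_lit 12,nat_lit 6,nat_lit 6⟩,⟨nat_lit 17,nat_lit 7,nat_lit 0⟩,⟨nat_lit 16,nat_lit 7,nat_lit 1⟩,⟨nat_lit 15,nat_lit 7,nat_lit 2⟩,⟨nat_lit 14,nat_lit 7,nat_lit 3⟩,⟨nat_lit 13,nat_lit 7,nat_lit 4⟩,⟨nat_lit 12,nat_lit 7,nat_lit 5⟩,⟨nat_lit 11,nat_lit 7,nat_lit 6⟩,⟨nat_lit 10,nat_lit 7,nat_lit 7⟩,⟨nat_lit 16,nat_lit 8,nat_lit 0⟩,⟨nat_lit 15,nat_lit 8,nat_lit 1⟩,⟨nat_lit 14,nat_lit 8,nat_lit 2⟩,⟨nat_lit 13,nat_lit 8,nat_lit 3⟩,⟨nat_lit 12,nat_lit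 8,nat_lit 4⟩,⟨nat_lit 11,nat_lit 8,nat_lit 5⟩,⟨nat_lit 10,nat_lit 8,nat_lit 6⟩,⟨nat_lit 9,nat_lit 8,nat_lit 7⟩,⟨nat_lit 8,nat_lit 8,nat_lit 8⟩,⟨nat_lit 15,nat_lit 9,nat_lit 0⟩,⟨nat_lit 14,nat_lit 9,nat_lit 1⟩,⟨nat_lit 13,nat_lit 9,nat_lit 2⟩,⟨nat_lit 12,nat_lit 9,nat_lit 3⟩,⟨nat_lit 11,nat_lit 9,nat_lit 4⟩,⟨nat_lit 10,nat_lit 9,nat_lit 5⟩,⟨nat_lit 9,nat_lit 9,nat_lit 6⟩,⟨nat_lit 14,nat_lit 10,nat_lit 0⟩,⟨nat_lit 13,nat_lit 10,nat_lit 1⟩,⟨nat_lit 12,nat_lit 10,nat_lit 2⟩,⟨nat_lit 11,nat_lit 10,nat_lit 3⟩,⟨nat_lit 10,nat_lit 10,nat_lit 4⟩,⟨nat_lit 13,nat_lit 11,nat_lit 0⟩,⟨nat_lit 12,nat_lit 11,nat_lit 1⟩,⟨nat_lit 11,nat_lit 11,nat_lit 2⟩,⟨nat_lit 12,nat_lit 12,nat_lit 0⟩]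
def K : List Pt := [⟨nat_lit 336,nat_lit 3432,nat_lit 3432⟩,⟨nat_lit 465,nat_lit 3303,nat_lit 3432⟩,⟨nat_lit 594,nat_lit 3303,nat_lit 3303⟩,⟨nat_lit 594,nat_lit 3174,nat_lit 3432⟩,⟨nat_lit 723,nat_lit 3174,nat_lit 3303⟩,⟨nat_lit 852,nat_lit 3174,nat_lit 3174⟩,⟨nat_lit 723,nat_lit 3045,nat_lit 3432⟩,⟨nat_lit 852,nat_lit 3045,nat_lit 3303⟩,⟨nat_lit 981,nat_lit 3045,nat_lit 3174⟩,⟨nat_lit 1110,nat_lit 3045,nat_lit 3045⟩,⟨nat_lit 852,nat_lit 2916,nat_lit 3432⟩,⟨nat_lit 981,nat_lit 2916,nat_lit 3303⟩,⟨nat_lit 1110,nat_lit 2916,nat_lit 3174⟩,⟨nat_lit 1239,nat_lit 2916,nat_lit 3045⟩,⟨nat_lit 1368,nat_lit 2916,nat_lit 2916⟩,⟨nat_lit 981,nat_lit 2787,nat_lit 3432⟩,⟨nat_lit 1110,nat_lit 2787,nat_lit 3303⟩,⟨nat_lit 1239,nat_lit 2787,nat_lit 3174⟩,⟨nat_lit 1368,nat_lit 2787,nat_lit 3045⟩,⟨nat_lit 1497,nat_lit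 2787,nat_lit 2916⟩,⟨nat_lit 1626,nat_lit 2787,nat_lit 2787⟩,⟨nat_lit 1110,nat_lit 2658,nat_lit 3432⟩,⟨nat_lit 1239,nat_lit 2658,nat_lit 3303⟩,⟨nat_lit 1368,nat_lit 2658,nat_lit 3174⟩,⟨nat_lit 1497,nat_lit 2658,nat_lit 3045⟩,⟨nat_lit 1626,nat_lit 2658,nat_lit 2916⟩,⟨nat_lit 1755,nat_lit 2658,nat_lit 2787⟩,⟨nat_lit 1884,nat_lit 2658,nat_lit 2658⟩,⟨nat_lit 1239,nat_lit 2529,nat_lit 3432⟩,⟨nat_lit 1368,nat_lit 2529,nat_lit 3303⟩,⟨nat_lit 1497,nat_lit 2529,nat_lit 3174⟩,⟨nat_lit 1626,nat_lit 2529,nat_lit 3045⟩,⟨nat_lit 1755,nat_lit 2529,nat_lit 2916⟩,⟨nat_lit 1884,nat_lit 2529,nat_lit 2787⟩,⟨nat_lit 2013,nat_lit 2529,nat_lit 2658⟩,⟨nat_lit 2142,nat_lit 2529,nat_lit 2529⟩,⟨nat_lit 1368,nat_lit 2400,nat_lit 3432⟩,⟨nat_lit 1497,nat_lit 2400,nat_lit 3303⟩,⟨nat_lit 1626,nat_lit 2400,nat_lit 3174⟩,⟨nat_lit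 1755,nat_lit 2400,nat_lit 3045⟩,⟨nat_lit 1884,nat_lit 2400,nat_lit 2916⟩,⟨nat_lit 2013,nat_lit 2400,nat_lit 2787⟩,⟨nat_lit 2142,nat_lit 2400,nat_lit 2658⟩,⟨nat_lit 2271,nat_lit 2400,nat_lit 2529⟩,⟨nat_lit 2400,nat_lit 2400,nat_lit 2400⟩,⟨nat_lit 1497,nat_lit 2271,nat_lit 3432⟩,⟨nat_lit 1626,nat_lit 2271,nat_lit 3303⟩,⟨nat_lit 1755,nat_lit 2271,nat_lit 3174⟩,⟨nat_lit 1884,nat_lit 2271,nat_lit 3045⟩,⟨nat_lit 2013,nat_lit 2271,nat_lit 2916⟩,⟨nat_lit 2142,nat_lit 2271,nat_lit 2787⟩,⟨nat_lit 2271,nat_lit 2271,nat_lit 2658⟩,⟨nat_lit 1626,nat_lit 2142,nat_lit 3432⟩,⟨nat_lit 1755,nat_lit 2142,nat_lit 3303⟩,⟨nat_lit 1884,nat_lit 2142,nat_lit 3174⟩,⟨nat_lit 2013,nat_lit 2142,nat_lit 3045⟩,⟨nat_lit 2142,nat_lit 2142,nat_lit 2916⟩,⟨nat_lit 1755,nat_lit 2013,nat_lit 3432⟩,⟨nat_lit 1884,nat_lit 2013,nat_lit 3303⟩,⟨nat_lit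 2013,nat_lit 2013,nat_lit 3174⟩,⟨nat_lit 1884,nat_lit 1884,nat_lit 3432⟩]
theorem hP0 : eqPtsP P (ptsOf 24 9 ks) = true := by decide +kernel
theorem hK0 : eqPtsP K (P.map (tiltPtQ 43 100 24)) = true := by decide +kernel
theorem hP : P = ptsOf 24 9 ks := eqPtsP_eq _ _ hP0
theorem hK : K = P.map (tiltPtQ 43 100 24) := eqPtsP_eq _ _ hK0
theorem hnodup : ks.Nodup := by decide +kernel
theorem hvalid : ∀ k ∈ ks, k < 117 ∧ Valid 24 9 k := by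
  have : ∀ k ∈ ks, k < 117 ∧ k / 9 + k % 9 ≤ 24 := by decide +kernel
  exact this
def g0 : List ℕ := [nat_lit 0,nat_lit 0,nat_lit 0,nat_lit 0,nat_lit 0,nat_lit 0,nat_lit 0,nat_lit 0,nat_lit 0,nat_lit 0,nat_lit 0,nat_lit 0,nat_lit 0,nat_lit 0,nat_lit 0,nat_lit 0,nat_lit 0,nat_lit 0,nat_lit 0,nat_lit 0,nat_lit 0,nat_lit 0,nat_lit 0,nat_lit 0,nat_lit 0,nat_lit 0,nat_lit 0,nat_lit 0,nat_lit 0,nat_lit 0,nat_lit 0,nat_lit 0,nat_lit 0,nat_lit 0,nat_lit 0,nat_lit 0,nat_lit 0,nat_lit 0,nat_lit 0,nat_lit 0,nat_lit 0,nat_lit 0,nat_lit 0,nat_lit 0,nat_lit 268435456,nat_lit 0,nat_lit 0,nat_lit 0,nat_lit 0,nat_lit 0,nat_lit 0,nat_lit 0,nat_lit 0,nat_lit 0,nat_lit 0,nat_lit 0,nat_lit 0,nat_lit 0,nat_lit 0,nat_lit 0,nat_lit 0]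
def ms : List ℕ := [nat_lit 1056129,nat_lit 5848843,nat_lit 16195447,nat_lit 29896795,nat_lit 41392113,nat_lit 45845904,nat_lit 42315770,nat_lit 33477819,nat_lit 23175020,nat_lit 14260362,nat_lit 7897388,nat_lit 3975976,nat_lit 1834913,nat_lit 781672,nat_lit 309207,nat_lit 114159,nat_lit 39513,nat_lit 12872,nat_lit 3960,nat_lit 1154]
theorem hg0 : Good 24 268435456 (ptsOf 24 9 ks) g0 := by
  rw [← hP]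
  refine ⟨by norm_num, by norm_num, ?_, ?_, ?_⟩
  · have : ∀ p ∈ P, p.a + p.b + p.c = 24 := by decide +kernel
    exact this
  · decide +kernel
  · decide +kernel
theorem hd0 : (0 : ℝ) ≤ (((2769 : ℕ) : ℝ) / ((500 : ℕ) : ℝ)) := by positivity
theorem hq0 : ∀ i, i < ms.length → ((ms.getD i 0 : ℕ) : ℝ) / ((268435456 : ℕ) : ℝ)
    ≤ Real.exp (-(((2769 : ℕ) : ℝ) / ((500 : ℕ) : ℝ))) * (((2769 : ℕ) : ℝ) / ((500 : ℕ) : ℝ)) ^ i / Nat.factorial i :=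
  hq_of_chk (a := 2769) (b := 500) (en := 1107431699271) (ed := 281474976710656) (by norm_num) (by norm_num) (by norm_num)
    (by decide +kernel) (by decide +kernel)
theorem setup : SetupP 24 9 75 117 268435456 43 100 268435456 ks g0 ms (((2769 : ℕ) : ℝ) / ((500 : ℕ) : ℝ)) :=
  ⟨by norm_num, by norm_num, by norm_num, by norm_num, by norm_num, by norm_num, by norm_num, by norm_num,
    by norm_num, hnodup, hvalid, hg0, by decide +kernel, hd0, hq0⟩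
theorem hB : 37778931862957161709568 = 2 ^ 75 := by norm_num
theorem hT : 24903104499507894681600 = 2 * 24 * (3 * 100 * 24) * 268435456 * 268435456 := by norm_num
theorem hTE : 72057594037927936 = 268435456 * 268435456 := by norm_num
theorem hdfc : 118111600640 = (268435456 - ms.sum) * 268435456 := by decide +kernel
lemma hch0 (i j : Fin 3) : 0 ≤ channel 3 (-(((43 : ℕ) : ℝ) / ((100 : ℕ) : ℝ))) i j :=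
  ch3 (by norm_num) (by norm_num) i j
def w0 : List ℕ := [nat_lit 268435456,nat_lit 0,nat_lit 0,nat_lit 0,nat_lit 0,nat_lit 0,nat_lit 0,nat_lit 0,nat_lit 0,nat_lit 0,nat_lit 0,nat_lit 0,nat_lit 0,nat_lit 0,nat_lit 0,nat_lit 0,nat_lit 0,nat_lit 0,nat_lit 0,nat_lit 0,nat_lit 0,nat_lit 0,nat_lit 0,nat_lit 0,nat_lit 0,nat_lit 0,nat_lit 0,nat_lit 0,nat_lit 0,nat_lit 0,nat_lit 0,nat_lit 0,nat_lit 0,nat_lit 0,nat_lit 0,nat_lit 0,nat_lit 0,nat_lit 0,nat_lit 0,nat_lit 0,nat_lit 0,nat_lit 0,nat_lit 0,nat_lit 0,nat_lit 0,nat_lit 0,nat_lit 0,nat_lit 0,nat_lit 0,nat_lit 0,nat_lit 0,nat_lit 0,nat_lit 0,nat_lit 0,nat_lit 0,nat_lit 0,nat_lit 0,nat_lit 0,nat_lit 0,nat_lit 0,nat_lit 0]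
theorem h0 : w0 = 268435456 :: List.replicate ks.length 0 := by decide +kernel
theorem inv0 : InvP (-(((43 : ℕ) : ℝ) / ((100 : ℕ) : ℝ))) (((2769 : ℕ) : ℝ) / ((500 : ℕ) : ℝ)) hd0 hch0 24 9 268435456 ks 0 w0 := by
  rw [h0]
  exact InvP.zero setup
def wE : List ℕ := [nat_lit 641362,nat_lit 2109980,nat_lit 1774802,nat_lit 2474366,nat_lit 3943033,nat_lit 2210474,nat_lit 2564027,nat_lit 4104536,nat_lit 4631081,nat_lit 2476906,nat_lit 2604147,nat_lit 4194805,nat_lit 4760452,nat_lit 5070742,nat_lit 2611595,nat_lit 2639834,nat_lit 4282864,nat_lit 4906573,nat_lit 5256751,nat_lit 5392902,nat_lit 2861011,nat_lit 2689355,nat_lit 4414232,nat_lit 5116801,nat_lit 5470528,nat_lit 5688101,nat_lit 5943172,nat_lit 3071633,nat_lit 2749884,nat_lit 4605120,nat_lit 5342537,nat_lit 5764210,nat_lit 5900744,nat_lit 6195075,nat_lit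 6797039,nat_lit 3501676,nat_lit 2823222,nat_lit 4797598,nat_lit 5619780,nat_lit 6016680,nat_lit 6139646,nat_lit 6844315,nat_lit 7011386,nat_lit 7143010,nat_lit 2298936,nat_lit 2902808,nat_lit 5009817,nat_lit 5876013,nat_lit 6251668,nat_lit 6678693,nat_lit 6994281,nat_lit 3504590,nat_lit 2986469,nat_lit 5248375,nat_lit 6105050,nat_lit 6734806,nat_lit 3407490,nat_lit 3056061,nat_lit 5421417,nat_lit 3256269,nat_lit 1544726]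
theorem chk : eqF (levelsPF 75 37778931862957161709568 24903104499507894681600 72057594037927936 268435456 (mkTabF 24 9 75 P K) ks (0 :: ks) g0 ms 118111600640 26 w0) wE = true := by
  decide +kernel
theorem invE : InvP (-(((43 : ℕ) : ℝ) / ((100 : ℕ) : ℝ))) (((2769 : ℕ) : ℝ) / ((500 : ℕ) : ℝ)) hd0 hch0 24 9 268435456 ks 26 wE :=
  InvP.check (m := 0) (k := 26) setup hP hK hB hT hTE hdfc inv0 chk
theorem hs : momS (gwSL 3 (-(((43 : ℕ) : ℝ) / ((100 : ℕ) : ℝ))) (((2769 : ℕ) : ℝ) / ((500 : ℕ) : ℝ)) 26 hd0 (by norm_num) hch0) < ((227 : ℕ) : ℝ) / ((1000 : ℕ) : ℝ) :=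
  momS_gw_lt (by norm_num) invE hP (by decide +kernel)
theorem hr : momR (gwSL 3 (-(((43 : ℕ) : ℝ) / ((100 : ℕ) : ℝ))) (((2769 : ℕ) : ℝ) / ((500 : ℕ) : ℝ)) 26 hd0 (by norm_num) hch0) ≤ ((91541 : ℕ) : ℝ) / ((1048576 : ℕ) : ℝ) :=
  momR_gw_le (by norm_num) invE hP (by decide +kernel)
/-- the closure window `mu ∈ [42/100, 43/100]` -/
theorem exit : CloLite.ExitPR ((10000 : ℝ) / 43 ^ 2) ((10000 : ℝ) / 42 ^ 2) (227 / 1000) (91541 / 1048576) := by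
  have := CloLite.exitPR_of_upper (d₁ := (10000 : ℝ) / 43 ^ 2) (d₂ := (10000 : ℝ) / 42 ^ 2) (mu := (((43 : ℕ) : ℝ) / ((100 : ℕ) : ℝ)))
    (d' := (((2769 : ℕ) : ℝ) / ((500 : ℕ) : ℝ))) (x := (((227 : ℕ) : ℝ) / ((1000 : ℕ) : ℝ))) (r0 := (((91541 : ℕ) : ℝ) / ((1048576 : ℕ) : ℝ)))
    (by norm_num) (by norm_num) (by norm_num) (by norm_num) hd0 hch0 hs hr
  simpa using this
end Crest.Agent.Lib.Bc.GridO.W42
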