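import Crest.Agent.Lib.Bc.GridPFR
import Crest.Agent.Lib.Bc.CloLite.Wire2
/-! Row 163: the Poisson grid orbit of the closure window `mu ∈ [44/100, 45/100]`: upper chain `d' = 5051/1000`, tilt `-9/20`,
grid size 30, weights in units of `2^-28`; at level 30: `s < 199/1000`, `r ≤ 72215/1048576`. -/
set_option maxRecDepth 1000000
open Crest.ProbabilityR.Broadcast
namespace Crest.Agent.Lib.Bc.GridO.W44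
def ks : List ℕ := [nat_lit 11,nat_lit 12,nat_lit 22,nat_lit 23,nat_lit 24,nat_lit 33,nat_lit 34,nat_lit 35,nat_lit 36,nat_lit 44,nat_lit 45,nat_lit 46,nat_lit 47,nat_lit 48,nat_lit 55,nat_lit 56,nat_lit 57,nat_lit 58,nat_lit 59,nat_lit 60,nat_lit 66,nat_lit 67,nat_lit 68,nat_lit 69,nat_lit 70,nat_lit 71,nat_lit 72,nat_lit 77,nat_lit 78,nat_lit 79,nat_lit 80,nat_lit 81,nat_lit 82,nat_lit 83,nat_lit 84,nat_lit 88,nat_lit 89,nat_lit 90,nat_lit 91,nat_lit 92,nat_lit 93,nat_lit 94,nat_lit 95,nat_lit 96,nat_lit 99,nat_lit 100,nat_lit 101,nat_lit 102,nat_lit 103,nat_lit 104,nat_lit 105,nat_lit 106,nat_lit 107,nat_lit 108,nat_lit 110,nat_lit 111,nat_lit 112,nat_lit 113,nat_lit 114,nat_lit 115,nat_lit 116,nat_lit 117,nat_lit 118,nat_lit 119,nat_lit 120,nat_lit 121,nat_lit 122,nat_lit 123,nat_lit 124,nat_lit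 125,nat_lit 126,nat_lit 127,nat_lit 128,nat_lit 129,nat_lit 132,nat_lit 133,nat_lit 134,nat_lit 135,nat_lit 136,nat_lit 137,nat_lit 138,nat_lit 143,nat_lit 144,nat_lit 145,nat_lit 146,nat_lit 147,nat_lit 154,nat_lit 155,nat_lit 156,nat_lit 165]
def P : List Pt := [⟨nat_lit 30,nat_lit 0,nat_lit 0⟩,⟨nat_lit 29,nat_lit 1,nat_lit 0⟩,⟨nat_lit 28,nat_lit 1,nat_lit 1⟩,⟨nat_lit 28,nat_lit 2,nat_lit 0⟩,⟨nat_lit 27,nat_lit 2,nat_lit 1⟩,⟨nat_lit 26,nat_lit 2,nat_lit 2⟩,⟨nat_lit 27,nat_lit 3,nat_lit 0⟩,⟨nat_lit 26,nat_lit 3,nat_lit 1⟩,⟨nat_lit 25,nat_lit 3,nat_lit 2⟩,⟨nat_lit 24,nat_lit 3,nat_lit 3⟩,⟨nat_lit 26,nat_lit 4,nat_lit 0⟩,⟨nat_lit 25,nat_lit 4,nat_lit 1⟩,⟨nat_lit 24,nat_lit 4,nat_lit 2⟩,⟨nat_lit 23,nat_lit 4,nat_lit 3⟩,⟨nat_lit 22,nat_lit 4,nat_lit 4⟩,⟨nat_lit 25,nat_lit 5,nat_lit 0⟩,⟨nat_lit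 24,nat_lit 5,nat_lit 1⟩,⟨nat_lit 23,nat_lit 5,nat_lit 2⟩,⟨nat_lit 22,nat_lit 5,nat_lit 3⟩,⟨nat_lit 21,nat_lit 5,nat_lit 4⟩,⟨nat_lit 20,nat_lit 5,nat_lit 5⟩,⟨nat_lit 24,nat_lit 6,nat_lit 0⟩,⟨nat_lit 23,nat_lit 6,nat_lit 1⟩,⟨nat_lit 22,nat_lit 6,nat_lit 2⟩,⟨nat_lit 21,nat_lit 6,nat_lit 3⟩,⟨nat_lit 20,nat_lit 6,nat_lit 4⟩,⟨nat_lit 19,nat_lit 6,nat_lit 5⟩,⟨nat_lit 18,nat_lit 6,nat_lit 6⟩,⟨nat_lit 23,nat_lit 7,nat_lit 0⟩,⟨nat_lit 22,nat_lit 7,nat_lit 1⟩,⟨nat_lit 21,nat_lit 7,nat_lit 2⟩,⟨nat_lit 20,nat_lit 7,nat_lit 3⟩,⟨nat_lit 19,nat_lit 7,nat_lit 4⟩,⟨nat_lit 18,nat_lit 7,nat_lit 5⟩,⟨nat_lit 17,nat_lit 7,nat_lit 6⟩,⟨nat_lit 16,nat_lit 7,nat_lit 7⟩,⟨nat_lit 22,nat_lit 8,nat_lit 0⟩,⟨nat_lit 21,nat_lit 8,nat_lit 1⟩,⟨nat_lit 20,nat_lit 8,nat_lit 2⟩,⟨nat_lit 19,nat_lit 8,nat_lit 3⟩,⟨nat_lit 18,nat_lit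 8,nat_lit 4⟩,⟨nat_lit 17,nat_lit 8,nat_lit 5⟩,⟨nat_lit 16,nat_lit 8,nat_lit 6⟩,⟨nat_lit 15,nat_lit 8,nat_lit 7⟩,⟨nat_lit 14,nat_lit 8,nat_lit 8⟩,⟨nat_lit 21,nat_lit 9,nat_lit 0⟩,⟨nat_lit 20,nat_lit 9,nat_lit 1⟩,⟨nat_lit 19,nat_lit 9,nat_lit 2⟩,⟨nat_lit 18,nat_lit 9,nat_lit 3⟩,⟨nat_lit 17,nat_lit 9,nat_lit 4⟩,⟨nat_lit 16,nat_lit 9,nat_lit 5⟩,⟨nat_lit 15,nat_lit 9,nat_lit 6⟩,⟨nat_lit 14,nat_lit 9,nat_lit 7⟩,⟨nat_lit 13,nat_lit 9,nat_lit 8⟩,⟨nat_lit 12,nat_lit 9,nat_lit 9⟩,⟨nat_lit 20,nat_lit 10,nat_lit 0⟩,⟨nat_lit 19,nat_lit 10,nat_lit 1⟩,⟨nat_lit 18,nat_lit 10,nat_lit 2⟩,⟨nat_lit 17,nat_lit 10,nat_lit 3⟩,⟨nat_lit 16,nat_lit 10,nat_lit 4⟩,⟨nat_lit 15,nat_lit 10,nat_lit 5⟩,⟨nat_lit 14,nat_lit 10,nat_lit 6⟩,⟨nat_lit 13,nat_lit 10,nat_lit 7⟩,⟨nat_lit 12,nat_lit 10,nat_lit 8⟩,⟨nat_lit 11,nat_lit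 10,nat_lit 9⟩,⟨nat_lit 10,nat_lit 10,nat_lit 10⟩,⟨nat_lit 19,nat_lit 11,nat_lit 0⟩,⟨nat_lit 18,nat_lit 11,nat_lit 1⟩,⟨nat_lit 17,nat_lit 11,nat_lit 2⟩,⟨nat_lit 16,nat_lit 11,nat_lit 3⟩,⟨nat_lit 15,nat_lit 11,nat_lit 4⟩,⟨nat_lit 14,nat_lit 11,nat_lit 5⟩,⟨nat_lit 13,nat_lit 11,nat_lit 6⟩,⟨nat_lit 12,nat_lit 11,nat_lit 7⟩,⟨nat_lit 11,nat_lit 11,nat_lit 8⟩,⟨nat_lit 18,nat_lit 12,nat_lit 0⟩,⟨nat_lit 17,nat_lit 12,nat_lit 1⟩,⟨nat_lit 16,nat_lit 12,nat_lit 2⟩,⟨nat_lit 15,nat_lit 12,nat_lit 3⟩,⟨nat_lit 14,nat_lit 12,nat_lit 4⟩,⟨nat_lit 13,nat_lit 12,nat_lit 5⟩,⟨nat_lit 12,nat_lit 12,nat_lit 6⟩,⟨nat_lit 17,nat_lit 13,nat_lit 0⟩,⟨nat_lit 16,nat_lit 13,nat_lit 1⟩,⟨nat_lit 15,nat_lit 13,nat_lit 2⟩,⟨nat_lit 14,nat_lit 13,nat_lit 3⟩,⟨nat_lit 13,nat_lit 13,nat_lit 4⟩,⟨nat_lit 16,nat_lit 14,nat_lit 0⟩,⟨nat_lit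 15,nat_lit 14,nat_lit 1⟩,⟨nat_lit 14,nat_lit 14,nat_lit 2⟩,⟨nat_lit 15,nat_lit 15,nat_lit 0⟩]
def K : List Pt := [⟨nat_lit 60,nat_lit 870,nat_lit 870⟩,⟨nat_lit 87,nat_lit 843,nat_lit 870⟩,⟨nat_lit 114,nat_lit 843,nat_lit 843⟩,⟨nat_lit 114,nat_lit 816,nat_lit 870⟩,⟨nat_lit 141,nat_lit 816,nat_lit 843⟩,⟨nat_lit 168,nat_lit 816,nat_lit 816⟩,⟨nat_lit 141,nat_lit 789,nat_lit 870⟩,⟨nat_lit 168,nat_lit 789,nat_lit 843⟩,⟨nat_lit 195,nat_lit 789,nat_lit 816⟩,⟨nat_lit 222,nat_lit 789,nat_lit 789⟩,⟨nat_lit 168,nat_lit 762,nat_lit 870⟩,⟨nat_lit 195,nat_lit 762,nat_lit 843⟩,⟨nat_lit 222,nat_lit 762,nat_lit 816⟩,⟨nat_lit 249,nat_lit 762,nat_lit 789⟩,⟨nat_lit 276,nat_lit 762,nat_lit 762⟩,⟨nat_lit 195,nat_lit 735,nat_lit 870⟩,⟨nat_lit 222,nat_lit 735,nat_lit 843⟩,⟨nat_lit 249,nat_lit 735,nat_lit 816⟩,⟨nat_lit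 276,nat_lit 735,nat_lit 789⟩,⟨nat_lit 303,nat_lit 735,nat_lit 762⟩,⟨nat_lit 330,nat_lit 735,nat_lit 735⟩,⟨nat_lit 222,nat_lit 708,nat_lit 870⟩,⟨nat_lit 249,nat_lit 708,nat_lit 843⟩,⟨nat_lit 276,nat_lit 708,nat_lit 816⟩,⟨nat_lit 303,nat_lit 708,nat_lit 789⟩,⟨nat_lit 330,nat_lit 708,nat_lit 762⟩,⟨nat_lit 357,nat_lit 708,nat_lit 735⟩,⟨nat_lit 384,nat_lit 708,nat_lit 708⟩,⟨nat_lit 249,nat_lit 681,nat_lit 870⟩,⟨nat_lit 276,nat_lit 681,nat_lit 843⟩,⟨nat_lit 303,nat_lit 681,nat_lit 816⟩,⟨nat_lit 330,nat_lit 681,nat_lit 789⟩,⟨nat_lit 357,nat_lit 681,nat_lit 762⟩,⟨nat_lit 384,nat_lit 681,nat_lit 735⟩,⟨nat_lit 411,nat_lit 681,nat_lit 708⟩,⟨nat_lit 438,nat_lit 681,nat_lit 681⟩,⟨nat_lit 276,nat_lit 654,nat_lit 870⟩,⟨nat_lit 303,nat_lit 654,nat_lit 843⟩,⟨nat_lit 330,nat_lit 654,nat_lit 816⟩,⟨nat_lit 357,nat_lit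 654,nat_lit 789⟩,⟨nat_lit 384,nat_lit 654,nat_lit 762⟩,⟨nat_lit 411,nat_lit 654,nat_lit 735⟩,⟨nat_lit 438,nat_lit 654,nat_lit 708⟩,⟨nat_lit 465,nat_lit 654,nat_lit 681⟩,⟨nat_lit 492,nat_lit 654,nat_lit 654⟩,⟨nat_lit 303,nat_lit 627,nat_lit 870⟩,⟨nat_lit 330,nat_lit 627,nat_lit 843⟩,⟨nat_lit 357,nat_lit 627,nat_lit 816⟩,⟨nat_lit 384,nat_lit 627,nat_lit 789⟩,⟨nat_lit 411,nat_lit 627,nat_lit 762⟩,⟨nat_lit 438,nat_lit 627,nat_lit 735⟩,⟨nat_lit 465,nat_lit 627,nat_lit 708⟩,⟨nat_lit 492,nat_lit 627,nat_lit 681⟩,⟨nat_lit 519,nat_lit 627,nat_lit 654⟩,⟨nat_lit 546,nat_lit 627,nat_lit 627⟩,⟨nat_lit 330,nat_lit 600,nat_lit 870⟩,⟨nat_lit 357,nat_lit 600,nat_lit 843⟩,⟨nat_lit 384,nat_lit 600,nat_lit 816⟩,⟨nat_lit 411,nat_lit 600,nat_lit 789⟩,⟨nat_lit 438,nat_lit 600,nat_lit 762⟩,⟨nat_lit 465,nat_lit 600,nat_lit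 735⟩,⟨nat_lit 492,nat_lit 600,nat_lit 708⟩,⟨nat_lit 519,nat_lit 600,nat_lit 681⟩,⟨nat_lit 546,nat_lit 600,nat_lit 654⟩,⟨nat_lit 573,nat_lit 600,nat_lit 627⟩,⟨nat_lit 600,nat_lit 600,nat_lit 600⟩,⟨nat_lit 357,nat_lit 573,nat_lit 870⟩,⟨nat_lit 384,nat_lit 573,nat_lit 843⟩,⟨nat_lit 411,nat_lit 573,nat_lit 816⟩,⟨nat_lit 438,nat_lit 573,nat_lit 789⟩,⟨nat_lit 465,nat_lit 573,nat_lit 762⟩,⟨nat_lit 492,nat_lit 573,nat_lit 735⟩,⟨nat_lit 519,nat_lit 573,nat_lit 708⟩,⟨nat_lit 546,nat_lit 573,nat_lit 681⟩,⟨nat_lit 573,nat_lit 573,nat_lit 654⟩,⟨nat_lit 384,nat_lit 546,nat_lit 870⟩,⟨nat_lit 411,nat_lit 546,nat_lit 843⟩,⟨nat_lit 438,nat_lit 546,nat_lit 816⟩,⟨nat_lit 465,nat_lit 546,nat_lit 789⟩,⟨nat_lit 492,nat_lit 546,nat_lit 762⟩,⟨nat_lit 519,nat_lit 546,nat_lit 735⟩,⟨nat_lit 546,nat_lit 546,nat_lit 708⟩,⟨nat_lit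 411,nat_lit 519,nat_lit 870⟩,⟨nat_lit 438,nat_lit 519,nat_lit 843⟩,⟨nat_lit 465,nat_lit 519,nat_lit 816⟩,⟨nat_lit 492,nat_lit 519,nat_lit 789⟩,⟨nat_lit 519,nat_lit 519,nat_lit 762⟩,⟨nat_lit 438,nat_lit 492,nat_lit 870⟩,⟨nat_lit 465,nat_lit 492,nat_lit 843⟩,⟨nat_lit 492,nat_lit 492,nat_lit 816⟩,⟨nat_lit 465,nat_lit 465,nat_lit 870⟩]
theorem hP0 : eqPtsP P (ptsOf 30 11 ks) = true := by decide +kernel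
theorem hK0 : eqPtsP K (P.map (tiltPtQ 9 20 30)) = true := by decide +kernel
theorem hP : P = ptsOf 30 11 ks := eqPtsP_eq _ _ hP0
theorem hK : K = P.map (tiltPtQ 9 20 30) := eqPtsP_eq _ _ hK0
theorem hnodup : ks.Nodup := by decide +kernel
theorem hvalid : ∀ k ∈ ks, k < 176 ∧ Valid 30 11 k := by
  have : ∀ k ∈ ks, k < 176 ∧ k / 11 + k % 11 ≤ 30 := by decide +kernel
  exact this
def g0 : List ℕ := [nat_lit 0,nat_lit 0,nat_lit 0,nat_lit 0,nat_lit 0,nat_lit 0,nat_lit 0,nat_lit 0,nat_lit 0,nat_lit 0,nat_lit 0,nat_lit 0,nat_lit 0,nat_lit 0,nat_lit 0,nat_lit 0,nat_lit 0,nat_lit 0,nat_lit 0,nat_lit 0,nat_lit 0,nat_lit 0,nat_lit 0,nat_lit 0,nat_lit 0,nat_lit 0,nat_lit 0,nat_lit 0,nat_lit 0,nat_lit 0,nat_lit 0,nat_lit 0,nat_lit 0,nat_lit 0,nat_lit 0,nat_lit 0,nat_lit 0,nat_lit 0,nat_lit 0,nat_lit 0,nat_lit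 0,nat_lit 0,nat_lit 0,nat_lit 0,nat_lit 0,nat_lit 0,nat_lit 0,nat_lit 0,nat_lit 0,nat_lit 0,nat_lit 0,nat_lit 0,nat_lit 0,nat_lit 0,nat_lit 0,nat_lit 0,nat_lit 0,nat_lit 0,nat_lit 0,nat_lit 0,nat_lit 0,nat_lit 0,nat_lit 0,nat_lit 0,nat_lit 0,nat_lit 268435456,nat_lit 0,nat_lit 0,nat_lit 0,nat_lit 0,nat_lit 0,nat_lit 0,nat_lit 0,nat_lit 0,nat_lit 0,nat_lit 0,nat_lit 0,nat_lit 0,nat_lit 0,nat_lit 0,nat_lit 0,nat_lit 0,nat_lit 0,nat_lit 0,nat_lit 0,nat_lit 0,nat_lit 0,nat_lit 0,nat_lit 0,nat_lit 0,nat_lit 0]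
def ms : List ℕ := [nat_lit 1718772,nat_lit 8681520,nat_lit 21925181,nat_lit 36914696,nat_lit 46614033,nat_lit 47089496,nat_lit 39641507,nat_lit 28604179,nat_lit 18059963,nat_lit 10135652,nat_lit 5119518,nat_lit 2350789,nat_lit 989486,nat_lit 384453,nat_lit 138705,nat_lit 46706,nat_lit 14744,nat_lit 4380,nat_lit 1229]
theorem hg0 : Good 30 268435456 (ptsOf 30 11 ks) g0 := by
  rw [← hP]
  refine ⟨by norm_num, by norm_num, ?_, ?_, ?_⟩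
  · have : ∀ p ∈ P, p.a + p.b + p.c = 30 := by decide +kernel
    exact this
  · decide +kernel
  · decide +kernel
theorem hd0 : (0 : ℝ) ≤ (((5051 : ℕ) : ℝ) / ((1000 : ℕ) : ℝ)) := by positivity
theorem hq0 : ∀ i, i < ms.length → ((ms.getD i 0 : ℕ) : ℝ) / ((268435456 : ℕ) : ℝ)
    ≤ Real.exp (-(((5051 : ℕ) : ℝ) / ((1000 : ℕ) : ℝ))) * (((5051 : ℕ) : ℝ) / ((1000 : ℕ) : ℝ)) ^ i / Nat.factorial i :=
  hq_of_chk (a := 5051) (b := 1000) (en := 1802263815463) (ed := 281474976710656) (by norm_num) (by norm_num) (by norm_num)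
    (by decide +kernel) (by decide +kernel)
theorem setup : SetupP 30 11 73 176 268435456 9 20 268435456 ks g0 ms (((5051 : ℕ) : ℝ) / ((1000 : ℕ) : ℝ)) :=
  ⟨by norm_num, by norm_num, by norm_num, by norm_num, by norm_num, by norm_num, by norm_num, by norm_num,
    by norm_num, hnodup, hvalid, hg0, by decide +kernel, hd0, hq0⟩
theorem hB : 9444732965739290427392 = 2 ^ 73 := by norm_num
theorem hT : 7782220156096217088000 = 2 * 30 * (3 * 20 * 30) * 268435456 * 268435456 := by norm_num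
theorem hTE : 72057594037927936 = 268435456 * 268435456 := by norm_num
theorem hdfc : 119990648832 = (268435456 - ms.sum) * 268435456 := by decide +kernel
lemma hch0 (i j : Fin 3) : 0 ≤ channel 3 (-(((9 : ℕ) : ℝ) / ((20 : ℕ) : ℝ))) i j :=
  ch3 (by norm_num) (by norm_num) i j
def w0 : List ℕ := [nat_lit 268435456,nat_lit 0,nat_lit 0,nat_lit 0,nat_lit 0,nat_lit 0,nat_lit 0,nat_lit 0,nat_lit 0,nat_lit 0,nat_lit 0,nat_lit 0,nat_lit 0,nat_lit 0,nat_lit 0,nat_lit 0,nat_lit 0,nat_lit 0,nat_lit 0,nat_lit 0,nat_lit 0,nat_lit 0,nat_lit 0,nat_lit 0,nat_lit 0,nat_lit 0,nat_lit 0,nat_lit 0,nat_lit 0,nat_lit 0,nat_lit 0,nat_lit 0,nat_lit 0,nat_lit 0,nat_lit 0,nat_lit 0,nat_lit 0,nat_lit 0,nat_lit 0,nat_lit 0,nat_lit 0,nat_lit 0,nat_lit 0,nat_lit 0,nat_lit 0,nat_lit 0,nat_lit 0,nat_lit 0,nat_lit 0,nat_lit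 0,nat_lit 0,nat_lit 0,nat_lit 0,nat_lit 0,nat_lit 0,nat_lit 0,nat_lit 0,nat_lit 0,nat_lit 0,nat_lit 0,nat_lit 0,nat_lit 0,nat_lit 0,nat_lit 0,nat_lit 0,nat_lit 0,nat_lit 0,nat_lit 0,nat_lit 0,nat_lit 0,nat_lit 0,nat_lit 0,nat_lit 0,nat_lit 0,nat_lit 0,nat_lit 0,nat_lit 0,nat_lit 0,nat_lit 0,nat_lit 0,nat_lit 0,nat_lit 0,nat_lit 0,nat_lit 0,nat_lit 0,nat_lit 0,nat_lit 0,nat_lit 0,nat_lit 0,nat_lit 0,nat_lit 0]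
theorem h0 : w0 = 268435456 :: List.replicate ks.length 0 := by decide +kernel
theorem inv0 : InvP (-(((9 : ℕ) : ℝ) / ((20 : ℕ) : ℝ))) (((5051 : ℕ) : ℝ) / ((1000 : ℕ) : ℝ)) hd0 hch0 30 11 268435456 ks 0 w0 := by
  rw [h0]
  exact InvP.zero setup
def wE : List ℕ := [nat_lit 200078,nat_lit 773975,nat_lit 755881,nat_lit 971776,nat_lit 1808690,nat_lit 1079400,nat_lit 1053766,nat_lit 1960134,nat_lit 2354713,nat_lit 1305155,nat_lit 1100905,nat_lit 2058785,nat_lit 2492118,nat_lit 2760116,nat_lit 1463124,nat_lit 1140017,nat_lit 2143815,nat_lit 2608952,nat_lit 2924373,nat_lit 3088431,nat_lit 1640622,nat_lit 1176072,nat_lit 2242219,nat_lit 2747656,nat_lit 3077995,nat_lit 3265950,nat_lit 3493001,nat_lit 1876177,nat_lit 1218419,nat_lit 2346121,nat_lit 2903289,nat_lit 3252153,nat_lit 3453211,nat_lit 3736133,nat_lit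 3992649,nat_lit 2094214,nat_lit 1258933,nat_lit 2467956,nat_lit 3055871,nat_lit 3428717,nat_lit 3695467,nat_lit 3965396,nat_lit 4202919,nat_lit 4452485,nat_lit 2549423,nat_lit 1306168,nat_lit 2592100,nat_lit 3224388,nat_lit 3638293,nat_lit 3911118,nat_lit 4182943,nat_lit 4452023,nat_lit 5007370,nat_lit 5389435,nat_lit 2788183,nat_lit 1352738,nat_lit 2721446,nat_lit 3416318,nat_lit 3856178,nat_lit 4093984,nat_lit 4406600,nat_lit 4975783,nat_lit 5302996,nat_lit 5551635,nat_lit 5712208,nat_lit 2754654,nat_lit 1400926,nat_lit 2857715,nat_lit 3614806,nat_lit 4033438,nat_lit 4299297,nat_lit 4858015,nat_lit 5174782,nat_lit 5342338,nat_lit 2769434,nat_lit 1449191,nat_lit 2995495,nat_lit 3767023,nat_lit 4208839,nat_lit 4688494,nat_lit 5034325,nat_lit 2608406,nat_lit 1488689,nat_lit 3123165,nat_lit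 3916269,nat_lit 4544422,nat_lit 2398157,nat_lit 1525834,nat_lit 3223954,nat_lit 2069025,nat_lit 769604]
theorem chk : eqF (levelsPF 73 9444732965739290427392 7782220156096217088000 72057594037927936 268435456 (mkTabF 30 11 73 P K) ks (0 :: ks) g0 ms 119990648832 30 w0) wE = true := by
  decide +kernel
theorem invE : InvP (-(((9 : ℕ) : ℝ) / ((20 : ℕ) : ℝ))) (((5051 : ℕ) : ℝ) / ((1000 : ℕ) : ℝ)) hd0 hch0 30 11 268435456 ks 30 wE :=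
  InvP.check (m := 0) (k := 30) setup hP hK hB hT hTE hdfc inv0 chk
theorem hs : momS (gwSL 3 (-(((9 : ℕ) : ℝ) / ((20 : ℕ) : ℝ))) (((5051 : ℕ) : ℝ) / ((1000 : ℕ) : ℝ)) 30 hd0 (by norm_num) hch0) < ((199 : ℕ) : ℝ) / ((1000 : ℕ) : ℝ) :=
  momS_gw_lt (by norm_num) invE hP (by decide +kernel)
theorem hr : momR (gwSL 3 (-(((9 : ℕ) : ℝ) / ((20 : ℕ) : ℝ))) (((5051 : ℕ) : ℝ) / ((1000 : ℕ) : ℝ)) 30 hd0 (by norm_num) hch0) ≤ ((72215 : ℕ) : ℝ) / ((1048576 : ℕ) : ℝ) :=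
  momR_gw_le (by norm_num) invE hP (by decide +kernel)
/-- the closure window `mu ∈ [44/100, 45/100]` -/
theorem exit : CloLite.ExitPR ((10000 : ℝ) / 45 ^ 2) ((10000 : ℝ) / 44 ^ 2) (199 / 1000) (72215 / 1048576) := by
  have := CloLite.exitPR_of_upper (d₁ := (10000 : ℝ) / 45 ^ 2) (d₂ := (10000 : ℝ) / 44 ^ 2) (mu := (((9 : ℕ) : ℝ) / ((20 : ℕ) : ℝ)))
    (d' := (((5051 : ℕ) : ℝ) / ((1000 : ℕ) : ℝ))) (x := (((199 : ℕ) : ℝ) / ((1000 : ℕ) : ℝ))) (r0 := (((72215 : ℕ) : ℝ) / ((1048576 : ℕ) : ℝ)))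
    (by norm_num) (by norm_num) (by norm_num) (by norm_num) hd0 hch0 hs hr
  simpa using this
end Crest.Agent.Lib.Bc.GridO.W44
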