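import Crest.Agent.Lib.Bc.GridPFR
import Crest.Agent.Lib.Bc.CloLite.Wire2
/-! Row 163: the Poisson grid orbit of the closure window `mu ∈ [45/100, 46/100]`: upper chain `d' = 4831/1000`, tilt `-23/50`,
grid size 30, weights in units of `2^-28`; at level 38: `s < 185/1000`, `r ≤ 32039/524288`. -/
set_option maxRecDepth 1000000
open Crest.ProbabilityR.Broadcast
namespace Crest.Agent.Lib.Bc.GridO.W45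
def ks : List ℕ := [nat_lit 11,nat_lit 12,nat_lit 22,nat_lit 23,nat_lit 24,nat_lit 33,nat_lit 34,nat_lit 35,nat_lit 36,nat_lit 44,nat_lit 45,nat_lit 46,nat_lit 47,nat_lit 48,nat_lit 55,nat_lit 56,nat_lit 57,nat_lit 58,nat_lit 59,nat_lit 60,nat_lit 66,nat_lit 67,nat_lit 68,nat_lit 69,nat_lit 70,nat_lit 71,nat_lit 72,nat_lit 77,nat_lit 78,nat_lit 79,nat_lit 80,nat_lit 81,nat_lit 82,nat_lit 83,nat_lit 84,nat_lit 88,nat_lit 89,nat_lit 90,nat_lit 91,nat_lit 92,nat_lit 93,nat_lit 94,nat_lit 95,nat_lit 96,nat_lit 99,nat_lit 100,nat_lit 101,nat_lit 102,nat_lit 103,nat_lit 104,nat_lit 105,nat_lit 106,nat_lit 107,nat_lit 108,nat_lit 110,nat_lit 111,nat_lit 112,nat_lit 113,nat_lit 114,nat_lit 115,nat_lit 116,nat_lit 117,nat_lit 118,nat_lit 119,nat_lit 120,nat_lit 121,nat_lit 122,nat_lit 123,nat_lit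 124,nat_lit 125,nat_lit 126,nat_lit 127,nat_lit 128,nat_lit 129,nat_lit 132,nat_lit 133,nat_lit 134,nat_lit 135,nat_lit 136,nat_lit 137,nat_lit 138,nat_lit 143,nat_lit 144,nat_lit 145,nat_lit 146,nat_lit 147,nat_lit 154,nat_lit 155,nat_lit 156,nat_lit 165]
def P : List Pt := [⟨nat_lit 30,nat_lit 0,nat_lit 0⟩,⟨nat_lit 29,nat_lit 1,nat_lit 0⟩,⟨nat_lit 28,nat_lit 1,nat_lit 1⟩,⟨nat_lit 28,nat_lit 2,nat_lit 0⟩,⟨nat_lit 27,nat_lit 2,nat_lit 1⟩,⟨nat_lit 26,nat_lit 2,nat_lit 2⟩,⟨nat_lit 27,nat_lit 3,nat_lit 0⟩,⟨nat_lit 26,nat_lit 3,nat_lit 1⟩,⟨nat_lit 25,nat_lit 3,nat_lit 2⟩,⟨nat_lit 24,nat_lit 3,nat_lit 3⟩,⟨nat_lit 26,nat_lit 4,nat_lit 0⟩,⟨nat_lit 25,nat_lit 4,nat_lit 1⟩,⟨nat_lit 24,nat_lit 4,nat_lit 2⟩,⟨nat_lit 23,nat_lit 4,nat_lit 3⟩,⟨nat_lit 22,nat_lit 4,nat_lit 4⟩,⟨nat_lit 25,nat_lit 5,nat_lit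 0⟩,⟨nat_lit 24,nat_lit 5,nat_lit 1⟩,⟨nat_lit 23,nat_lit 5,nat_lit 2⟩,⟨nat_lit 22,nat_lit 5,nat_lit 3⟩,⟨nat_lit 21,nat_lit 5,nat_lit 4⟩,⟨nat_lit 20,nat_lit 5,nat_lit 5⟩,⟨nat_lit 24,nat_lit 6,nat_lit 0⟩,⟨nat_lit 23,nat_lit 6,nat_lit 1⟩,⟨nat_lit 22,nat_lit 6,nat_lit 2⟩,⟨nat_lit 21,nat_lit 6,nat_lit 3⟩,⟨nat_lit 20,nat_lit 6,nat_lit 4⟩,⟨nat_lit 19,nat_lit 6,nat_lit 5⟩,⟨nat_lit 18,nat_lit 6,nat_lit 6⟩,⟨nat_lit 23,nat_lit 7,nat_lit 0⟩,⟨nat_lit 22,nat_lit 7,nat_lit 1⟩,⟨nat_lit 21,nat_lit 7,nat_lit 2⟩,⟨nat_lit 20,nat_lit 7,nat_lit 3⟩,⟨nat_lit 19,nat_lit 7,nat_lit 4⟩,⟨nat_lit 18,nat_lit 7,nat_lit 5⟩,⟨nat_lit 17,nat_lit 7,nat_lit 6⟩,⟨nat_lit 16,nat_lit 7,nat_lit 7⟩,⟨nat_lit 22,nat_lit 8,nat_lit 0⟩,⟨nat_lit 21,nat_lit 8,nat_lit 1⟩,⟨nat_lit 20,nat_lit 8,nat_lit 2⟩,⟨nat_lit 19,nat_lit 8,nat_lit 3⟩,⟨nat_lit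 18,nat_lit 8,nat_lit 4⟩,⟨nat_lit 17,nat_lit 8,nat_lit 5⟩,⟨nat_lit 16,nat_lit 8,nat_lit 6⟩,⟨nat_lit 15,nat_lit 8,nat_lit 7⟩,⟨nat_lit 14,nat_lit 8,nat_lit 8⟩,⟨nat_lit 21,nat_lit 9,nat_lit 0⟩,⟨nat_lit 20,nat_lit 9,nat_lit 1⟩,⟨nat_lit 19,nat_lit 9,nat_lit 2⟩,⟨nat_lit 18,nat_lit 9,nat_lit 3⟩,⟨nat_lit 17,nat_lit 9,nat_lit 4⟩,⟨nat_lit 16,nat_lit 9,nat_lit 5⟩,⟨nat_lit 15,nat_lit 9,nat_lit 6⟩,⟨nat_lit 14,nat_lit 9,nat_lit 7⟩,⟨nat_lit 13,nat_lit 9,nat_lit 8⟩,⟨nat_lit 12,nat_lit 9,nat_lit 9⟩,⟨nat_lit 20,nat_lit 10,nat_lit 0⟩,⟨nat_lit 19,nat_lit 10,nat_lit 1⟩,⟨nat_lit 18,nat_lit 10,nat_lit 2⟩,⟨nat_lit 17,nat_lit 10,nat_lit 3⟩,⟨nat_lit 16,nat_lit 10,nat_lit 4⟩,⟨nat_lit 15,nat_lit 10,nat_lit 5⟩,⟨nat_lit 14,nat_lit 10,nat_lit 6⟩,⟨nat_lit 13,nat_lit 10,nat_lit 7⟩,⟨nat_lit 12,nat_lit 10,nat_lit 8⟩,⟨nat_lit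 11,nat_lit 10,nat_lit 9⟩,⟨nat_lit 10,nat_lit 10,nat_lit 10⟩,⟨nat_lit 19,nat_lit 11,nat_lit 0⟩,⟨nat_lit 18,nat_lit 11,nat_lit 1⟩,⟨nat_lit 17,nat_lit 11,nat_lit 2⟩,⟨nat_lit 16,nat_lit 11,nat_lit 3⟩,⟨nat_lit 15,nat_lit 11,nat_lit 4⟩,⟨nat_lit 14,nat_lit 11,nat_lit 5⟩,⟨nat_lit 13,nat_lit 11,nat_lit 6⟩,⟨nat_lit 12,nat_lit 11,nat_lit 7⟩,⟨nat_lit 11,nat_lit 11,nat_lit 8⟩,⟨nat_lit 18,nat_lit 12,nat_lit 0⟩,⟨nat_lit 17,nat_lit 12,nat_lit 1⟩,⟨nat_lit 16,nat_lit 12,nat_lit 2⟩,⟨nat_lit 15,nat_lit 12,nat_lit 3⟩,⟨nat_lit 14,nat_lit 12,nat_lit 4⟩,⟨nat_lit 13,nat_lit 12,nat_lit 5⟩,⟨nat_lit 12,nat_lit 12,nat_lit 6⟩,⟨nat_lit 17,nat_lit 13,nat_lit 0⟩,⟨nat_lit 16,nat_lit 13,nat_lit 1⟩,⟨nat_lit 15,nat_lit 13,nat_lit 2⟩,⟨nat_lit 14,nat_lit 13,nat_lit 3⟩,⟨nat_lit 13,nat_lit 13,nat_lit 4⟩,⟨nat_lit 16,nat_lit 14,nat_lit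 0⟩,⟨nat_lit 15,nat_lit 14,nat_lit 1⟩,⟨nat_lit 14,nat_lit 14,nat_lit 2⟩,⟨nat_lit 15,nat_lit 15,nat_lit 0⟩]
def K : List Pt := [⟨nat_lit 120,nat_lit 2190,nat_lit 2190⟩,⟨nat_lit 189,nat_lit 2121,nat_lit 2190⟩,⟨nat_lit 258,nat_lit 2121,nat_lit 2121⟩,⟨nat_lit 258,nat_lit 2052,nat_lit 2190⟩,⟨nat_lit 327,nat_lit 2052,nat_lit 2121⟩,⟨nat_lit 396,nat_lit 2052,nat_lit 2052⟩,⟨nat_lit 327,nat_lit 1983,nat_lit 2190⟩,⟨nat_lit 396,nat_lit 1983,nat_lit 2121⟩,⟨nat_lit 465,nat_lit 1983,nat_lit 2052⟩,⟨nat_lit 534,nat_lit 1983,nat_lit 1983⟩,⟨nat_lit 396,nat_lit 1914,nat_lit 2190⟩,⟨nat_lit 465,nat_lit 1914,nat_lit 2121⟩,⟨nat_lit 534,nat_lit 1914,nat_lit 2052⟩,⟨nat_lit 603,nat_lit 1914,nat_lit 1983⟩,⟨nat_lit 672,nat_lit 1914,nat_lit 1914⟩,⟨nat_lit 465,nat_lit 1845,nat_lit 2190⟩,⟨nat_lit 534,nat_lit 1845,nat_lit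 2121⟩,⟨nat_lit 603,nat_lit 1845,nat_lit 2052⟩,⟨nat_lit 672,nat_lit 1845,nat_lit 1983⟩,⟨nat_lit 741,nat_lit 1845,nat_lit 1914⟩,⟨nat_lit 810,nat_lit 1845,nat_lit 1845⟩,⟨nat_lit 534,nat_lit 1776,nat_lit 2190⟩,⟨nat_lit 603,nat_lit 1776,nat_lit 2121⟩,⟨nat_lit 672,nat_lit 1776,nat_lit 2052⟩,⟨nat_lit 741,nat_lit 1776,nat_lit 1983⟩,⟨nat_lit 810,nat_lit 1776,nat_lit 1914⟩,⟨nat_lit 879,nat_lit 1776,nat_lit 1845⟩,⟨nat_lit 948,nat_lit 1776,nat_lit 1776⟩,⟨nat_lit 603,nat_lit 1707,nat_lit 2190⟩,⟨nat_lit 672,nat_lit 1707,nat_lit 2121⟩,⟨nat_lit 741,nat_lit 1707,nat_lit 2052⟩,⟨nat_lit 810,nat_lit 1707,nat_lit 1983⟩,⟨nat_lit 879,nat_lit 1707,nat_lit 1914⟩,⟨nat_lit 948,nat_lit 1707,nat_lit 1845⟩,⟨nat_lit 1017,nat_lit 1707,nat_lit 1776⟩,⟨nat_lit 1086,nat_lit 1707,nat_lit 1707⟩,⟨nat_lit 672,nat_lit 1638,nat_lit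 2190⟩,⟨nat_lit 741,nat_lit 1638,nat_lit 2121⟩,⟨nat_lit 810,nat_lit 1638,nat_lit 2052⟩,⟨nat_lit 879,nat_lit 1638,nat_lit 1983⟩,⟨nat_lit 948,nat_lit 1638,nat_lit 1914⟩,⟨nat_lit 1017,nat_lit 1638,nat_lit 1845⟩,⟨nat_lit 1086,nat_lit 1638,nat_lit 1776⟩,⟨nat_lit 1155,nat_lit 1638,nat_lit 1707⟩,⟨nat_lit 1224,nat_lit 1638,nat_lit 1638⟩,⟨nat_lit 741,nat_lit 1569,nat_lit 2190⟩,⟨nat_lit 810,nat_lit 1569,nat_lit 2121⟩,⟨nat_lit 879,nat_lit 1569,nat_lit 2052⟩,⟨nat_lit 948,nat_lit 1569,nat_lit 1983⟩,⟨nat_lit 1017,nat_lit 1569,nat_lit 1914⟩,⟨nat_lit 1086,nat_lit 1569,nat_lit 1845⟩,⟨nat_lit 1155,nat_lit 1569,nat_lit 1776⟩,⟨nat_lit 1224,nat_lit 1569,nat_lit 1707⟩,⟨nat_lit 1293,nat_lit 1569,nat_lit 1638⟩,⟨nat_lit 1362,nat_lit 1569,nat_lit 1569⟩,⟨nat_lit 810,nat_lit 1500,nat_lit 2190⟩,⟨nat_lit 879,nat_lit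 1500,nat_lit 2121⟩,⟨nat_lit 948,nat_lit 1500,nat_lit 2052⟩,⟨nat_lit 1017,nat_lit 1500,nat_lit 1983⟩,⟨nat_lit 1086,nat_lit 1500,nat_lit 1914⟩,⟨nat_lit 1155,nat_lit 1500,nat_lit 1845⟩,⟨nat_lit 1224,nat_lit 1500,nat_lit 1776⟩,⟨nat_lit 1293,nat_lit 1500,nat_lit 1707⟩,⟨nat_lit 1362,nat_lit 1500,nat_lit 1638⟩,⟨nat_lit 1431,nat_lit 1500,nat_lit 1569⟩,⟨nat_lit 1500,nat_lit 1500,nat_lit 1500⟩,⟨nat_lit 879,nat_lit 1431,nat_lit 2190⟩,⟨nat_lit 948,nat_lit 1431,nat_lit 2121⟩,⟨nat_lit 1017,nat_lit 1431,nat_lit 2052⟩,⟨nat_lit 1086,nat_lit 1431,nat_lit 1983⟩,⟨nat_lit 1155,nat_lit 1431,nat_lit 1914⟩,⟨nat_lit 1224,nat_lit 1431,nat_lit 1845⟩,⟨nat_lit 1293,nat_lit 1431,nat_lit 1776⟩,⟨nat_lit 1362,nat_lit 1431,nat_lit 1707⟩,⟨nat_lit 1431,nat_lit 1431,nat_lit 1638⟩,⟨nat_lit 948,nat_lit 1362,nat_lit 2190⟩,⟨nat_lit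 1017,nat_lit 1362,nat_lit 2121⟩,⟨nat_lit 1086,nat_lit 1362,nat_lit 2052⟩,⟨nat_lit 1155,nat_lit 1362,nat_lit 1983⟩,⟨nat_lit 1224,nat_lit 1362,nat_lit 1914⟩,⟨nat_lit 1293,nat_lit 1362,nat_lit 1845⟩,⟨nat_lit 1362,nat_lit 1362,nat_lit 1776⟩,⟨nat_lit 1017,nat_lit 1293,nat_lit 2190⟩,⟨nat_lit 1086,nat_lit 1293,nat_lit 2121⟩,⟨nat_lit 1155,nat_lit 1293,nat_lit 2052⟩,⟨nat_lit 1224,nat_lit 1293,nat_lit 1983⟩,⟨nat_lit 1293,nat_lit 1293,nat_lit 1914⟩,⟨nat_lit 1086,nat_lit 1224,nat_lit 2190⟩,⟨nat_lit 1155,nat_lit 1224,nat_lit 2121⟩,⟨nat_lit 1224,nat_lit 1224,nat_lit 2052⟩,⟨nat_lit 1155,nat_lit 1155,nat_lit 2190⟩]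
theorem hP0 : eqPtsP P (ptsOf 30 11 ks) = true := by decide +kernel
theorem hK0 : eqPtsP K (P.map (tiltPtQ 23 50 30)) = true := by decide +kernel
theorem hP : P = ptsOf 30 11 ks := eqPtsP_eq _ _ hP0
theorem hK : K = P.map (tiltPtQ 23 50 30) := eqPtsP_eq _ _ hK0
theorem hnodup : ks.Nodup := by decide +kernel
theorem hvalid : ∀ k ∈ ks, k < 176 ∧ Valid 30 11 k := by
  have : ∀ k ∈ ks, k < 176 ∧ k / 11 + k % 11 ≤ 30 := by decide +kernel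
  exact this
def g0 : List ℕ := [nat_lit 0,nat_lit 0,nat_lit 0,nat_lit 0,nat_lit 0,nat_lit 0,nat_lit 0,nat_lit 0,nat_lit 0,nat_lit 0,nat_lit 0,nat_lit 0,nat_lit 0,nat_lit 0,nat_lit 0,nat_lit 0,nat_lit 0,nat_lit 0,nat_lit 0,nat_lit 0,nat_lit 0,nat_lit 0,nat_lit 0,nat_lit 0,nat_lit 0,nat_lit 0,nat_lit 0,nat_lit 0,nat_lit 0,nat_lit 0,nat_lit 0,nat_lit 0,nat_lit 0,nat_lit 0,nat_lit 0,nat_lit 0,nat_lit 0,nat_lit 0,nat_lit 0,nat_lit 0,nat_lit 0,nat_lit 0,nat_lit 0,nat_lit 0,nat_lit 0,nat_lit 0,nat_lit 0,nat_lit 0,nat_lit 0,nat_lit 0,nat_lit 0,nat_lit 0,nat_lit 0,nat_lit 0,nat_lit 0,nat_lit 0,nat_lit 0,nat_lit 0,nat_lit 0,nat_lit 0,nat_lit 0,nat_lit 0,nat_lit 0,nat_lit 0,nat_lit 0,nat_lit 268435456,nat_lit 0,nat_lit 0,nat_lit 0,nat_lit 0,nat_lit 0,nat_lit 0,nat_lit 0,nat_lit 0,nat_lit 0,nat_lit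 0,nat_lit 0,nat_lit 0,nat_lit 0,nat_lit 0,nat_lit 0,nat_lit 0,nat_lit 0,nat_lit 0,nat_lit 0,nat_lit 0,nat_lit 0,nat_lit 0,nat_lit 0,nat_lit 0,nat_lit 0]
def ms : List ℕ := [nat_lit 2141722,nat_lit 10346662,nat_lit 24992362,nat_lit 40246034,nat_lit 48607148,nat_lit 46964226,nat_lit 37814030,nat_lit 26097082,nat_lit 15759375,nat_lit 8459282,nat_lit 4086679,nat_lit 1794795,nat_lit 722554,nat_lit 268512,nat_lit 92655,nat_lit 29841,nat_lit 9010,nat_lit 2560,nat_lit 687]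
theorem hg0 : Good 30 268435456 (ptsOf 30 11 ks) g0 := by
  rw [← hP]
  refine ⟨by norm_num, by norm_num, ?_, ?_, ?_⟩
  · have : ∀ p ∈ P, p.a + p.b + p.c = 30 := by decide +kernel
    exact this
  · decide +kernel
  · decide +kernel
theorem hd0 : (0 : ℝ) ≤ (((4831 : ℕ) : ℝ) / ((1000 : ℕ) : ℝ)) := by positivity
theorem hq0 : ∀ i, i < ms.length → ((ms.getD i 0 : ℕ) : ℝ) / ((268435456 : ℕ) : ℝ)
    ≤ Real.exp (-(((4831 : ℕ) : ℝ) / ((1000 : ℕ) : ℝ))) * (((4831 : ℕ) : ℝ) / ((1000 : ℕ) : ℝ)) ^ i / Nat.factorial i :=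
  hq_of_chk (a := 4831) (b := 1000) (en := 2245759002829) (ed := 281474976710656) (by norm_num) (by norm_num) (by norm_num)
    (by decide +kernel) (by decide +kernel)
theorem setup : SetupP 30 11 75 176 268435456 23 50 268435456 ks g0 ms (((4831 : ℕ) : ℝ) / ((1000 : ℕ) : ℝ)) :=
  ⟨by norm_num, by norm_num, by norm_num, by norm_num, by norm_num, by norm_num, by norm_num, by norm_num,
    by norm_num, hnodup, hvalid, hg0, by decide +kernel, hd0, hq0⟩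
theorem hB : 37778931862957161709568 = 2 ^ 75 := by norm_num
theorem hT : 19455550390240542720000 = 2 * 30 * (3 * 50 * 30) * 268435456 * 268435456 := by norm_num
theorem hTE : 72057594037927936 = 268435456 * 268435456 := by norm_num
theorem hdfc : 64424509440 = (268435456 - ms.sum) * 268435456 := by decide +kernel
lemma hch0 (i j : Fin 3) : 0 ≤ channel 3 (-(((23 : ℕ) : ℝ) / ((50 : ℕ) : ℝ))) i j :=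
  ch3 (by norm_num) (by norm_num) i j
def w0 : List ℕ := [nat_lit 268435456,nat_lit 0,nat_lit 0,nat_lit 0,nat_lit 0,nat_lit 0,nat_lit 0,nat_lit 0,nat_lit 0,nat_lit 0,nat_lit 0,nat_lit 0,nat_lit 0,nat_lit 0,nat_lit 0,nat_lit 0,nat_lit 0,nat_lit 0,nat_lit 0,nat_lit 0,nat_lit 0,nat_lit 0,nat_lit 0,nat_lit 0,nat_lit 0,nat_lit 0,nat_lit 0,nat_lit 0,nat_lit 0,nat_lit 0,nat_lit 0,nat_lit 0,nat_lit 0,nat_lit 0,nat_lit 0,nat_lit 0,nat_lit 0,nat_lit 0,nat_lit 0,nat_lit 0,nat_lit 0,nat_lit 0,nat_lit 0,nat_lit 0,nat_lit 0,nat_lit 0,nat_lit 0,nat_lit 0,nat_lit 0,nat_lit 0,nat_lit 0,nat_lit 0,nat_lit 0,nat_lit 0,nat_lit 0,nat_lit 0,nat_lit 0,nat_lit 0,nat_lit 0,nat_lit 0,nat_lit 0,nat_lit 0,nat_lit 0,nat_lit 0,nat_lit 0,nat_lit 0,nat_lit 0,nat_lit 0,nat_lit 0,nat_lit 0,nat_lit 0,nat_lit 0,nat_lit 0,nat_lit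 0,nat_lit 0,nat_lit 0,nat_lit 0,nat_lit 0,nat_lit 0,nat_lit 0,nat_lit 0,nat_lit 0,nat_lit 0,nat_lit 0,nat_lit 0,nat_lit 0,nat_lit 0,nat_lit 0,nat_lit 0,nat_lit 0,nat_lit 0]
theorem h0 : w0 = 268435456 :: List.replicate ks.length 0 := by decide +kernel
theorem inv0 : InvP (-(((23 : ℕ) : ℝ) / ((50 : ℕ) : ℝ))) (((4831 : ℕ) : ℝ) / ((1000 : ℕ) : ℝ)) hd0 hch0 30 11 268435456 ks 0 w0 := by
  rw [h0]
  exact InvP.zero setup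
def wE : List ℕ := [nat_lit 137219,nat_lit 566716,nat_lit 588960,nat_lit 741121,nat_lit 1470137,nat_lit 913294,nat_lit 827317,nat_lit 1640961,nat_lit 2052472,nat_lit 1171334,nat_lit 882169,nat_lit 1762866,nat_lit 2220082,nat_lit 2533479,nat_lit 1374690,nat_lit 929569,nat_lit 1870329,nat_lit 2368786,nat_lit 2739073,nat_lit 2963329,nat_lit 1608298,nat_lit 973527,nat_lit 1988610,nat_lit 2538585,nat_lit 2933521,nat_lit 3189886,nat_lit 3494418,nat_lit 1907324,nat_lit 1019137,nat_lit 2111469,nat_lit 2713098,nat_lit 3138685,nat_lit 3436022,nat_lit 3791227,nat_lit 4116936,nat_lit 2216478,nat_lit 1067248,nat_lit 2243689,nat_lit 2895411,nat_lit 3358359,nat_lit 3720005,nat_lit 4092774,nat_lit 4395046,nat_lit 4793542,nat_lit 2773094,nat_lit 1115713,nat_lit 2385865,nat_lit 3088433,nat_lit 3606529,nat_lit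 3990083,nat_lit 4360523,nat_lit 4738753,nat_lit 5450619,nat_lit 5965581,nat_lit 3140973,nat_lit 1165121,nat_lit 2525051,nat_lit 3305552,nat_lit 3856441,nat_lit 4214430,nat_lit 4672129,nat_lit 5350217,nat_lit 5840953,nat_lit 6192833,nat_lit 6493651,nat_lit 3345440,nat_lit 1216543,nat_lit 2673712,nat_lit 3517603,nat_lit 4071858,nat_lit 4489286,nat_lit 5175321,nat_lit 5604041,nat_lit 5927340,nat_lit 3113670,nat_lit 1263054,nat_lit 2823142,nat_lit 3689920,nat_lit 4290985,nat_lit 4908430,nat_lit 5380688,nat_lit 2836210,nat_lit 1306396,nat_lit 2950194,nat_lit 3867502,nat_lit 4622039,nat_lit 2516983,nat_lit 1339156,nat_lit 3059065,nat_lit 2038810,nat_lit 678326]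
theorem chk : eqF (levelsPF 75 37778931862957161709568 19455550390240542720000 72057594037927936 268435456 (mkTabF 30 11 75 P K) ks (0 :: ks) g0 ms 64424509440 38 w0) wE = true := by
  decide +kernel
theorem invE : InvP (-(((23 : ℕ) : ℝ) / ((50 : ℕ) : ℝ))) (((4831 : ℕ) : ℝ) / ((1000 : ℕ) : ℝ)) hd0 hch0 30 11 268435456 ks 38 wE :=
  InvP.check (m := 0) (k := 38) setup hP hK hB hT hTE hdfc inv0 chk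
theorem hs : momS (gwSL 3 (-(((23 : ℕ) : ℝ) / ((50 : ℕ) : ℝ))) (((4831 : ℕ) : ℝ) / ((1000 : ℕ) : ℝ)) 38 hd0 (by norm_num) hch0) < ((185 : ℕ) : ℝ) / ((1000 : ℕ) : ℝ) :=
  momS_gw_lt (by norm_num) invE hP (by decide +kernel)
theorem hr : momR (gwSL 3 (-(((23 : ℕ) : ℝ) / ((50 : ℕ) : ℝ))) (((4831 : ℕ) : ℝ) / ((1000 : ℕ) : ℝ)) 38 hd0 (by norm_num) hch0) ≤ ((32039 : ℕ) : ℝ) / ((524288 : ℕ) : ℝ) :=
  momR_gw_le (by norm_num) invE hP (by decide +kernel)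
/-- the closure window `mu ∈ [45/100, 46/100]` -/
theorem exit : CloLite.ExitPR ((10000 : ℝ) / 46 ^ 2) ((10000 : ℝ) / 45 ^ 2) (185 / 1000) (32039 / 524288) := by
  have := CloLite.exitPR_of_upper (d₁ := (10000 : ℝ) / 46 ^ 2) (d₂ := (10000 : ℝ) / 45 ^ 2) (mu := (((23 : ℕ) : ℝ) / ((50 : ℕ) : ℝ)))
    (d' := (((4831 : ℕ) : ℝ) / ((1000 : ℕ) : ℝ))) (x := (((185 : ℕ) : ℝ) / ((1000 : ℕ) : ℝ))) (r0 := (((32039 : ℕ) : ℝ) / ((524288 : ℕ) : ℝ)))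
    (by norm_num) (by norm_num) (by norm_num) (by norm_num) hd0 hch0 hs hr
  simpa using this
end Crest.Agent.Lib.Bc.GridO.W45
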