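import Crest.Agent.Lib.Bc.Pois.W46a
/-! Row 163: the Poisson grid orbit of the closure window `mu ∈ [46/100, 47/100]`: upper chain `d' = 2313/500`, tilt `-47/100`,
grid size 30, weights in units of `2^-28`; at level 49: `s < 174/1000`, `r ≤ 56959/1048576`. -/
set_option maxRecDepth 1000000
open Crest.ProbabilityR.Broadcast
namespace Crest.Agent.Lib.Bc.GridO.W46
def wE : List ℕ := [nat_lit 98977,nat_lit 429768,nat_lit 469535,nat_lit 580878,nat_lit 1213202,nat_lit 779688,nat_lit 664761,nat_lit 1390399,nat_lit 1798173,nat_lit 1051565,nat_lit 722972,nat_lit 1524219,nat_lit 1982359,nat_lit 2320945,nat_lit 1289515,nat_lit 773085,nat_lit 1644607,nat_lit 2151581,nat_lit 2552683,nat_lit 2822666,nat_lit 1562719,nat_lit 821110,nat_lit 1773332,nat_lit 2344126,nat_lit 2781433,nat_lit 3086011,nat_lit 3458489,nat_lit 1929822,nat_lit 868850,nat_lit 1908996,nat_lit 2534058,nat_lit 3014319,nat_lit 3383699,nat_lit 3795649,nat_lit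 4203399,nat_lit 2301418,nat_lit 919939,nat_lit 2051071,nat_lit 2736417,nat_lit 3267230,nat_lit 3706653,nat_lit 4165578,nat_lit 4546846,nat_lit 5084542,nat_lit 2987711,nat_lit 970021,nat_lit 2197065,nat_lit 2951043,nat_lit 3551174,nat_lit 4016199,nat_lit 4485910,nat_lit 4991582,nat_lit 5844757,nat_lit 6517306,nat_lit 3490293,nat_lit 1021888,nat_lit 2349179,nat_lit 3186737,nat_lit 3828817,nat_lit 4286376,nat_lit 4874133,nat_lit 5698475,nat_lit 6303391,nat_lit 6827743,nat_lit 7263846,nat_lit 4013058,nat_lit 1073014,nat_lit 2508678,nat_lit 3407810,nat_lit 4067265,nat_lit 4610702,nat_lit 5436824,nat_lit 6020196,nat_lit 6445877,nat_lit 3454346,nat_lit 1120627,nat_lit 2666297,nat_lit 3598987,nat_lit 4341139,nat_lit 5054041,nat_lit 5660171,nat_lit 3054812,nat_lit 1164340,nat_lit 2790837,nat_lit 3808182,nat_lit 4673573,nat_lit 2594425,nat_lit 1198154,nat_lit 2909221,nat_lit 2004420,nat_lit 607530]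
theorem chk : eqF (levelsPF 76 75557863725914323419136 38911100780481085440000 72057594037927936 268435456 (mkTabF 30 11 76 W46a.P W46a.K) W46a.ks (0 :: W46a.ks) W46a.g0 W46a.ms 139318001664 14 W46a.wE) wE = true := by
  decide +kernel
theorem invE : InvP (-(((47 : ℕ) : ℝ) / ((100 : ℕ) : ℝ))) (((2313 : ℕ) : ℝ) / ((500 : ℕ) : ℝ)) W46a.hd0 W46a.hch0 30 11 268435456 W46a.ks 49 wE :=
  InvP.check (m := 35) (k := 14) W46a.setup W46a.hP W46a.hK W46a.hB W46a.hT W46a.hTE W46a.hdfc W46a.invE chk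
theorem hs : momS (gwSL 3 (-(((47 : ℕ) : ℝ) / ((100 : ℕ) : ℝ))) (((2313 : ℕ) : ℝ) / ((500 : ℕ) : ℝ)) 49 W46a.hd0 (by norm_num) W46a.hch0) < ((174 : ℕ) : ℝ) / ((1000 : ℕ) : ℝ) :=
  momS_gw_lt (by norm_num) invE W46a.hP (by decide +kernel)
theorem hr : momR (gwSL 3 (-(((47 : ℕ) : ℝ) / ((100 : ℕ) : ℝ))) (((2313 : ℕ) : ℝ) / ((500 : ℕ) : ℝ)) 49 W46a.hd0 (by norm_num) W46a.hch0) ≤ ((56959 : ℕ) : ℝ) / ((1048576 : ℕ) : ℝ) :=
  momR_gw_le (by norm_num) invE W46a.hP (by decide +kernel)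
/-- the closure window `mu ∈ [46/100, 47/100]` -/
theorem exit : CloLite.ExitPR ((10000 : ℝ) / 47 ^ 2) ((10000 : ℝ) / 46 ^ 2) (174 / 1000) (56959 / 1048576) := by
  have := CloLite.exitPR_of_upper (d₁ := (10000 : ℝ) / 47 ^ 2) (d₂ := (10000 : ℝ) / 46 ^ 2) (mu := (((47 : ℕ) : ℝ) / ((100 : ℕ) : ℝ)))
    (d' := (((2313 : ℕ) : ℝ) / ((500 : ℕ) : ℝ))) (x := (((174 : ℕ) : ℝ) / ((1000 : ℕ) : ℝ))) (r0 := (((56959 : ℕ) : ℝ) / ((1048576 : ℕ) : ℝ)))
    (by norm_num) (by norm_num) (by norm_num) (by norm_num) W46a.hd0 W46a.hch0 hs hr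
  simpa using this
end Crest.Agent.Lib.Bc.GridO.W46
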