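import Crest.Agent.Lib.Bc.Pois.W47d
/-! Row 163: the Poisson grid orbit of the closure window `mu ∈ [47/100, 48/100]`: upper chain `d' = 4433/1000`, tilt `-12/25`,
grid size 36, weights in units of `2^-28`; at level 48: `s < 162/1000`, `r ≤ 6357/131072`. -/
set_option maxRecDepth 1000000
open Crest.ProbabilityR.Broadcast
namespace Crest.Agent.Lib.Bc.GridO.W47
def wE : List ℕ := [nat_lit 42372,nat_lit 197871,nat_lit 232054,nat_lit 276983,nat_lit 619667,nat_lit 411105,nat_lit 323660,nat_lit 722879,nat_lit 963020,nat_lit 570805,nat_lit 356436,nat_lit 800636,nat_lit 1071287,nat_lit 1273602,nat_lit 713888,nat_lit 384509,nat_lit 869513,nat_lit 1169591,nat_lit 1402063,nat_lit 1567553,nat_lit 873409,nat_lit 410346,nat_lit 938185,nat_lit 1272171,nat_lit 1528498,nat_lit 1721380,nat_lit 1912991,nat_lit 1052576,nat_lit 435581,nat_lit 1009799,nat_lit 1374611,nat_lit 1662081,nat_lit 1867722,nat_lit 2086833,nat_lit 2320959,nat_lit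 1285164,nat_lit 461571,nat_lit 1082502,nat_lit 1484479,nat_lit 1794211,nat_lit 2028582,nat_lit 2282938,nat_lit 2548070,nat_lit 2819196,nat_lit 1553981,nat_lit 487630,nat_lit 1158276,nat_lit 1597388,nat_lit 1931146,nat_lit 2198121,nat_lit 2501159,nat_lit 2784246,nat_lit 3059022,nat_lit 3336249,nat_lit 1869499,nat_lit 514491,nat_lit 1239529,nat_lit 1713959,nat_lit 2082310,nat_lit 2382441,nat_lit 2717166,nat_lit 3007344,nat_lit 3292372,nat_lit 3674647,nat_lit 4314797,nat_lit 2409359,nat_lit 540577,nat_lit 1320864,nat_lit 1833213,nat_lit 2249473,nat_lit 2571685,nat_lit 2917127,nat_lit 3208711,nat_lit 3614901,nat_lit 4208728,nat_lit 4707158,nat_lit 5128431,nat_lit 2705577,nat_lit 568791,nat_lit 1405688,nat_lit 1960749,nat_lit 2417455,nat_lit 2755279,nat_lit 3096041,nat_lit 3487789,nat_lit 4096448,nat_lit 4547722,nat_lit 4941434,nat_lit 5362739,nat_lit 5632010,nat_lit 4345197,nat_lit 595168,nat_lit 1491385,nat_lit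 2093118,nat_lit 2563119,nat_lit 2903959,nat_lit 3326252,nat_lit 3872440,nat_lit 4353947,nat_lit 4695148,nat_lit 5036154,nat_lit 2704133,nat_lit 621521,nat_lit 1577162,nat_lit 2218564,nat_lit 2692710,nat_lit 3104244,nat_lit 3651651,nat_lit 4073800,nat_lit 4461852,nat_lit 2374847,nat_lit 644228,nat_lit 1656121,nat_lit 2313933,nat_lit 2852645,nat_lit 3363544,nat_lit 3791646,nat_lit 2058561,nat_lit 666440,nat_lit 1717716,nat_lit 2431087,nat_lit 3045979,nat_lit 1722873,nat_lit 681619,nat_lit 1787749,nat_lit 1271835,nat_lit 346038]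
theorem chk : eqF (levelsPF 74 18889465931478580854784 14007996280973190758400 72057594037927936 268435456 (mkTabF 36 13 74 W47a.P W47a.K) W47a.ks (0 :: W47a.ks) W47a.g0 W47a.ms 78114717696 8 W47d.wE) wE = true := by
  decide +kernel
theorem invE : InvP (-(((12 : ℕ) : ℝ) / ((25 : ℕ) : ℝ))) (((4433 : ℕ) : ℝ) / ((1000 : ℕ) : ℝ)) W47a.hd0 W47a.hch0 36 13 268435456 W47a.ks 48 wE :=
  InvP.check (m := 40) (k := 8) W47a.setup W47a.hP W47a.hK W47a.hB W47a.hT W47a.hTE W47a.hdfc W47d.invE chk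
theorem hs : momS (gwSL 3 (-(((12 : ℕ) : ℝ) / ((25 : ℕ) : ℝ))) (((4433 : ℕ) : ℝ) / ((1000 : ℕ) : ℝ)) 48 W47a.hd0 (by norm_num) W47a.hch0) < ((162 : ℕ) : ℝ) / ((1000 : ℕ) : ℝ) :=
  momS_gw_lt (by norm_num) invE W47a.hP (by decide +kernel)
theorem hr : momR (gwSL 3 (-(((12 : ℕ) : ℝ) / ((25 : ℕ) : ℝ))) (((4433 : ℕ) : ℝ) / ((1000 : ℕ) : ℝ)) 48 W47a.hd0 (by norm_num) W47a.hch0) ≤ ((6357 : ℕ) : ℝ) / ((131072 : ℕ) : ℝ) :=
  momR_gw_le (by norm_num) invE W47a.hP (by decide +kernel)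
/-- the closure window `mu ∈ [47/100, 48/100]` -/
theorem exit : CloLite.ExitPR ((10000 : ℝ) / 48 ^ 2) ((10000 : ℝ) / 47 ^ 2) (162 / 1000) (6357 / 131072) := by
  have := CloLite.exitPR_of_upper (d₁ := (10000 : ℝ) / 48 ^ 2) (d₂ := (10000 : ℝ) / 47 ^ 2) (mu := (((12 : ℕ) : ℝ) / ((25 : ℕ) : ℝ)))
    (d' := (((4433 : ℕ) : ℝ) / ((1000 : ℕ) : ℝ))) (x := (((162 : ℕ) : ℝ) / ((1000 : ℕ) : ℝ))) (r0 := (((6357 : ℕ) : ℝ) / ((131072 : ℕ) : ℝ)))
    (by norm_num) (by norm_num) (by norm_num) (by norm_num) W47a.hd0 W47a.hch0 hs hr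
  simpa using this
end Crest.Agent.Lib.Bc.GridO.W47
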