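import Crest.Agent.Lib.Bc.Pois.W48e
/-! Row 163: the Poisson grid orbit of the closure window `mu ∈ [48/100, 49/100]`: upper chain `d' = 1063/250`, tilt `-49/100`,
grid size 36, weights in units of `2^-28`; at level 58: `s < 155/1000`, `r ≤ 46787/1048576`. -/
set_option maxRecDepth 1000000
open Crest.ProbabilityR.Broadcast
namespace Crest.Agent.Lib.Bc.GridO.W48
def wE : List ℕ := [nat_lit 35618,nat_lit 165671,nat_lit 196038,nat_lit 235819,nat_lit 532477,nat_lit 359571,nat_lit 279497,nat_lit 630573,nat_lit 853248,nat_lit 513382,nat_lit 311503,nat_lit 706997,nat_lit 961215,nat_lit 1158376,nat_lit 656076,nat_lit 339728,nat_lit 776173,nat_lit 1061601,nat_lit 1288669,nat_lit 1463291,nat_lit 822272,nat_lit 365720,nat_lit 846206,nat_lit 1164746,nat_lit 1421056,nat_lit 1622034,nat_lit 1824596,nat_lit 1016873,nat_lit 392191,nat_lit 917936,nat_lit 1271732,nat_lit 1556914,nat_lit 1775006,nat_lit 2012638,nat_lit 2266514,nat_lit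 1265839,nat_lit 418219,nat_lit 993257,nat_lit 1382419,nat_lit 1695538,nat_lit 1944626,nat_lit 2223929,nat_lit 2512913,nat_lit 2809631,nat_lit 1564108,nat_lit 445583,nat_lit 1071841,nat_lit 1498371,nat_lit 1837969,nat_lit 2131987,nat_lit 2450920,nat_lit 2768445,nat_lit 3065448,nat_lit 3393380,nat_lit 1928470,nat_lit 472521,nat_lit 1151302,nat_lit 1619669,nat_lit 1997925,nat_lit 2329775,nat_lit 2679512,nat_lit 3010604,nat_lit 3329639,nat_lit 3804993,nat_lit 4523273,nat_lit 2539211,nat_lit 500292,nat_lit 1235813,nat_lit 1747448,nat_lit 2169101,nat_lit 2532834,nat_lit 2911650,nat_lit 3225186,nat_lit 3712177,nat_lit 4390450,nat_lit 4966200,nat_lit 5461046,nat_lit 2906926,nat_lit 528931,nat_lit 1324316,nat_lit 1877686,nat_lit 2338533,nat_lit 2717144,nat_lit 3105881,nat_lit 3556608,nat_lit 4227188,nat_lit 4747999,nat_lit 5228505,nat_lit 5744921,nat_lit 6101191,nat_lit 5129107,nat_lit 557131,nat_lit 1411495,nat_lit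 2017034,nat_lit 2498874,nat_lit 2879403,nat_lit 3376876,nat_lit 3972466,nat_lit 4521087,nat_lit 4932183,nat_lit 5362776,nat_lit 2910832,nat_lit 583088,nat_lit 1500498,nat_lit 2142659,nat_lit 2631662,nat_lit 3112231,nat_lit 3716895,nat_lit 4178675,nat_lit 4643175,nat_lit 2499221,nat_lit 608045,nat_lit 1580868,nat_lit 2240639,nat_lit 2811648,nat_lit 3382148,nat_lit 3856043,nat_lit 2114847,nat_lit 630589,nat_lit 1643855,nat_lit 2374228,nat_lit 3013227,nat_lit 1732339,nat_lit 647153,nat_lit 1726880,nat_lit 1242646,nat_lit 331633]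
theorem chk : eqF (levelsPF 76 75557863725914323419136 56031985123892763033600 72057594037927936 268435456 (mkTabF 36 13 76 W48a.P W48a.K) W48a.ks (0 :: W48a.ks) W48a.g0 W48a.ms 185220464640 8 W48e.wE) wE = true := by
  decide +kernel
theorem invE : InvP (-(((49 : ℕ) : ℝ) / ((100 : ℕ) : ℝ))) (((1063 : ℕ) : ℝ) / ((250 : ℕ) : ℝ)) W48a.hd0 W48a.hch0 36 13 268435456 W48a.ks 58 wE :=
  InvP.check (m := 50) (k := 8) W48a.setup W48a.hP W48a.hK W48a.hB W48a.hT W48a.hTE W48a.hdfc W48e.invE chk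
theorem hs : momS (gwSL 3 (-(((49 : ℕ) : ℝ) / ((100 : ℕ) : ℝ))) (((1063 : ℕ) : ℝ) / ((250 : ℕ) : ℝ)) 58 W48a.hd0 (by norm_num) W48a.hch0) < ((155 : ℕ) : ℝ) / ((1000 : ℕ) : ℝ) :=
  momS_gw_lt (by norm_num) invE W48a.hP (by decide +kernel)
theorem hr : momR (gwSL 3 (-(((49 : ℕ) : ℝ) / ((100 : ℕ) : ℝ))) (((1063 : ℕ) : ℝ) / ((250 : ℕ) : ℝ)) 58 W48a.hd0 (by norm_num) W48a.hch0) ≤ ((46787 : ℕ) : ℝ) / ((1048576 : ℕ) : ℝ) :=
  momR_gw_le (by norm_num) invE W48a.hP (by decide +kernel)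
/-- the closure window `mu ∈ [48/100, 49/100]` -/
theorem exit : CloLite.ExitPR ((10000 : ℝ) / 49 ^ 2) ((10000 : ℝ) / 48 ^ 2) (155 / 1000) (46787 / 1048576) := by
  have := CloLite.exitPR_of_upper (d₁ := (10000 : ℝ) / 49 ^ 2) (d₂ := (10000 : ℝ) / 48 ^ 2) (mu := (((49 : ℕ) : ℝ) / ((100 : ℕ) : ℝ)))
    (d' := (((1063 : ℕ) : ℝ) / ((250 : ℕ) : ℝ))) (x := (((155 : ℕ) : ℝ) / ((1000 : ℕ) : ℝ))) (r0 := (((46787 : ℕ) : ℝ) / ((1048576 : ℕ) : ℝ)))
    (by norm_num) (by norm_num) (by norm_num) (by norm_num) W48a.hd0 W48a.hch0 hs hr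
  simpa using this
end Crest.Agent.Lib.Bc.GridO.W48
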