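import Crest.Agent.Lib.Bc.Pois.W49g
/-! Row 163: the Poisson grid orbit of the closure window `mu ∈ [49/100, 50/100]`: upper chain `d' = 2041/500`, tilt `-1/2`,
grid size 36, weights in units of `2^-28`; at level 75: `s < 145/1000`, `r ≤ 20851/524288`. -/
set_option maxRecDepth 1000000
open Crest.ProbabilityR.Broadcast
namespace Crest.Agent.Lib.Bc.GridO.W49
def wE : List ℕ := [nat_lit 24883,nat_lit 120047,nat_lit 147882,nat_lit 177097,nat_lit 416584,nat_lit 291562,nat_lit 215312,nat_lit 507046,nat_lit 709118,nat_lit 438216,nat_lit 245145,nat_lit 579743,nat_lit 816963,nat_lit 1008939,nat_lit 584644,nat_lit 271251,nat_lit 647755,nat_lit 917173,nat_lit 1144648,nat_lit 1328814,nat_lit 759354,nat_lit 296712,nat_lit 716534,nat_lit 1021489,nat_lit 1279894,nat_lit 1493297,nat_lit 1713596,nat_lit 978714,nat_lit 321918,nat_lit 786855,nat_lit 1129992,nat_lit 1422505,nat_lit 1656580,nat_lit 1929009,nat_lit 2193938,nat_lit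 1252596,nat_lit 346915,nat_lit 861217,nat_lit 1242677,nat_lit 1564781,nat_lit 1847008,nat_lit 2146277,nat_lit 2475749,nat_lit 2811375,nat_lit 1584308,nat_lit 373313,nat_lit 938238,nat_lit 1358003,nat_lit 1721084,nat_lit 2039534,nat_lit 2396361,nat_lit 2761744,nat_lit 3112909,nat_lit 3491377,nat_lit 2019082,nat_lit 398845,nat_lit 1015901,nat_lit 1486067,nat_lit 1882824,nat_lit 2257337,nat_lit 2642444,nat_lit 3039763,nat_lit 3405556,nat_lit 3999701,nat_lit 4811030,nat_lit 2740315,nat_lit 425464,nat_lit 1103346,nat_lit 1611876,nat_lit 2061973,nat_lit 2474014,nat_lit 2893509,nat_lit 3286661,nat_lit 3851075,nat_lit 4654209,nat_lit 5321244,nat_lit 5961692,nat_lit 3223267,nat_lit 454507,nat_lit 1185621,nat_lit 1750372,nat_lit 2244115,nat_lit 2676854,nat_lit 3116811,nat_lit 3673938,nat_lit 4411734,nat_lit 5065555,nat_lit 5658189,nat_lit 6315331,nat_lit 6805266,nat_lit 6051287,nat_lit 480467,nat_lit 1272283,nat_lit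 1888600,nat_lit 2408771,nat_lit 2849539,nat_lit 3436563,nat_lit 4124332,nat_lit 4739434,nat_lit 5295922,nat_lit 5842737,nat_lit 3229838,nat_lit 505661,nat_lit 1361898,nat_lit 2017003,nat_lit 2544853,nat_lit 3110027,nat_lit 3795167,nat_lit 4352160,nat_lit 4896548,nat_lit 2695078,nat_lit 530056,nat_lit 1440680,nat_lit 2115504,nat_lit 2743067,nat_lit 3392894,nat_lit 3937755,nat_lit 2207506,nat_lit 551236,nat_lit 1502819,nat_lit 2261320,nat_lit 2939126,nat_lit 1737656,nat_lit 567220,nat_lit 1587989,nat_lit 1184833,nat_lit 293464]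
theorem chk : eqF (levelsPF 70 1180591620717411303424 1120639702477855260672 72057594037927936 268435456 (mkTabF 36 13 70 W49a.P W49a.K) W49a.ks (0 :: W49a.ks) W49a.g0 W49a.ms 108716359680 5 W49g.wE) wE = true := by
  decide +kernel
theorem invE : InvP (-(((1 : ℕ) : ℝ) / ((2 : ℕ) : ℝ))) (((2041 : ℕ) : ℝ) / ((500 : ℕ) : ℝ)) W49a.hd0 W49a.hch0 36 13 268435456 W49a.ks 75 wE :=
  InvP.check (m := 70) (k := 5) W49a.setup W49a.hP W49a.hK W49a.hB W49a.hT W49a.hTE W49a.hdfc W49g.invE chk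
theorem hs : momS (gwSL 3 (-(((1 : ℕ) : ℝ) / ((2 : ℕ) : ℝ))) (((2041 : ℕ) : ℝ) / ((500 : ℕ) : ℝ)) 75 W49a.hd0 (by norm_num) W49a.hch0) < ((145 : ℕ) : ℝ) / ((1000 : ℕ) : ℝ) :=
  momS_gw_lt (by norm_num) invE W49a.hP (by decide +kernel)
theorem hr : momR (gwSL 3 (-(((1 : ℕ) : ℝ) / ((2 : ℕ) : ℝ))) (((2041 : ℕ) : ℝ) / ((500 : ℕ) : ℝ)) 75 W49a.hd0 (by norm_num) W49a.hch0) ≤ ((20851 : ℕ) : ℝ) / ((524288 : ℕ) : ℝ) :=
  momR_gw_le (by norm_num) invE W49a.hP (by decide +kernel)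
/-- the closure window `mu ∈ [49/100, 50/100]` -/
theorem exit : CloLite.ExitPR ((10000 : ℝ) / 50 ^ 2) ((10000 : ℝ) / 49 ^ 2) (145 / 1000) (20851 / 524288) := by
  have := CloLite.exitPR_of_upper (d₁ := (10000 : ℝ) / 50 ^ 2) (d₂ := (10000 : ℝ) / 49 ^ 2) (mu := (((1 : ℕ) : ℝ) / ((2 : ℕ) : ℝ)))
    (d' := (((2041 : ℕ) : ℝ) / ((500 : ℕ) : ℝ))) (x := (((145 : ℕ) : ℝ) / ((1000 : ℕ) : ℝ))) (r0 := (((20851 : ℕ) : ℝ) / ((524288 : ℕ) : ℝ)))
    (by norm_num) (by norm_num) (by norm_num) (by norm_num) W49a.hd0 W49a.hch0 hs hr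
  simpa using this
end Crest.Agent.Lib.Bc.GridO.W49
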