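import Crest.Agent.Lib.Bc.GridPFR
import Crest.Agent.Lib.Bc.CloLite.Wire2
/-! Row 163: the Poisson grid orbit of the closure window `mu ∈ [43/100, 44/100]`: upper chain `d' = 2643/500`, tilt `-11/25`,
grid size 24, weights in units of `2^-28`; at level 34: `s < 213/1000`, `r ≤ 81369/1048576`. -/
set_option maxRecDepth 1000000
open Crest.ProbabilityR.Broadcast
namespace Crest.Agent.Lib.Bc.GridO.W43
def ks : List ℕ := [nat_lit 9,nat_lit 10,nat_lit 18,nat_lit 19,nat_lit 20,nat_lit 27,nat_lit 28,nat_lit 29,nat_lit 30,nat_lit 36,nat_lit 37,nat_lit 38,nat_lit 39,nat_lit 40,nat_lit 45,nat_lit 46,nat_lit 47,nat_lit 48,nat_lit 49,nat_lit 50,nat_lit 54,nat_lit 55,nat_lit 56,nat_lit 57,nat_lit 58,nat_lit 59,nat_lit 60,nat_lit 63,nat_lit 64,nat_lit 65,nat_lit 66,nat_lit 67,nat_lit 68,nat_lit 69,nat_lit 70,nat_lit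 72,nat_lit 73,nat_lit 74,nat_lit 75,nat_lit 76,nat_lit 77,nat_lit 78,nat_lit 79,nat_lit 80,nat_lit 81,nat_lit 82,nat_lit 83,nat_lit 84,nat_lit 85,nat_lit 86,nat_lit 87,nat_lit 90,nat_lit 91,nat_lit 92,nat_lit 93,nat_lit 94,nat_lit 99,nat_lit 100,nat_lit 101,nat_lit 108]
def P : List Pt := [⟨nat_lit 24,nat_lit 0,nat_lit 0⟩,⟨nat_lit 23,nat_lit 1,nat_lit 0⟩,⟨nat_lit 22,nat_lit 1,nat_lit 1⟩,⟨nat_lit 22,nat_lit 2,nat_lit 0⟩,⟨nat_lit 21,nat_lit 2,nat_lit 1⟩,⟨nat_lit 20,nat_lit 2,nat_lit 2⟩,⟨nat_lit 21,nat_lit 3,nat_lit 0⟩,⟨nat_lit 20,nat_lit 3,nat_lit 1⟩,⟨nat_lit 19,nat_lit 3,nat_lit 2⟩,⟨nat_lit 18,nat_lit 3,nat_lit 3⟩,⟨nat_lit 20,nat_lit 4,nat_lit 0⟩,⟨nat_lit 19,nat_lit 4,nat_lit 1⟩,⟨nat_lit 18,nat_lit 4,nat_lit 2⟩,⟨nat_lit 17,nat_lit 4,nat_lit 3⟩,⟨nat_lit 16,nat_lit 4,nat_lit 4⟩,⟨nat_lit 19,nat_lit 5,nat_lit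 0⟩,⟨nat_lit 18,nat_lit 5,nat_lit 1⟩,⟨nat_lit 17,nat_lit 5,nat_lit 2⟩,⟨nat_lit 16,nat_lit 5,nat_lit 3⟩,⟨nat_lit 15,nat_lit 5,nat_lit 4⟩,⟨nat_lit 14,nat_lit 5,nat_lit 5⟩,⟨nat_lit 18,nat_lit 6,nat_lit 0⟩,⟨nat_lit 17,nat_lit 6,nat_lit 1⟩,⟨nat_lit 16,nat_lit 6,nat_lit 2⟩,⟨nat_lit 15,nat_lit 6,nat_lit 3⟩,⟨nat_lit 14,nat_lit 6,nat_lit 4⟩,⟨nat_lit 13,nat_lit 6,nat_lit 5⟩,⟨nat_lit 12,nat_lit 6,nat_lit 6⟩,⟨nat_lit 17,nat_lit 7,nat_lit 0⟩,⟨nat_lit 16,nat_lit 7,nat_lit 1⟩,⟨nat_lit 15,nat_lit 7,nat_lit 2⟩,⟨nat_lit 14,nat_lit 7,nat_lit 3⟩,⟨nat_lit 13,nat_lit 7,nat_lit 4⟩,⟨nat_lit 12,nat_lit 7,nat_lit 5⟩,⟨nat_lit 11,nat_lit 7,nat_lit 6⟩,⟨nat_lit 10,nat_lit 7,nat_lit 7⟩,⟨nat_lit 16,nat_lit 8,nat_lit 0⟩,⟨nat_lit 15,nat_lit 8,nat_lit 1⟩,⟨nat_lit 14,nat_lit 8,nat_lit 2⟩,⟨nat_lit 13,nat_lit 8,nat_lit 3⟩,⟨nat_lit 12,nat_lit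 8,nat_lit 4⟩,⟨nat_lit 11,nat_lit 8,nat_lit 5⟩,⟨nat_lit 10,nat_lit 8,nat_lit 6⟩,⟨nat_lit 9,nat_lit 8,nat_lit 7⟩,⟨nat_lit 8,nat_lit 8,nat_lit 8⟩,⟨nat_lit 15,nat_lit 9,nat_lit 0⟩,⟨nat_lit 14,nat_lit 9,nat_lit 1⟩,⟨nat_lit 13,nat_lit 9,nat_lit 2⟩,⟨nat_lit 12,nat_lit 9,nat_lit 3⟩,⟨nat_lit 11,nat_lit 9,nat_lit 4⟩,⟨nat_lit 10,nat_lit 9,nat_lit 5⟩,⟨nat_lit 9,nat_lit 9,nat_lit 6⟩,⟨nat_lit 14,nat_lit 10,nat_lit 0⟩,⟨nat_lit 13,nat_lit 10,nat_lit 1⟩,⟨nat_lit 12,nat_lit 10,nat_lit 2⟩,⟨nat_lit 11,nat_lit 10,nat_lit 3⟩,⟨nat_lit 10,nat_lit 10,nat_lit 4⟩,⟨nat_lit 13,nat_lit 11,nat_lit 0⟩,⟨nat_lit 12,nat_lit 11,nat_lit 1⟩,⟨nat_lit 11,nat_lit 11,nat_lit 2⟩,⟨nat_lit 12,nat_lit 12,nat_lit 0⟩]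
def K : List Pt := [⟨nat_lit 72,nat_lit 864,nat_lit 864⟩,⟨nat_lit 105,nat_lit 831,nat_lit 864⟩,⟨nat_lit 138,nat_lit 831,nat_lit 831⟩,⟨nat_lit 138,nat_lit 798,nat_lit 864⟩,⟨nat_lit 171,nat_lit 798,nat_lit 831⟩,⟨nat_lit 204,nat_lit 798,nat_lit 798⟩,⟨nat_lit 171,nat_lit 765,nat_lit 864⟩,⟨nat_lit 204,nat_lit 765,nat_lit 831⟩,⟨nat_lit 237,nat_lit 765,nat_lit 798⟩,⟨nat_lit 270,nat_lit 765,nat_lit 765⟩,⟨nat_lit 204,nat_lit 732,nat_lit 864⟩,⟨nat_lit 237,nat_lit 732,nat_lit 831⟩,⟨nat_lit 270,nat_lit 732,nat_lit 798⟩,⟨nat_lit 303,nat_lit 732,nat_lit 765⟩,⟨nat_lit 336,nat_lit 732,nat_lit 732⟩,⟨nat_lit 237,nat_lit 699,nat_lit 864⟩,⟨nat_lit 270,nat_lit 699,nat_lit 831⟩,⟨nat_lit 303,nat_lit 699,nat_lit 798⟩,⟨nat_lit 336,nat_lit 699,nat_lit 765⟩,⟨nat_lit 369,nat_lit 699,nat_lit 732⟩,⟨nat_lit 402,nat_lit 699,nat_lit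 699⟩,⟨nat_lit 270,nat_lit 666,nat_lit 864⟩,⟨nat_lit 303,nat_lit 666,nat_lit 831⟩,⟨nat_lit 336,nat_lit 666,nat_lit 798⟩,⟨nat_lit 369,nat_lit 666,nat_lit 765⟩,⟨nat_lit 402,nat_lit 666,nat_lit 732⟩,⟨nat_lit 435,nat_lit 666,nat_lit 699⟩,⟨nat_lit 468,nat_lit 666,nat_lit 666⟩,⟨nat_lit 303,nat_lit 633,nat_lit 864⟩,⟨nat_lit 336,nat_lit 633,nat_lit 831⟩,⟨nat_lit 369,nat_lit 633,nat_lit 798⟩,⟨nat_lit 402,nat_lit 633,nat_lit 765⟩,⟨nat_lit 435,nat_lit 633,nat_lit 732⟩,⟨nat_lit 468,nat_lit 633,nat_lit 699⟩,⟨nat_lit 501,nat_lit 633,nat_lit 666⟩,⟨nat_lit 534,nat_lit 633,nat_lit 633⟩,⟨nat_lit 336,nat_lit 600,nat_lit 864⟩,⟨nat_lit 369,nat_lit 600,nat_lit 831⟩,⟨nat_lit 402,nat_lit 600,nat_lit 798⟩,⟨nat_lit 435,nat_lit 600,nat_lit 765⟩,⟨nat_lit 468,nat_lit 600,nat_lit 732⟩,⟨nat_lit 501,nat_lit 600,nat_lit 699⟩,⟨nat_lit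 534,nat_lit 600,nat_lit 666⟩,⟨nat_lit 567,nat_lit 600,nat_lit 633⟩,⟨nat_lit 600,nat_lit 600,nat_lit 600⟩,⟨nat_lit 369,nat_lit 567,nat_lit 864⟩,⟨nat_lit 402,nat_lit 567,nat_lit 831⟩,⟨nat_lit 435,nat_lit 567,nat_lit 798⟩,⟨nat_lit 468,nat_lit 567,nat_lit 765⟩,⟨nat_lit 501,nat_lit 567,nat_lit 732⟩,⟨nat_lit 534,nat_lit 567,nat_lit 699⟩,⟨nat_lit 567,nat_lit 567,nat_lit 666⟩,⟨nat_lit 402,nat_lit 534,nat_lit 864⟩,⟨nat_lit 435,nat_lit 534,nat_lit 831⟩,⟨nat_lit 468,nat_lit 534,nat_lit 798⟩,⟨nat_lit 501,nat_lit 534,nat_lit 765⟩,⟨nat_lit 534,nat_lit 534,nat_lit 732⟩,⟨nat_lit 435,nat_lit 501,nat_lit 864⟩,⟨nat_lit 468,nat_lit 501,nat_lit 831⟩,⟨nat_lit 501,nat_lit 501,nat_lit 798⟩,⟨nat_lit 468,nat_lit 468,nat_lit 864⟩]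
theorem hP0 : eqPtsP P (ptsOf 24 9 ks) = true := by decide +kernel
theorem hK0 : eqPtsP K (P.map (tiltPtQ 11 25 24)) = true := by decide +kernel
theorem hP : P = ptsOf 24 9 ks := eqPtsP_eq _ _ hP0
theorem hK : K = P.map (tiltPtQ 11 25 24) := eqPtsP_eq _ _ hK0
theorem hnodup : ks.Nodup := by decide +kernel
theorem hvalid : ∀ k ∈ ks, k < 117 ∧ Valid 24 9 k := by
  have : ∀ k ∈ ks, k < 117 ∧ k / 9 + k % 9 ≤ 24 := by decide +kernel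
  exact this
def g0 : List ℕ := [nat_lit 0,nat_lit 0,nat_lit 0,nat_lit 0,nat_lit 0,nat_lit 0,nat_lit 0,nat_lit 0,nat_lit 0,nat_lit 0,nat_lit 0,nat_lit 0,nat_lit 0,nat_lit 0,nat_lit 0,nat_lit 0,nat_lit 0,nat_lit 0,nat_lit 0,nat_lit 0,nat_lit 0,nat_lit 0,nat_lit 0,nat_lit 0,nat_lit 0,nat_lit 0,nat_lit 0,nat_lit 0,nat_lit 0,nat_lit 0,nat_lit 0,nat_lit 0,nat_lit 0,nat_lit 0,nat_lit 0,nat_lit 0,nat_lit 0,nat_lit 0,nat_lit 0,nat_lit 0,nat_lit 0,nat_lit 0,nat_lit 0,nat_lit 0,nat_lit 268435456,nat_lit 0,nat_lit 0,nat_lit 0,nat_lit 0,nat_lit 0,nat_lit 0,nat_lit 0,nat_lit 0,nat_lit 0,nat_lit 0,nat_lit 0,nat_lit 0,nat_lit 0,nat_lit 0,nat_lit 0,nat_lit 0]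
def ms : List ℕ := [nat_lit 1358811,nat_lit 7182678,nat_lit 18983818,nat_lit 33449487,nat_lit 44203498,nat_lit 46731938,nat_lit 41170837,nat_lit 31089863,nat_lit 20542627,nat_lit 12065369,nat_lit 6377754,nat_lit 3064800,nat_lit 1350044,nat_lit 548948,nat_lit 207267,nat_lit 73041,nat_lit 24130,nat_lit 7503,nat_lit 2203,nat_lit 613]
theorem hg0 : Good 24 268435456 (ptsOf 24 9 ks) g0 := by
  rw [← hP]
  refine ⟨by norm_num, by norm_num, ?_, ?_, ?_⟩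
  · have : ∀ p ∈ P, p.a + p.b + p.c = 24 := by decide +kernel
    exact this
  · decide +kernel
  · decide +kernel
theorem hd0 : (0 : ℝ) ≤ (((2643 : ℕ) : ℝ) / ((500 : ℕ) : ℝ)) := by positivity
theorem hq0 : ∀ i, i < ms.length → ((ms.getD i 0 : ℕ) : ℝ) / ((268435456 : ℕ) : ℝ)
    ≤ Real.exp (-(((2643 : ℕ) : ℝ) / ((500 : ℕ) : ℝ))) * (((2643 : ℕ) : ℝ) / ((500 : ℕ) : ℝ)) ^ i / Nat.factorial i :=
  hq_of_chk (a := 2643) (b := 500) (en := 1424817235846) (ed := 281474976710656) (by norm_num) (by norm_num) (by norm_num)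
    (by decide +kernel) (by decide +kernel)
theorem setup : SetupP 24 9 73 117 268435456 11 25 268435456 ks g0 ms (((2643 : ℕ) : ℝ) / ((500 : ℕ) : ℝ)) :=
  ⟨by norm_num, by norm_num, by norm_num, by norm_num, by norm_num, by norm_num, by norm_num, by norm_num,
    by norm_num, hnodup, hvalid, hg0, by decide +kernel, hd0, hq0⟩
theorem hB : 9444732965739290427392 = 2 ^ 73 := by norm_num
theorem hT : 6225776124876973670400 = 2 * 24 * (3 * 25 * 24) * 268435456 * 268435456 := by norm_num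
theorem hTE : 72057594037927936 = 268435456 * 268435456 := by norm_num
theorem hdfc : 60934848512 = (268435456 - ms.sum) * 268435456 := by decide +kernel
lemma hch0 (i j : Fin 3) : 0 ≤ channel 3 (-(((11 : ℕ) : ℝ) / ((25 : ℕ) : ℝ))) i j :=
  ch3 (by norm_num) (by norm_num) i j
def w0 : List ℕ := [nat_lit 268435456,nat_lit 0,nat_lit 0,nat_lit 0,nat_lit 0,nat_lit 0,nat_lit 0,nat_lit 0,nat_lit 0,nat_lit 0,nat_lit 0,nat_lit 0,nat_lit 0,nat_lit 0,nat_lit 0,nat_lit 0,nat_lit 0,nat_lit 0,nat_lit 0,nat_lit 0,nat_lit 0,nat_lit 0,nat_lit 0,nat_lit 0,nat_lit 0,nat_lit 0,nat_lit 0,nat_lit 0,nat_lit 0,nat_lit 0,nat_lit 0,nat_lit 0,nat_lit 0,nat_lit 0,nat_lit 0,nat_lit 0,nat_lit 0,nat_lit 0,nat_lit 0,nat_lit 0,nat_lit 0,nat_lit 0,nat_lit 0,nat_lit 0,nat_lit 0,nat_lit 0,nat_lit 0,nat_lit 0,nat_lit 0,nat_lit 0,nat_lit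 0,nat_lit 0,nat_lit 0,nat_lit 0,nat_lit 0,nat_lit 0,nat_lit 0,nat_lit 0,nat_lit 0,nat_lit 0,nat_lit 0]
theorem h0 : w0 = 268435456 :: List.replicate ks.length 0 := by decide +kernel
theorem inv0 : InvP (-(((11 : ℕ) : ℝ) / ((25 : ℕ) : ℝ))) (((2643 : ℕ) : ℝ) / ((500 : ℕ) : ℝ)) hd0 hch0 24 9 268435456 ks 0 w0 := by
  rw [h0]
  exact InvP.zero setup
def wE : List ℕ := [nat_lit 475675,nat_lit 1666699,nat_lit 1485276,nat_lit 2020789,nat_lit 3430234,nat_lit 1982880,nat_lit 2149961,nat_lit 3667073,nat_lit 4281825,nat_lit 2352733,nat_lit 2224785,nat_lit 3824639,nat_lit 4488657,nat_lit 4924045,nat_lit 2586281,nat_lit 2291794,nat_lit 3977453,nat_lit 4711195,nat_lit 5192896,nat_lit 5466895,nat_lit 2947482,nat_lit 2362516,nat_lit 4170573,nat_lit 4977337,nat_lit 5508153,nat_lit 5857228,nat_lit 6231757,nat_lit 3311279,nat_lit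 2444519,nat_lit 4400593,nat_lit 5276218,nat_lit 5883379,nat_lit 6176423,nat_lit 6608205,nat_lit 7406636,nat_lit 3910015,nat_lit 2530681,nat_lit 4632742,nat_lit 5616937,nat_lit 6190843,nat_lit 6543031,nat_lit 7391331,nat_lit 7767996,nat_lit 8023246,nat_lit 2776830,nat_lit 2627986,nat_lit 4891223,nat_lit 5926414,nat_lit 6521602,nat_lit 7180095,nat_lit 7606924,nat_lit 3883265,nat_lit 2715472,nat_lit 5134988,nat_lit 6222565,nat_lit 7043185,nat_lit 3671566,nat_lit 2791305,nat_lit 5355777,nat_lit 3304520,nat_lit 1410834]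
theorem chk : eqF (levelsPF 73 9444732965739290427392 6225776124876973670400 72057594037927936 268435456 (mkTabF 24 9 73 P K) ks (0 :: ks) g0 ms 60934848512 34 w0) wE = true := by
  decide +kernel
theorem invE : InvP (-(((11 : ℕ) : ℝ) / ((25 : ℕ) : ℝ))) (((2643 : ℕ) : ℝ) / ((500 : ℕ) : ℝ)) hd0 hch0 24 9 268435456 ks 34 wE :=
  InvP.check (m := 0) (k := 34) setup hP hK hB hT hTE hdfc inv0 chk
theorem hs : momS (gwSL 3 (-(((11 : ℕ) : ℝ) / ((25 : ℕ) : ℝ))) (((2643 : ℕ) : ℝ) / ((500 : ℕ) : ℝ)) 34 hd0 (by norm_num) hch0) < ((213 : ℕ) : ℝ) / ((1000 : ℕ) : ℝ) :=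
  momS_gw_lt (by norm_num) invE hP (by decide +kernel)
theorem hr : momR (gwSL 3 (-(((11 : ℕ) : ℝ) / ((25 : ℕ) : ℝ))) (((2643 : ℕ) : ℝ) / ((500 : ℕ) : ℝ)) 34 hd0 (by norm_num) hch0) ≤ ((81369 : ℕ) : ℝ) / ((1048576 : ℕ) : ℝ) :=
  momR_gw_le (by norm_num) invE hP (by decide +kernel)
/-- the closure window `mu ∈ [43/100, 44/100]` -/
theorem exit : CloLite.ExitPR ((10000 : ℝ) / 44 ^ 2) ((10000 : ℝ) / 43 ^ 2) (213 / 1000) (81369 / 1048576) := by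
  have := CloLite.exitPR_of_upper (d₁ := (10000 : ℝ) / 44 ^ 2) (d₂ := (10000 : ℝ) / 43 ^ 2) (mu := (((11 : ℕ) : ℝ) / ((25 : ℕ) : ℝ)))
    (d' := (((2643 : ℕ) : ℝ) / ((500 : ℕ) : ℝ))) (x := (((213 : ℕ) : ℝ) / ((1000 : ℕ) : ℝ))) (r0 := (((81369 : ℕ) : ℝ) / ((1048576 : ℕ) : ℝ)))
    (by norm_num) (by norm_num) (by norm_num) (by norm_num) hd0 hch0 hs hr
  simpa using this
end Crest.Agent.Lib.Bc.GridO.W43
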