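import Crest.Agent.Lib.Bc.GridPFR
import Crest.Agent.Lib.Bc.CloLite.Wire2
/-! Row 163: the Poisson grid orbit of the closure window `mu ∈ [46/100, 47/100]`: upper chain `d' = 2313/500`, tilt `-47/100`,
grid size 30, weights in units of `2^-28`; at level 49: `s < 174/1000`, `r ≤ 56959/1048576`. -/
set_option maxRecDepth 1000000
open Crest.ProbabilityR.Broadcast
namespace Crest.Agent.Lib.Bc.GridO.W46a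
def ks : List ℕ := [nat_lit 11,nat_lit 12,nat_lit 22,nat_lit 23,nat_lit 24,nat_lit 33,nat_lit 34,nat_lit 35,nat_lit 36,nat_lit 44,nat_lit 45,nat_lit 46,nat_lit 47,nat_lit 48,nat_lit 55,nat_lit 56,nat_lit 57,nat_lit 58,nat_lit 59,nat_lit 60,nat_lit 66,nat_lit 67,nat_lit 68,nat_lit 69,nat_lit 70,nat_lit 71,nat_lit 72,nat_lit 77,nat_lit 78,nat_lit 79,nat_lit 80,nat_lit 81,nat_lit 82,nat_lit 83,nat_lit 84,nat_lit 88,nat_lit 89,nat_lit 90,nat_lit 91,nat_lit 92,nat_lit 93,nat_lit 94,nat_lit 95,nat_lit 96,nat_lit 99,nat_lit 100,nat_lit 101,nat_lit 102,nat_lit 103,nat_lit 104,nat_lit 105,nat_lit 106,nat_lit 107,nat_lit 108,nat_lit 110,nat_lit 111,nat_lit 112,nat_lit 113,nat_lit 114,nat_lit 115,nat_lit 116,nat_lit 117,nat_lit 118,nat_lit 119,nat_lit 120,nat_lit 121,nat_lit 122,nat_lit 123,nat_lit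 124,nat_lit 125,nat_lit 126,nat_lit 127,nat_lit 128,nat_lit 129,nat_lit 132,nat_lit 133,nat_lit 134,nat_lit 135,nat_lit 136,nat_lit 137,nat_lit 138,nat_lit 143,nat_lit 144,nat_lit 145,nat_lit 146,nat_lit 147,nat_lit 154,nat_lit 155,nat_lit 156,nat_lit 165]
def P : List Pt := [⟨nat_lit 30,nat_lit 0,nat_lit 0⟩,⟨nat_lit 29,nat_lit 1,nat_lit 0⟩,⟨nat_lit 28,nat_lit 1,nat_lit 1⟩,⟨nat_lit 28,nat_lit 2,nat_lit 0⟩,⟨nat_lit 27,nat_lit 2,nat_lit 1⟩,⟨nat_lit 26,nat_lit 2,nat_lit 2⟩,⟨nat_lit 27,nat_lit 3,nat_lit 0⟩,⟨nat_lit 26,nat_lit 3,nat_lit 1⟩,⟨nat_lit 25,nat_lit 3,nat_lit 2⟩,⟨nat_lit 24,nat_lit 3,nat_lit 3⟩,⟨nat_lit 26,nat_lit 4,nat_lit 0⟩,⟨nat_lit 25,nat_lit 4,nat_lit 1⟩,⟨nat_lit 24,nat_lit 4,nat_lit 2⟩,⟨nat_lit 23,nat_lit 4,nat_lit 3⟩,⟨nat_lit 22,nat_lit 4,nat_lit 4⟩,⟨nat_lit 25,nat_lit 5,nat_lit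 0⟩,⟨nat_lit 24,nat_lit 5,nat_lit 1⟩,⟨nat_lit 23,nat_lit 5,nat_lit 2⟩,⟨nat_lit 22,nat_lit 5,nat_lit 3⟩,⟨nat_lit 21,nat_lit 5,nat_lit 4⟩,⟨nat_lit 20,nat_lit 5,nat_lit 5⟩,⟨nat_lit 24,nat_lit 6,nat_lit 0⟩,⟨nat_lit 23,nat_lit 6,nat_lit 1⟩,⟨nat_lit 22,nat_lit 6,nat_lit 2⟩,⟨nat_lit 21,nat_lit 6,nat_lit 3⟩,⟨nat_lit 20,nat_lit 6,nat_lit 4⟩,⟨nat_lit 19,nat_lit 6,nat_lit 5⟩,⟨nat_lit 18,nat_lit 6,nat_lit 6⟩,⟨nat_lit 23,nat_lit 7,nat_lit 0⟩,⟨nat_lit 22,nat_lit 7,nat_lit 1⟩,⟨nat_lit 21,nat_lit 7,nat_lit 2⟩,⟨nat_lit 20,nat_lit 7,nat_lit 3⟩,⟨nat_lit 19,nat_lit 7,nat_lit 4⟩,⟨nat_lit 18,nat_lit 7,nat_lit 5⟩,⟨nat_lit 17,nat_lit 7,nat_lit 6⟩,⟨nat_lit 16,nat_lit 7,nat_lit 7⟩,⟨nat_lit 22,nat_lit 8,nat_lit 0⟩,⟨nat_lit 21,nat_lit 8,nat_lit 1⟩,⟨nat_lit 20,nat_lit 8,nat_lit 2⟩,⟨nat_lit 19,nat_lit 8,nat_lit 3⟩,⟨nat_lit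 18,nat_lit 8,nat_lit 4⟩,⟨nat_lit 17,nat_lit 8,nat_lit 5⟩,⟨nat_lit 16,nat_lit 8,nat_lit 6⟩,⟨nat_lit 15,nat_lit 8,nat_lit 7⟩,⟨nat_lit 14,nat_lit 8,nat_lit 8⟩,⟨nat_lit 21,nat_lit 9,nat_lit 0⟩,⟨nat_lit 20,nat_lit 9,nat_lit 1⟩,⟨nat_lit 19,nat_lit 9,nat_lit 2⟩,⟨nat_lit 18,nat_lit 9,nat_lit 3⟩,⟨nat_lit 17,nat_lit 9,nat_lit 4⟩,⟨nat_lit 16,nat_lit 9,nat_lit 5⟩,⟨nat_lit 15,nat_lit 9,nat_lit 6⟩,⟨nat_lit 14,nat_lit 9,nat_lit 7⟩,⟨nat_lit 13,nat_lit 9,nat_lit 8⟩,⟨nat_lit 12,nat_lit 9,nat_lit 9⟩,⟨nat_lit 20,nat_lit 10,nat_lit 0⟩,⟨nat_lit 19,nat_lit 10,nat_lit 1⟩,⟨nat_lit 18,nat_lit 10,nat_lit 2⟩,⟨nat_lit 17,nat_lit 10,nat_lit 3⟩,⟨nat_lit 16,nat_lit 10,nat_lit 4⟩,⟨nat_lit 15,nat_lit 10,nat_lit 5⟩,⟨nat_lit 14,nat_lit 10,nat_lit 6⟩,⟨nat_lit 13,nat_lit 10,nat_lit 7⟩,⟨nat_lit 12,nat_lit 10,nat_lit 8⟩,⟨nat_lit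 11,nat_lit 10,nat_lit 9⟩,⟨nat_lit 10,nat_lit 10,nat_lit 10⟩,⟨nat_lit 19,nat_lit 11,nat_lit 0⟩,⟨nat_lit 18,nat_lit 11,nat_lit 1⟩,⟨nat_lit 17,nat_lit 11,nat_lit 2⟩,⟨nat_lit 16,nat_lit 11,nat_lit 3⟩,⟨nat_lit 15,nat_lit 11,nat_lit 4⟩,⟨nat_lit 14,nat_lit 11,nat_lit 5⟩,⟨nat_lit 13,nat_lit 11,nat_lit 6⟩,⟨nat_lit 12,nat_lit 11,nat_lit 7⟩,⟨nat_lit 11,nat_lit 11,nat_lit 8⟩,⟨nat_lit 18,nat_lit 12,nat_lit 0⟩,⟨nat_lit 17,nat_lit 12,nat_lit 1⟩,⟨nat_lit 16,nat_lit 12,nat_lit 2⟩,⟨nat_lit 15,nat_lit 12,nat_lit 3⟩,⟨nat_lit 14,nat_lit 12,nat_lit 4⟩,⟨nat_lit 13,nat_lit 12,nat_lit 5⟩,⟨nat_lit 12,nat_lit 12,nat_lit 6⟩,⟨nat_lit 17,nat_lit 13,nat_lit 0⟩,⟨nat_lit 16,nat_lit 13,nat_lit 1⟩,⟨nat_lit 15,nat_lit 13,nat_lit 2⟩,⟨nat_lit 14,nat_lit 13,nat_lit 3⟩,⟨nat_lit 13,nat_lit 13,nat_lit 4⟩,⟨nat_lit 16,nat_lit 14,nat_lit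 0⟩,⟨nat_lit 15,nat_lit 14,nat_lit 1⟩,⟨nat_lit 14,nat_lit 14,nat_lit 2⟩,⟨nat_lit 15,nat_lit 15,nat_lit 0⟩]
def K : List Pt := [⟨nat_lit 180,nat_lit 4410,nat_lit 4410⟩,⟨nat_lit 321,nat_lit 4269,nat_lit 4410⟩,⟨nat_lit 462,nat_lit 4269,nat_lit 4269⟩,⟨nat_lit 462,nat_lit 4128,nat_lit 4410⟩,⟨nat_lit 603,nat_lit 4128,nat_lit 4269⟩,⟨nat_lit 744,nat_lit 4128,nat_lit 4128⟩,⟨nat_lit 603,nat_lit 3987,nat_lit 4410⟩,⟨nat_lit 744,nat_lit 3987,nat_lit 4269⟩,⟨nat_lit 885,nat_lit 3987,nat_lit 4128⟩,⟨nat_lit 1026,nat_lit 3987,nat_lit 3987⟩,⟨nat_lit 744,nat_lit 3846,nat_lit 4410⟩,⟨nat_lit 885,nat_lit 3846,nat_lit 4269⟩,⟨nat_lit 1026,nat_lit 3846,nat_lit 4128⟩,⟨nat_lit 1167,nat_lit 3846,nat_lit 3987⟩,⟨nat_lit 1308,nat_lit 3846,nat_lit 3846⟩,⟨nat_lit 885,nat_lit 3705,nat_lit 4410⟩,⟨nat_lit 1026,nat_lit 3705,nat_lit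 4269⟩,⟨nat_lit 1167,nat_lit 3705,nat_lit 4128⟩,⟨nat_lit 1308,nat_lit 3705,nat_lit 3987⟩,⟨nat_lit 1449,nat_lit 3705,nat_lit 3846⟩,⟨nat_lit 1590,nat_lit 3705,nat_lit 3705⟩,⟨nat_lit 1026,nat_lit 3564,nat_lit 4410⟩,⟨nat_lit 1167,nat_lit 3564,nat_lit 4269⟩,⟨nat_lit 1308,nat_lit 3564,nat_lit 4128⟩,⟨nat_lit 1449,nat_lit 3564,nat_lit 3987⟩,⟨nat_lit 1590,nat_lit 3564,nat_lit 3846⟩,⟨nat_lit 1731,nat_lit 3564,nat_lit 3705⟩,⟨nat_lit 1872,nat_lit 3564,nat_lit 3564⟩,⟨nat_lit 1167,nat_lit 3423,nat_lit 4410⟩,⟨nat_lit 1308,nat_lit 3423,nat_lit 4269⟩,⟨nat_lit 1449,nat_lit 3423,nat_lit 4128⟩,⟨nat_lit 1590,nat_lit 3423,nat_lit 3987⟩,⟨nat_lit 1731,nat_lit 3423,nat_lit 3846⟩,⟨nat_lit 1872,nat_lit 3423,nat_lit 3705⟩,⟨nat_lit 2013,nat_lit 3423,nat_lit 3564⟩,⟨nat_lit 2154,nat_lit 3423,nat_lit 3423⟩,⟨nat_lit 1308,nat_lit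 3282,nat_lit 4410⟩,⟨nat_lit 1449,nat_lit 3282,nat_lit 4269⟩,⟨nat_lit 1590,nat_lit 3282,nat_lit 4128⟩,⟨nat_lit 1731,nat_lit 3282,nat_lit 3987⟩,⟨nat_lit 1872,nat_lit 3282,nat_lit 3846⟩,⟨nat_lit 2013,nat_lit 3282,nat_lit 3705⟩,⟨nat_lit 2154,nat_lit 3282,nat_lit 3564⟩,⟨nat_lit 2295,nat_lit 3282,nat_lit 3423⟩,⟨nat_lit 2436,nat_lit 3282,nat_lit 3282⟩,⟨nat_lit 1449,nat_lit 3141,nat_lit 4410⟩,⟨nat_lit 1590,nat_lit 3141,nat_lit 4269⟩,⟨nat_lit 1731,nat_lit 3141,nat_lit 4128⟩,⟨nat_lit 1872,nat_lit 3141,nat_lit 3987⟩,⟨nat_lit 2013,nat_lit 3141,nat_lit 3846⟩,⟨nat_lit 2154,nat_lit 3141,nat_lit 3705⟩,⟨nat_lit 2295,nat_lit 3141,nat_lit 3564⟩,⟨nat_lit 2436,nat_lit 3141,nat_lit 3423⟩,⟨nat_lit 2577,nat_lit 3141,nat_lit 3282⟩,⟨nat_lit 2718,nat_lit 3141,nat_lit 3141⟩,⟨nat_lit 1590,nat_lit 3000,nat_lit 4410⟩,⟨nat_lit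 1731,nat_lit 3000,nat_lit 4269⟩,⟨nat_lit 1872,nat_lit 3000,nat_lit 4128⟩,⟨nat_lit 2013,nat_lit 3000,nat_lit 3987⟩,⟨nat_lit 2154,nat_lit 3000,nat_lit 3846⟩,⟨nat_lit 2295,nat_lit 3000,nat_lit 3705⟩,⟨nat_lit 2436,nat_lit 3000,nat_lit 3564⟩,⟨nat_lit 2577,nat_lit 3000,nat_lit 3423⟩,⟨nat_lit 2718,nat_lit 3000,nat_lit 3282⟩,⟨nat_lit 2859,nat_lit 3000,nat_lit 3141⟩,⟨nat_lit 3000,nat_lit 3000,nat_lit 3000⟩,⟨nat_lit 1731,nat_lit 2859,nat_lit 4410⟩,⟨nat_lit 1872,nat_lit 2859,nat_lit 4269⟩,⟨nat_lit 2013,nat_lit 2859,nat_lit 4128⟩,⟨nat_lit 2154,nat_lit 2859,nat_lit 3987⟩,⟨nat_lit 2295,nat_lit 2859,nat_lit 3846⟩,⟨nat_lit 2436,nat_lit 2859,nat_lit 3705⟩,⟨nat_lit 2577,nat_lit 2859,nat_lit 3564⟩,⟨nat_lit 2718,nat_lit 2859,nat_lit 3423⟩,⟨nat_lit 2859,nat_lit 2859,nat_lit 3282⟩,⟨nat_lit 1872,nat_lit 2718,nat_lit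 4410⟩,⟨nat_lit 2013,nat_lit 2718,nat_lit 4269⟩,⟨nat_lit 2154,nat_lit 2718,nat_lit 4128⟩,⟨nat_lit 2295,nat_lit 2718,nat_lit 3987⟩,⟨nat_lit 2436,nat_lit 2718,nat_lit 3846⟩,⟨nat_lit 2577,nat_lit 2718,nat_lit 3705⟩,⟨nat_lit 2718,nat_lit 2718,nat_lit 3564⟩,⟨nat_lit 2013,nat_lit 2577,nat_lit 4410⟩,⟨nat_lit 2154,nat_lit 2577,nat_lit 4269⟩,⟨nat_lit 2295,nat_lit 2577,nat_lit 4128⟩,⟨nat_lit 2436,nat_lit 2577,nat_lit 3987⟩,⟨nat_lit 2577,nat_lit 2577,nat_lit 3846⟩,⟨nat_lit 2154,nat_lit 2436,nat_lit 4410⟩,⟨nat_lit 2295,nat_lit 2436,nat_lit 4269⟩,⟨nat_lit 2436,nat_lit 2436,nat_lit 4128⟩,⟨nat_lit 2295,nat_lit 2295,nat_lit 4410⟩]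
theorem hP0 : eqPtsP P (ptsOf 30 11 ks) = true := by decide +kernel
theorem hK0 : eqPtsP K (P.map (tiltPtQ 47 100 30)) = true := by decide +kernel
theorem hP : P = ptsOf 30 11 ks := eqPtsP_eq _ _ hP0
theorem hK : K = P.map (tiltPtQ 47 100 30) := eqPtsP_eq _ _ hK0
theorem hnodup : ks.Nodup := by decide +kernel
theorem hvalid : ∀ k ∈ ks, k < 176 ∧ Valid 30 11 k := by
  have : ∀ k ∈ ks, k < 176 ∧ k / 11 + k % 11 ≤ 30 := by decide +kernel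
  exact this
def g0 : List ℕ := [nat_lit 0,nat_lit 0,nat_lit 0,nat_lit 0,nat_lit 0,nat_lit 0,nat_lit 0,nat_lit 0,nat_lit 0,nat_lit 0,nat_lit 0,nat_lit 0,nat_lit 0,nat_lit 0,nat_lit 0,nat_lit 0,nat_lit 0,nat_lit 0,nat_lit 0,nat_lit 0,nat_lit 0,nat_lit 0,nat_lit 0,nat_lit 0,nat_lit 0,nat_lit 0,nat_lit 0,nat_lit 0,nat_lit 0,nat_lit 0,nat_lit 0,nat_lit 0,nat_lit 0,nat_lit 0,nat_lit 0,nat_lit 0,nat_lit 0,nat_lit 0,nat_lit 0,nat_lit 0,nat_lit 0,nat_lit 0,nat_lit 0,nat_lit 0,nat_lit 0,nat_lit 0,nat_lit 0,nat_lit 0,nat_lit 0,nat_lit 0,nat_lit 0,nat_lit 0,nat_lit 0,nat_lit 0,nat_lit 0,nat_lit 0,nat_lit 0,nat_lit 0,nat_lit 0,nat_lit 0,nat_lit 0,nat_lit 0,nat_lit 0,nat_lit 0,nat_lit 0,nat_lit 268435456,nat_lit 0,nat_lit 0,nat_lit 0,nat_lit 0,nat_lit 0,nat_lit 0,nat_lit 0,nat_lit 0,nat_lit 0,nat_lit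 0,nat_lit 0,nat_lit 0,nat_lit 0,nat_lit 0,nat_lit 0,nat_lit 0,nat_lit 0,nat_lit 0,nat_lit 0,nat_lit 0,nat_lit 0,nat_lit 0,nat_lit 0,nat_lit 0,nat_lit 0]
def ms : List ℕ := [nat_lit 2629018,nat_lit 12161838,nat_lit 28130332,nat_lit 43376972,nat_lit 50165469,nat_lit 46413091,nat_lit 35784493,nat_lit 23648438,nat_lit 13674709,nat_lit 7028800,nat_lit 3251523,nat_lit 1367413,nat_lit 527137,nat_lit 187579,nat_lit 61981,nat_lit 19115,nat_lit 5526,nat_lit 1503]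
theorem hg0 : Good 30 268435456 (ptsOf 30 11 ks) g0 := by
  rw [← hP]
  refine ⟨by norm_num, by norm_num, ?_, ?_, ?_⟩
  · have : ∀ p ∈ P, p.a + p.b + p.c = 30 := by decide +kernel
    exact this
  · decide +kernel
  · decide +kernel
theorem hd0 : (0 : ℝ) ≤ (((2313 : ℕ) : ℝ) / ((500 : ℕ) : ℝ)) := by positivity
theorem hq0 : ∀ i, i < ms.length → ((ms.getD i 0 : ℕ) : ℝ) / ((268435456 : ℕ) : ℝ)
    ≤ Real.exp (-(((2313 : ℕ) : ℝ) / ((500 : ℕ) : ℝ))) * (((2313 : ℕ) : ℝ) / ((500 : ℕ) : ℝ)) ^ i / Nat.factorial i :=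
  hq_of_chk (a := 2313) (b := 500) (en := 2756725465839) (ed := 281474976710656) (by norm_num) (by norm_num) (by norm_num)
    (by decide +kernel) (by decide +kernel)
theorem setup : SetupP 30 11 76 176 268435456 47 100 268435456 ks g0 ms (((2313 : ℕ) : ℝ) / ((500 : ℕ) : ℝ)) :=
  ⟨by norm_num, by norm_num, by norm_num, by norm_num, by norm_num, by norm_num, by norm_num, by norm_num,
    by norm_num, hnodup, hvalid, hg0, by decide +kernel, hd0, hq0⟩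
theorem hB : 75557863725914323419136 = 2 ^ 76 := by norm_num
theorem hT : 38911100780481085440000 = 2 * 30 * (3 * 100 * 30) * 268435456 * 268435456 := by norm_num
theorem hTE : 72057594037927936 = 268435456 * 268435456 := by norm_num
theorem hdfc : 139318001664 = (268435456 - ms.sum) * 268435456 := by decide +kernel
lemma hch0 (i j : Fin 3) : 0 ≤ channel 3 (-(((47 : ℕ) : ℝ) / ((100 : ℕ) : ℝ))) i j :=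
  ch3 (by norm_num) (by norm_num) i j
def w0 : List ℕ := [nat_lit 268435456,nat_lit 0,nat_lit 0,nat_lit 0,nat_lit 0,nat_lit 0,nat_lit 0,nat_lit 0,nat_lit 0,nat_lit 0,nat_lit 0,nat_lit 0,nat_lit 0,nat_lit 0,nat_lit 0,nat_lit 0,nat_lit 0,nat_lit 0,nat_lit 0,nat_lit 0,nat_lit 0,nat_lit 0,nat_lit 0,nat_lit 0,nat_lit 0,nat_lit 0,nat_lit 0,nat_lit 0,nat_lit 0,nat_lit 0,nat_lit 0,nat_lit 0,nat_lit 0,nat_lit 0,nat_lit 0,nat_lit 0,nat_lit 0,nat_lit 0,nat_lit 0,nat_lit 0,nat_lit 0,nat_lit 0,nat_lit 0,nat_lit 0,nat_lit 0,nat_lit 0,nat_lit 0,nat_lit 0,nat_lit 0,nat_lit 0,nat_lit 0,nat_lit 0,nat_lit 0,nat_lit 0,nat_lit 0,nat_lit 0,nat_lit 0,nat_lit 0,nat_lit 0,nat_lit 0,nat_lit 0,nat_lit 0,nat_lit 0,nat_lit 0,nat_lit 0,nat_lit 0,nat_lit 0,nat_lit 0,nat_lit 0,nat_lit 0,nat_lit 0,nat_lit 0,nat_lit 0,nat_lit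 0,nat_lit 0,nat_lit 0,nat_lit 0,nat_lit 0,nat_lit 0,nat_lit 0,nat_lit 0,nat_lit 0,nat_lit 0,nat_lit 0,nat_lit 0,nat_lit 0,nat_lit 0,nat_lit 0,nat_lit 0,nat_lit 0,nat_lit 0]
theorem h0 : w0 = 268435456 :: List.replicate ks.length 0 := by decide +kernel
theorem inv0 : InvP (-(((47 : ℕ) : ℝ) / ((100 : ℕ) : ℝ))) (((2313 : ℕ) : ℝ) / ((500 : ℕ) : ℝ)) hd0 hch0 30 11 268435456 ks 0 w0 := by
  rw [h0]
  exact InvP.zero setup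
def wE : List ℕ := [nat_lit 240077,nat_lit 866032,nat_lit 780465,nat_lit 1052285,nat_lit 1812935,nat_lit 1052987,nat_lit 1126591,nat_lit 1941859,nat_lit 2271878,nat_lit 1241963,nat_lit 1171522,nat_lit 2030961,nat_lit 2387206,nat_lit 2607370,nat_lit 1374512,nat_lit 1212704,nat_lit 2117249,nat_lit 2505449,nat_lit 2766078,nat_lit 2899093,nat_lit 1548608,nat_lit 1256007,nat_lit 2225690,nat_lit 2658207,nat_lit 2925602,nat_lit 3075829,nat_lit 3334928,nat_lit 1802304,nat_lit 1303755,nat_lit 2348364,nat_lit 2809577,nat_lit 3094405,nat_lit 3300963,nat_lit 3570200,nat_lit 3808797,nat_lit 2021755,nat_lit 1358589,nat_lit 2481970,nat_lit 2978604,nat_lit 3297879,nat_lit 3549645,nat_lit 3830250,nat_lit 4019651,nat_lit 4431516,nat_lit 2593820,nat_lit 1415708,nat_lit 2624491,nat_lit 3171478,nat_lit 3535534,nat_lit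 3772997,nat_lit 4033968,nat_lit 4381585,nat_lit 5082465,nat_lit 5482725,nat_lit 2858970,nat_lit 1478031,nat_lit 2779474,nat_lit 3391660,nat_lit 3756306,nat_lit 3959387,nat_lit 4372559,nat_lit 5004601,nat_lit 5338228,nat_lit 5630494,nat_lit 5870329,nat_lit 3762918,nat_lit 1540687,nat_lit 2950914,nat_lit 3594944,nat_lit 3938642,nat_lit 4260022,nat_lit 4887747,nat_lit 5179132,nat_lit 5386367,nat_lit 2833262,nat_lit 1601497,nat_lit 3126162,nat_lit 3760906,nat_lit 4211499,nat_lit 4695685,nat_lit 5021307,nat_lit 2607978,nat_lit 1661915,nat_lit 3263299,nat_lit 4000402,nat_lit 4577890,nat_lit 2394378,nat_lit 1711425,nat_lit 3432483,nat_lit 2135986,nat_lit 870888]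
theorem chk : eqF (levelsPF 76 75557863725914323419136 38911100780481085440000 72057594037927936 268435456 (mkTabF 30 11 76 P K) ks (0 :: ks) g0 ms 139318001664 35 w0) wE = true := by
  decide +kernel
theorem invE : InvP (-(((47 : ℕ) : ℝ) / ((100 : ℕ) : ℝ))) (((2313 : ℕ) : ℝ) / ((500 : ℕ) : ℝ)) hd0 hch0 30 11 268435456 ks 35 wE :=
  InvP.check (m := 0) (k := 35) setup hP hK hB hT hTE hdfc inv0 chk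
end Crest.Agent.Lib.Bc.GridO.W46a
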