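import Crest.Agent.Lib.Bc.GridPFR
import Crest.Agent.Lib.Bc.CloLite.Wire2
/-! Row 163: the Poisson grid orbit of the closure window `mu ∈ [47/100, 48/100]`: upper chain `d' = 4433/1000`, tilt `-12/25`,
grid size 36, weights in units of `2^-28`; at level 48: `s < 162/1000`, `r ≤ 6357/131072`. -/
set_option maxRecDepth 1000000
open Crest.ProbabilityR.Broadcast
namespace Crest.Agent.Lib.Bc.GridO.W47a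
def ks : List ℕ := [nat_lit 13,nat_lit 14,nat_lit 26,nat_lit 27,nat_lit 28,nat_lit 39,nat_lit 40,nat_lit 41,nat_lit 42,nat_lit 52,nat_lit 53,nat_lit 54,nat_lit 55,nat_lit 56,nat_lit 65,nat_lit 66,nat_lit 67,nat_lit 68,nat_lit 69,nat_lit 70,nat_lit 78,nat_lit 79,nat_lit 80,nat_lit 81,nat_lit 82,nat_lit 83,nat_lit 84,nat_lit 91,nat_lit 92,nat_lit 93,nat_lit 94,nat_lit 95,nat_lit 96,nat_lit 97,nat_lit 98,nat_lit 104,nat_lit 105,nat_lit 106,nat_lit 107,nat_lit 108,nat_lit 109,nat_lit 110,nat_lit 111,nat_lit 112,nat_lit 117,nat_lit 118,nat_lit 119,nat_lit 120,nat_lit 121,nat_lit 122,nat_lit 123,nat_lit 124,nat_lit 125,nat_lit 126,nat_lit 130,nat_lit 131,nat_lit 132,nat_lit 133,nat_lit 134,nat_lit 135,nat_lit 136,nat_lit 137,nat_lit 138,nat_lit 139,nat_lit 140,nat_lit 143,nat_lit 144,nat_lit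 145,nat_lit 146,nat_lit 147,nat_lit 148,nat_lit 149,nat_lit 150,nat_lit 151,nat_lit 152,nat_lit 153,nat_lit 154,nat_lit 156,nat_lit 157,nat_lit 158,nat_lit 159,nat_lit 160,nat_lit 161,nat_lit 162,nat_lit 163,nat_lit 164,nat_lit 165,nat_lit 166,nat_lit 167,nat_lit 168,nat_lit 169,nat_lit 170,nat_lit 171,nat_lit 172,nat_lit 173,nat_lit 174,nat_lit 175,nat_lit 176,nat_lit 177,nat_lit 178,nat_lit 179,nat_lit 182,nat_lit 183,nat_lit 184,nat_lit 185,nat_lit 186,nat_lit 187,nat_lit 188,nat_lit 189,nat_lit 190,nat_lit 195,nat_lit 196,nat_lit 197,nat_lit 198,nat_lit 199,nat_lit 200,nat_lit 201,nat_lit 208,nat_lit 209,nat_lit 210,nat_lit 211,nat_lit 212,nat_lit 221,nat_lit 222,nat_lit 223,nat_lit 234]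
def P : List Pt := [⟨nat_lit 36,nat_lit 0,nat_lit 0⟩,⟨nat_lit 35,nat_lit 1,nat_lit 0⟩,⟨nat_lit 34,nat_lit 1,nat_lit 1⟩,⟨nat_lit 34,nat_lit 2,nat_lit 0⟩,⟨nat_lit 33,nat_lit 2,nat_lit 1⟩,⟨nat_lit 32,nat_lit 2,nat_lit 2⟩,⟨nat_lit 33,nat_lit 3,nat_lit 0⟩,⟨nat_lit 32,nat_lit 3,nat_lit 1⟩,⟨nat_lit 31,nat_lit 3,nat_lit 2⟩,⟨nat_lit 30,nat_lit 3,nat_lit 3⟩,⟨nat_lit 32,nat_lit 4,nat_lit 0⟩,⟨nat_lit 31,nat_lit 4,nat_lit 1⟩,⟨nat_lit 30,nat_lit 4,nat_lit 2⟩,⟨nat_lit 29,nat_lit 4,nat_lit 3⟩,⟨nat_lit 28,nat_lit 4,nat_lit 4⟩,⟨nat_lit 31,nat_lit 5,nat_lit 0⟩,⟨nat_lit 30,nat_lit 5,nat_lit 1⟩,⟨nat_lit 29,nat_lit 5,nat_lit 2⟩,⟨nat_lit 28,nat_lit 5,nat_lit 3⟩,⟨nat_lit 27,nat_lit 5,nat_lit 4⟩,⟨nat_lit 26,nat_lit 5,nat_lit 5⟩,⟨nat_lit 30,nat_lit 6,nat_lit 0⟩,⟨nat_lit 29,nat_lit 6,nat_lit 1⟩,⟨nat_lit 28,nat_lit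 6,nat_lit 2⟩,⟨nat_lit 27,nat_lit 6,nat_lit 3⟩,⟨nat_lit 26,nat_lit 6,nat_lit 4⟩,⟨nat_lit 25,nat_lit 6,nat_lit 5⟩,⟨nat_lit 24,nat_lit 6,nat_lit 6⟩,⟨nat_lit 29,nat_lit 7,nat_lit 0⟩,⟨nat_lit 28,nat_lit 7,nat_lit 1⟩,⟨nat_lit 27,nat_lit 7,nat_lit 2⟩,⟨nat_lit 26,nat_lit 7,nat_lit 3⟩,⟨nat_lit 25,nat_lit 7,nat_lit 4⟩,⟨nat_lit 24,nat_lit 7,nat_lit 5⟩,⟨nat_lit 23,nat_lit 7,nat_lit 6⟩,⟨nat_lit 22,nat_lit 7,nat_lit 7⟩,⟨nat_lit 28,nat_lit 8,nat_lit 0⟩,⟨nat_lit 27,nat_lit 8,nat_lit 1⟩,⟨nat_lit 26,nat_lit 8,nat_lit 2⟩,⟨nat_lit 25,nat_lit 8,nat_lit 3⟩,⟨nat_lit 24,nat_lit 8,nat_lit 4⟩,⟨nat_lit 23,nat_lit 8,nat_lit 5⟩,⟨nat_lit 22,nat_lit 8,nat_lit 6⟩,⟨nat_lit 21,nat_lit 8,nat_lit 7⟩,⟨nat_lit 20,nat_lit 8,nat_lit 8⟩,⟨nat_lit 27,nat_lit 9,nat_lit 0⟩,⟨nat_lit 26,nat_lit 9,nat_lit 1⟩,⟨nat_lit 25,nat_lit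 9,nat_lit 2⟩,⟨nat_lit 24,nat_lit 9,nat_lit 3⟩,⟨nat_lit 23,nat_lit 9,nat_lit 4⟩,⟨nat_lit 22,nat_lit 9,nat_lit 5⟩,⟨nat_lit 21,nat_lit 9,nat_lit 6⟩,⟨nat_lit 20,nat_lit 9,nat_lit 7⟩,⟨nat_lit 19,nat_lit 9,nat_lit 8⟩,⟨nat_lit 18,nat_lit 9,nat_lit 9⟩,⟨nat_lit 26,nat_lit 10,nat_lit 0⟩,⟨nat_lit 25,nat_lit 10,nat_lit 1⟩,⟨nat_lit 24,nat_lit 10,nat_lit 2⟩,⟨nat_lit 23,nat_lit 10,nat_lit 3⟩,⟨nat_lit 22,nat_lit 10,nat_lit 4⟩,⟨nat_lit 21,nat_lit 10,nat_lit 5⟩,⟨nat_lit 20,nat_lit 10,nat_lit 6⟩,⟨nat_lit 19,nat_lit 10,nat_lit 7⟩,⟨nat_lit 18,nat_lit 10,nat_lit 8⟩,⟨nat_lit 17,nat_lit 10,nat_lit 9⟩,⟨nat_lit 16,nat_lit 10,nat_lit 10⟩,⟨nat_lit 25,nat_lit 11,nat_lit 0⟩,⟨nat_lit 24,nat_lit 11,nat_lit 1⟩,⟨nat_lit 23,nat_lit 11,nat_lit 2⟩,⟨nat_lit 22,nat_lit 11,nat_lit 3⟩,⟨nat_lit 21,nat_lit 11,nat_lit 4⟩,⟨nat_lit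 20,nat_lit 11,nat_lit 5⟩,⟨nat_lit 19,nat_lit 11,nat_lit 6⟩,⟨nat_lit 18,nat_lit 11,nat_lit 7⟩,⟨nat_lit 17,nat_lit 11,nat_lit 8⟩,⟨nat_lit 16,nat_lit 11,nat_lit 9⟩,⟨nat_lit 15,nat_lit 11,nat_lit 10⟩,⟨nat_lit 14,nat_lit 11,nat_lit 11⟩,⟨nat_lit 24,nat_lit 12,nat_lit 0⟩,⟨nat_lit 23,nat_lit 12,nat_lit 1⟩,⟨nat_lit 22,nat_lit 12,nat_lit 2⟩,⟨nat_lit 21,nat_lit 12,nat_lit 3⟩,⟨nat_lit 20,nat_lit 12,nat_lit 4⟩,⟨nat_lit 19,nat_lit 12,nat_lit 5⟩,⟨nat_lit 18,nat_lit 12,nat_lit 6⟩,⟨nat_lit 17,nat_lit 12,nat_lit 7⟩,⟨nat_lit 16,nat_lit 12,nat_lit 8⟩,⟨nat_lit 15,nat_lit 12,nat_lit 9⟩,⟨nat_lit 14,nat_lit 12,nat_lit 10⟩,⟨nat_lit 13,nat_lit 12,nat_lit 11⟩,⟨nat_lit 12,nat_lit 12,nat_lit 12⟩,⟨nat_lit 23,nat_lit 13,nat_lit 0⟩,⟨nat_lit 22,nat_lit 13,nat_lit 1⟩,⟨nat_lit 21,nat_lit 13,nat_lit 2⟩,⟨nat_lit 20,nat_lit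 13,nat_lit 3⟩,⟨nat_lit 19,nat_lit 13,nat_lit 4⟩,⟨nat_lit 18,nat_lit 13,nat_lit 5⟩,⟨nat_lit 17,nat_lit 13,nat_lit 6⟩,⟨nat_lit 16,nat_lit 13,nat_lit 7⟩,⟨nat_lit 15,nat_lit 13,nat_lit 8⟩,⟨nat_lit 14,nat_lit 13,nat_lit 9⟩,⟨nat_lit 13,nat_lit 13,nat_lit 10⟩,⟨nat_lit 22,nat_lit 14,nat_lit 0⟩,⟨nat_lit 21,nat_lit 14,nat_lit 1⟩,⟨nat_lit 20,nat_lit 14,nat_lit 2⟩,⟨nat_lit 19,nat_lit 14,nat_lit 3⟩,⟨nat_lit 18,nat_lit 14,nat_lit 4⟩,⟨nat_lit 17,nat_lit 14,nat_lit 5⟩,⟨nat_lit 16,nat_lit 14,nat_lit 6⟩,⟨nat_lit 15,nat_lit 14,nat_lit 7⟩,⟨nat_lit 14,nat_lit 14,nat_lit 8⟩,⟨nat_lit 21,nat_lit 15,nat_lit 0⟩,⟨nat_lit 20,nat_lit 15,nat_lit 1⟩,⟨nat_lit 19,nat_lit 15,nat_lit 2⟩,⟨nat_lit 18,nat_lit 15,nat_lit 3⟩,⟨nat_lit 17,nat_lit 15,nat_lit 4⟩,⟨nat_lit 16,nat_lit 15,nat_lit 5⟩,⟨nat_lit 15,nat_lit 15,nat_lit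 6⟩,⟨nat_lit 20,nat_lit 16,nat_lit 0⟩,⟨nat_lit 19,nat_lit 16,nat_lit 1⟩,⟨nat_lit 18,nat_lit 16,nat_lit 2⟩,⟨nat_lit 17,nat_lit 16,nat_lit 3⟩,⟨nat_lit 16,nat_lit 16,nat_lit 4⟩,⟨nat_lit 19,nat_lit 17,nat_lit 0⟩,⟨nat_lit 18,nat_lit 17,nat_lit 1⟩,⟨nat_lit 17,nat_lit 17,nat_lit 2⟩,⟨nat_lit 18,nat_lit 18,nat_lit 0⟩]
def K : List Pt := [⟨nat_lit 36,nat_lit 1332,nat_lit 1332⟩,⟨nat_lit 72,nat_lit 1296,nat_lit 1332⟩,⟨nat_lit 108,nat_lit 1296,nat_lit 1296⟩,⟨nat_lit 108,nat_lit 1260,nat_lit 1332⟩,⟨nat_lit 144,nat_lit 1260,nat_lit 1296⟩,⟨nat_lit 180,nat_lit 1260,nat_lit 1260⟩,⟨nat_lit 144,nat_lit 1224,nat_lit 1332⟩,⟨nat_lit 180,nat_lit 1224,nat_lit 1296⟩,⟨nat_lit 216,nat_lit 1224,nat_lit 1260⟩,⟨nat_lit 252,nat_lit 1224,nat_lit 1224⟩,⟨nat_lit 180,nat_lit 1188,nat_lit 1332⟩,⟨nat_lit 216,nat_lit 1188,nat_lit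 1296⟩,⟨nat_lit 252,nat_lit 1188,nat_lit 1260⟩,⟨nat_lit 288,nat_lit 1188,nat_lit 1224⟩,⟨nat_lit 324,nat_lit 1188,nat_lit 1188⟩,⟨nat_lit 216,nat_lit 1152,nat_lit 1332⟩,⟨nat_lit 252,nat_lit 1152,nat_lit 1296⟩,⟨nat_lit 288,nat_lit 1152,nat_lit 1260⟩,⟨nat_lit 324,nat_lit 1152,nat_lit 1224⟩,⟨nat_lit 360,nat_lit 1152,nat_lit 1188⟩,⟨nat_lit 396,nat_lit 1152,nat_lit 1152⟩,⟨nat_lit 252,nat_lit 1116,nat_lit 1332⟩,⟨nat_lit 288,nat_lit 1116,nat_lit 1296⟩,⟨nat_lit 324,nat_lit 1116,nat_lit 1260⟩,⟨nat_lit 360,nat_lit 1116,nat_lit 1224⟩,⟨nat_lit 396,nat_lit 1116,nat_lit 1188⟩,⟨nat_lit 432,nat_lit 1116,nat_lit 1152⟩,⟨nat_lit 468,nat_lit 1116,nat_lit 1116⟩,⟨nat_lit 288,nat_lit 1080,nat_lit 1332⟩,⟨nat_lit 324,nat_lit 1080,nat_lit 1296⟩,⟨nat_lit 360,nat_lit 1080,nat_lit 1260⟩,⟨nat_lit 396,nat_lit 1080,nat_lit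 1224⟩,⟨nat_lit 432,nat_lit 1080,nat_lit 1188⟩,⟨nat_lit 468,nat_lit 1080,nat_lit 1152⟩,⟨nat_lit 504,nat_lit 1080,nat_lit 1116⟩,⟨nat_lit 540,nat_lit 1080,nat_lit 1080⟩,⟨nat_lit 324,nat_lit 1044,nat_lit 1332⟩,⟨nat_lit 360,nat_lit 1044,nat_lit 1296⟩,⟨nat_lit 396,nat_lit 1044,nat_lit 1260⟩,⟨nat_lit 432,nat_lit 1044,nat_lit 1224⟩,⟨nat_lit 468,nat_lit 1044,nat_lit 1188⟩,⟨nat_lit 504,nat_lit 1044,nat_lit 1152⟩,⟨nat_lit 540,nat_lit 1044,nat_lit 1116⟩,⟨nat_lit 576,nat_lit 1044,nat_lit 1080⟩,⟨nat_lit 612,nat_lit 1044,nat_lit 1044⟩,⟨nat_lit 360,nat_lit 1008,nat_lit 1332⟩,⟨nat_lit 396,nat_lit 1008,nat_lit 1296⟩,⟨nat_lit 432,nat_lit 1008,nat_lit 1260⟩,⟨nat_lit 468,nat_lit 1008,nat_lit 1224⟩,⟨nat_lit 504,nat_lit 1008,nat_lit 1188⟩,⟨nat_lit 540,nat_lit 1008,nat_lit 1152⟩,⟨nat_lit 576,nat_lit 1008,nat_lit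 1116⟩,⟨nat_lit 612,nat_lit 1008,nat_lit 1080⟩,⟨nat_lit 648,nat_lit 1008,nat_lit 1044⟩,⟨nat_lit 684,nat_lit 1008,nat_lit 1008⟩,⟨nat_lit 396,nat_lit 972,nat_lit 1332⟩,⟨nat_lit 432,nat_lit 972,nat_lit 1296⟩,⟨nat_lit 468,nat_lit 972,nat_lit 1260⟩,⟨nat_lit 504,nat_lit 972,nat_lit 1224⟩,⟨nat_lit 540,nat_lit 972,nat_lit 1188⟩,⟨nat_lit 576,nat_lit 972,nat_lit 1152⟩,⟨nat_lit 612,nat_lit 972,nat_lit 1116⟩,⟨nat_lit 648,nat_lit 972,nat_lit 1080⟩,⟨nat_lit 684,nat_lit 972,nat_lit 1044⟩,⟨nat_lit 720,nat_lit 972,nat_lit 1008⟩,⟨nat_lit 756,nat_lit 972,nat_lit 972⟩,⟨nat_lit 432,nat_lit 936,nat_lit 1332⟩,⟨nat_lit 468,nat_lit 936,nat_lit 1296⟩,⟨nat_lit 504,nat_lit 936,nat_lit 1260⟩,⟨nat_lit 540,nat_lit 936,nat_lit 1224⟩,⟨nat_lit 576,nat_lit 936,nat_lit 1188⟩,⟨nat_lit 612,nat_lit 936,nat_lit 1152⟩,⟨nat_lit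 648,nat_lit 936,nat_lit 1116⟩,⟨nat_lit 684,nat_lit 936,nat_lit 1080⟩,⟨nat_lit 720,nat_lit 936,nat_lit 1044⟩,⟨nat_lit 756,nat_lit 936,nat_lit 1008⟩,⟨nat_lit 792,nat_lit 936,nat_lit 972⟩,⟨nat_lit 828,nat_lit 936,nat_lit 936⟩,⟨nat_lit 468,nat_lit 900,nat_lit 1332⟩,⟨nat_lit 504,nat_lit 900,nat_lit 1296⟩,⟨nat_lit 540,nat_lit 900,nat_lit 1260⟩,⟨nat_lit 576,nat_lit 900,nat_lit 1224⟩,⟨nat_lit 612,nat_lit 900,nat_lit 1188⟩,⟨nat_lit 648,nat_lit 900,nat_lit 1152⟩,⟨nat_lit 684,nat_lit 900,nat_lit 1116⟩,⟨nat_lit 720,nat_lit 900,nat_lit 1080⟩,⟨nat_lit 756,nat_lit 900,nat_lit 1044⟩,⟨nat_lit 792,nat_lit 900,nat_lit 1008⟩,⟨nat_lit 828,nat_lit 900,nat_lit 972⟩,⟨nat_lit 864,nat_lit 900,nat_lit 936⟩,⟨nat_lit 900,nat_lit 900,nat_lit 900⟩,⟨nat_lit 504,nat_lit 864,nat_lit 1332⟩,⟨nat_lit 540,nat_lit 864,nat_lit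 1296⟩,⟨nat_lit 576,nat_lit 864,nat_lit 1260⟩,⟨nat_lit 612,nat_lit 864,nat_lit 1224⟩,⟨nat_lit 648,nat_lit 864,nat_lit 1188⟩,⟨nat_lit 684,nat_lit 864,nat_lit 1152⟩,⟨nat_lit 720,nat_lit 864,nat_lit 1116⟩,⟨nat_lit 756,nat_lit 864,nat_lit 1080⟩,⟨nat_lit 792,nat_lit 864,nat_lit 1044⟩,⟨nat_lit 828,nat_lit 864,nat_lit 1008⟩,⟨nat_lit 864,nat_lit 864,nat_lit 972⟩,⟨nat_lit 540,nat_lit 828,nat_lit 1332⟩,⟨nat_lit 576,nat_lit 828,nat_lit 1296⟩,⟨nat_lit 612,nat_lit 828,nat_lit 1260⟩,⟨nat_lit 648,nat_lit 828,nat_lit 1224⟩,⟨nat_lit 684,nat_lit 828,nat_lit 1188⟩,⟨nat_lit 720,nat_lit 828,nat_lit 1152⟩,⟨nat_lit 756,nat_lit 828,nat_lit 1116⟩,⟨nat_lit 792,nat_lit 828,nat_lit 1080⟩,⟨nat_lit 828,nat_lit 828,nat_lit 1044⟩,⟨nat_lit 576,nat_lit 792,nat_lit 1332⟩,⟨nat_lit 612,nat_lit 792,nat_lit 1296⟩,⟨nat_lit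 648,nat_lit 792,nat_lit 1260⟩,⟨nat_lit 684,nat_lit 792,nat_lit 1224⟩,⟨nat_lit 720,nat_lit 792,nat_lit 1188⟩,⟨nat_lit 756,nat_lit 792,nat_lit 1152⟩,⟨nat_lit 792,nat_lit 792,nat_lit 1116⟩,⟨nat_lit 612,nat_lit 756,nat_lit 1332⟩,⟨nat_lit 648,nat_lit 756,nat_lit 1296⟩,⟨nat_lit 684,nat_lit 756,nat_lit 1260⟩,⟨nat_lit 720,nat_lit 756,nat_lit 1224⟩,⟨nat_lit 756,nat_lit 756,nat_lit 1188⟩,⟨nat_lit 648,nat_lit 720,nat_lit 1332⟩,⟨nat_lit 684,nat_lit 720,nat_lit 1296⟩,⟨nat_lit 720,nat_lit 720,nat_lit 1260⟩,⟨nat_lit 684,nat_lit 684,nat_lit 1332⟩]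
theorem hP0 : eqPtsP P (ptsOf 36 13 ks) = true := by decide +kernel
theorem hK0 : eqPtsP K (P.map (tiltPtQ 12 25 36)) = true := by decide +kernel
theorem hP : P = ptsOf 36 13 ks := eqPtsP_eq _ _ hP0
theorem hK : K = P.map (tiltPtQ 12 25 36) := eqPtsP_eq _ _ hK0
theorem hnodup : ks.Nodup := by decide +kernel
theorem hvalid : ∀ k ∈ ks, k < 247 ∧ Valid 36 13 k := by
  have : ∀ k ∈ ks, k < 247 ∧ k / 13 + k % 13 ≤ 36 := by decide +kernel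
  exact this
def g0 : List ℕ := [nat_lit 0,nat_lit 0,nat_lit 0,nat_lit 0,nat_lit 0,nat_lit 0,nat_lit 0,nat_lit 0,nat_lit 0,nat_lit 0,nat_lit 0,nat_lit 0,nat_lit 0,nat_lit 0,nat_lit 0,nat_lit 0,nat_lit 0,nat_lit 0,nat_lit 0,nat_lit 0,nat_lit 0,nat_lit 0,nat_lit 0,nat_lit 0,nat_lit 0,nat_lit 0,nat_lit 0,nat_lit 0,nat_lit 0,nat_lit 0,nat_lit 0,nat_lit 0,nat_lit 0,nat_lit 0,nat_lit 0,nat_lit 0,nat_lit 0,nat_lit 0,nat_lit 0,nat_lit 0,nat_lit 0,nat_lit 0,nat_lit 0,nat_lit 0,nat_lit 0,nat_lit 0,nat_lit 0,nat_lit 0,nat_lit 0,nat_lit 0,nat_lit 0,nat_lit 0,nat_lit 0,nat_lit 0,nat_lit 0,nat_lit 0,nat_lit 0,nat_lit 0,nat_lit 0,nat_lit 0,nat_lit 0,nat_lit 0,nat_lit 0,nat_lit 0,nat_lit 0,nat_lit 0,nat_lit 0,nat_lit 0,nat_lit 0,nat_lit 0,nat_lit 0,nat_lit 0,nat_lit 0,nat_lit 0,nat_lit 0,nat_lit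 0,nat_lit 0,nat_lit 0,nat_lit 0,nat_lit 0,nat_lit 0,nat_lit 0,nat_lit 0,nat_lit 0,nat_lit 0,nat_lit 0,nat_lit 0,nat_lit 0,nat_lit 0,nat_lit 0,nat_lit 268435456,nat_lit 0,nat_lit 0,nat_lit 0,nat_lit 0,nat_lit 0,nat_lit 0,nat_lit 0,nat_lit 0,nat_lit 0,nat_lit 0,nat_lit 0,nat_lit 0,nat_lit 0,nat_lit 0,nat_lit 0,nat_lit 0,nat_lit 0,nat_lit 0,nat_lit 0,nat_lit 0,nat_lit 0,nat_lit 0,nat_lit 0,nat_lit 0,nat_lit 0,nat_lit 0,nat_lit 0,nat_lit 0,nat_lit 0,nat_lit 0,nat_lit 0,nat_lit 0,nat_lit 0,nat_lit 0,nat_lit 0,nat_lit 0]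
def ms : List ℕ := [nat_lit 3188691,nat_lit 14135467,nat_lit 31331263,nat_lit 46297163,nat_lit 51308831,nat_lit 45490409,nat_lit 33609831,nat_lit 21284625,nat_lit 11794343,nat_lit 5809369,nat_lit 2575293,nat_lit 1037843,nat_lit 383396,nat_lit 130738,nat_lit 41397,nat_lit 12234,nat_lit 3389,nat_lit 883]
theorem hg0 : Good 36 268435456 (ptsOf 36 13 ks) g0 := by
  rw [← hP]
  refine ⟨by norm_num, by norm_num, ?_, ?_, ?_⟩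
  · have : ∀ p ∈ P, p.a + p.b + p.c = 36 := by decide +kernel
    exact this
  · decide +kernel
  · decide +kernel
theorem hd0 : (0 : ℝ) ≤ (((4433 : ℕ) : ℝ) / ((1000 : ℕ) : ℝ)) := by positivity
theorem hq0 : ∀ i, i < ms.length → ((ms.getD i 0 : ℕ) : ℝ) / ((268435456 : ℕ) : ℝ)
    ≤ Real.exp (-(((4433 : ℕ) : ℝ) / ((1000 : ℕ) : ℝ))) * (((4433 : ℕ) : ℝ) / ((1000 : ℕ) : ℝ)) ^ i / Nat.factorial i :=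
  hq_of_chk (a := 4433) (b := 1000) (en := 3343584883972) (ed := 281474976710656) (by norm_num) (by norm_num) (by norm_num)
    (by decide +kernel) (by decide +kernel)
theorem setup : SetupP 36 13 74 247 268435456 12 25 268435456 ks g0 ms (((4433 : ℕ) : ℝ) / ((1000 : ℕ) : ℝ)) :=
  ⟨by norm_num, by norm_num, by norm_num, by norm_num, by norm_num, by norm_num, by norm_num, by norm_num,
    by norm_num, hnodup, hvalid, hg0, by decide +kernel, hd0, hq0⟩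
theorem hB : 18889465931478580854784 = 2 ^ 74 := by norm_num
theorem hT : 14007996280973190758400 = 2 * 36 * (3 * 25 * 36) * 268435456 * 268435456 := by norm_num
theorem hTE : 72057594037927936 = 268435456 * 268435456 := by norm_num
theorem hdfc : 78114717696 = (268435456 - ms.sum) * 268435456 := by decide +kernel
lemma hch0 (i j : Fin 3) : 0 ≤ channel 3 (-(((12 : ℕ) : ℝ) / ((25 : ℕ) : ℝ))) i j :=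
  ch3 (by norm_num) (by norm_num) i j
def w0 : List ℕ := [nat_lit 268435456,nat_lit 0,nat_lit 0,nat_lit 0,nat_lit 0,nat_lit 0,nat_lit 0,nat_lit 0,nat_lit 0,nat_lit 0,nat_lit 0,nat_lit 0,nat_lit 0,nat_lit 0,nat_lit 0,nat_lit 0,nat_lit 0,nat_lit 0,nat_lit 0,nat_lit 0,nat_lit 0,nat_lit 0,nat_lit 0,nat_lit 0,nat_lit 0,nat_lit 0,nat_lit 0,nat_lit 0,nat_lit 0,nat_lit 0,nat_lit 0,nat_lit 0,nat_lit 0,nat_lit 0,nat_lit 0,nat_lit 0,nat_lit 0,nat_lit 0,nat_lit 0,nat_lit 0,nat_lit 0,nat_lit 0,nat_lit 0,nat_lit 0,nat_lit 0,nat_lit 0,nat_lit 0,nat_lit 0,nat_lit 0,nat_lit 0,nat_lit 0,nat_lit 0,nat_lit 0,nat_lit 0,nat_lit 0,nat_lit 0,nat_lit 0,nat_lit 0,nat_lit 0,nat_lit 0,nat_lit 0,nat_lit 0,nat_lit 0,nat_lit 0,nat_lit 0,nat_lit 0,nat_lit 0,nat_lit 0,nat_lit 0,nat_lit 0,nat_lit 0,nat_lit 0,nat_lit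 0,nat_lit 0,nat_lit 0,nat_lit 0,nat_lit 0,nat_lit 0,nat_lit 0,nat_lit 0,nat_lit 0,nat_lit 0,nat_lit 0,nat_lit 0,nat_lit 0,nat_lit 0,nat_lit 0,nat_lit 0,nat_lit 0,nat_lit 0,nat_lit 0,nat_lit 0,nat_lit 0,nat_lit 0,nat_lit 0,nat_lit 0,nat_lit 0,nat_lit 0,nat_lit 0,nat_lit 0,nat_lit 0,nat_lit 0,nat_lit 0,nat_lit 0,nat_lit 0,nat_lit 0,nat_lit 0,nat_lit 0,nat_lit 0,nat_lit 0,nat_lit 0,nat_lit 0,nat_lit 0,nat_lit 0,nat_lit 0,nat_lit 0,nat_lit 0,nat_lit 0,nat_lit 0,nat_lit 0,nat_lit 0,nat_lit 0,nat_lit 0,nat_lit 0,nat_lit 0,nat_lit 0,nat_lit 0]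
theorem h0 : w0 = 268435456 :: List.replicate ks.length 0 := by decide +kernel
theorem inv0 : InvP (-(((12 : ℕ) : ℝ) / ((25 : ℕ) : ℝ))) (((4433 : ℕ) : ℝ) / ((1000 : ℕ) : ℝ)) hd0 hch0 36 13 268435456 ks 0 w0 := by
  rw [h0]
  exact InvP.zero setup
def wE : List ℕ := [nat_lit 10049649,nat_lit 11575870,nat_lit 3074211,nat_lit 8572053,nat_lit 4537076,nat_lit 1752743,nat_lit 6697858,nat_lit 3441546,nat_lit 2681328,nat_lit 1038372,nat_lit 5657623,nat_lit 2912280,nat_lit 2268191,nat_lit 1741740,nat_lit 733112,nat_lit 5028219,nat_lit 2602558,nat_lit 2040355,nat_lit 1572367,nat_lit 1314820,nat_lit 590106,nat_lit 4638638,nat_lit 2427330,nat_lit 1900486,nat_lit 1419941,nat_lit 1194133,nat_lit 1091960,nat_lit 532086,nat_lit 4398910,nat_lit 2331543,nat_lit 1815937,nat_lit 1338193,nat_lit 1144061,nat_lit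 1104796,nat_lit 1054918,nat_lit 492010,nat_lit 4245511,nat_lit 2293122,nat_lit 1745917,nat_lit 1283311,nat_lit 1177601,nat_lit 1112101,nat_lit 974434,nat_lit 913143,nat_lit 416085,nat_lit 4192891,nat_lit 2285088,nat_lit 1722828,nat_lit 1301987,nat_lit 1209542,nat_lit 1053507,nat_lit 907942,nat_lit 856284,nat_lit 810177,nat_lit 735839,nat_lit 4157290,nat_lit 2303146,nat_lit 1742423,nat_lit 1363776,nat_lit 1164014,nat_lit 998021,nat_lit 876088,nat_lit 840964,nat_lit 1310363,nat_lit 1504231,nat_lit 570138,nat_lit 4204701,nat_lit 2366136,nat_lit 1828810,nat_lit 1361925,nat_lit 1133149,nat_lit 967050,nat_lit 871295,nat_lit 1313563,nat_lit 1325583,nat_lit 1084750,nat_lit 1022570,nat_lit 466025,nat_lit 4309095,nat_lit 2479013,nat_lit 1884533,nat_lit 1317722,nat_lit 1102442,nat_lit 954520,nat_lit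 1328358,nat_lit 1371194,nat_lit 1020172,nat_lit 1024772,nat_lit 990500,nat_lit 927813,nat_lit 3523420,nat_lit 4400975,nat_lit 2614033,nat_lit 1876441,nat_lit 1292716,nat_lit 1102284,nat_lit 1409953,nat_lit 1349110,nat_lit 1100675,nat_lit 977457,nat_lit 1001262,nat_lit 499617,nat_lit 4502666,nat_lit 2699800,nat_lit 1837766,nat_lit 1271345,nat_lit 1568735,nat_lit 1452695,nat_lit 1134624,nat_lit 1074168,nat_lit 490612,nat_lit 4671454,nat_lit 2759922,nat_lit 1807847,nat_lit 1802861,nat_lit 1645812,nat_lit 1242106,nat_lit 556136,nat_lit 4905853,nat_lit 2771895,nat_lit 2544870,nat_lit 1963843,nat_lit 736773,nat_lit 5331582,nat_lit 4296998,nat_lit 1530075,nat_lit 3196601]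
theorem chk : eqF (levelsPF 74 18889465931478580854784 14007996280973190758400 72057594037927936 268435456 (mkTabF 36 13 74 P K) ks (0 :: ks) g0 ms 78114717696 10 w0) wE = true := by
  decide +kernel
theorem invE : InvP (-(((12 : ℕ) : ℝ) / ((25 : ℕ) : ℝ))) (((4433 : ℕ) : ℝ) / ((1000 : ℕ) : ℝ)) hd0 hch0 36 13 268435456 ks 10 wE :=
  InvP.check (m := 0) (k := 10) setup hP hK hB hT hTE hdfc inv0 chk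
end Crest.Agent.Lib.Bc.GridO.W47a
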