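import Crest.Agent.Lib.Bc.GridPFR
import Crest.Agent.Lib.Bc.CloLite.Wire2
/-! Row 163: the Poisson grid orbit of the closure window `mu ∈ [48/100, 49/100]`: upper chain `d' = 1063/250`, tilt `-49/100`,
grid size 36, weights in units of `2^-28`; at level 58: `s < 155/1000`, `r ≤ 46787/1048576`. -/
set_option maxRecDepth 1000000
open Crest.ProbabilityR.Broadcast
namespace Crest.Agent.Lib.Bc.GridO.W48a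
def ks : List ℕ := [nat_lit 13,nat_lit 14,nat_lit 26,nat_lit 27,nat_lit 28,nat_lit 39,nat_lit 40,nat_lit 41,nat_lit 42,nat_lit 52,nat_lit 53,nat_lit 54,nat_lit 55,nat_lit 56,nat_lit 65,nat_lit 66,nat_lit 67,nat_lit 68,nat_lit 69,nat_lit 70,nat_lit 78,nat_lit 79,nat_lit 80,nat_lit 81,nat_lit 82,nat_lit 83,nat_lit 84,nat_lit 91,nat_lit 92,nat_lit 93,nat_lit 94,nat_lit 95,nat_lit 96,nat_lit 97,nat_lit 98,nat_lit 104,nat_lit 105,nat_lit 106,nat_lit 107,nat_lit 108,nat_lit 109,nat_lit 110,nat_lit 111,nat_lit 112,nat_lit 117,nat_lit 118,nat_lit 119,nat_lit 120,nat_lit 121,nat_lit 122,nat_lit 123,nat_lit 124,nat_lit 125,nat_lit 126,nat_lit 130,nat_lit 131,nat_lit 132,nat_lit 133,nat_lit 134,nat_lit 135,nat_lit 136,nat_lit 137,nat_lit 138,nat_lit 139,nat_lit 140,nat_lit 143,nat_lit 144,nat_lit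 145,nat_lit 146,nat_lit 147,nat_lit 148,nat_lit 149,nat_lit 150,nat_lit 151,nat_lit 152,nat_lit 153,nat_lit 154,nat_lit 156,nat_lit 157,nat_lit 158,nat_lit 159,nat_lit 160,nat_lit 161,nat_lit 162,nat_lit 163,nat_lit 164,nat_lit 165,nat_lit 166,nat_lit 167,nat_lit 168,nat_lit 169,nat_lit 170,nat_lit 171,nat_lit 172,nat_lit 173,nat_lit 174,nat_lit 175,nat_lit 176,nat_lit 177,nat_lit 178,nat_lit 179,nat_lit 182,nat_lit 183,nat_lit 184,nat_lit 185,nat_lit 186,nat_lit 187,nat_lit 188,nat_lit 189,nat_lit 190,nat_lit 195,nat_lit 196,nat_lit 197,nat_lit 198,nat_lit 199,nat_lit 200,nat_lit 201,nat_lit 208,nat_lit 209,nat_lit 210,nat_lit 211,nat_lit 212,nat_lit 221,nat_lit 222,nat_lit 223,nat_lit 234]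
def P : List Pt := [⟨nat_lit 36,nat_lit 0,nat_lit 0⟩,⟨nat_lit 35,nat_lit 1,nat_lit 0⟩,⟨nat_lit 34,nat_lit 1,nat_lit 1⟩,⟨nat_lit 34,nat_lit 2,nat_lit 0⟩,⟨nat_lit 33,nat_lit 2,nat_lit 1⟩,⟨nat_lit 32,nat_lit 2,nat_lit 2⟩,⟨nat_lit 33,nat_lit 3,nat_lit 0⟩,⟨nat_lit 32,nat_lit 3,nat_lit 1⟩,⟨nat_lit 31,nat_lit 3,nat_lit 2⟩,⟨nat_lit 30,nat_lit 3,nat_lit 3⟩,⟨nat_lit 32,nat_lit 4,nat_lit 0⟩,⟨nat_lit 31,nat_lit 4,nat_lit 1⟩,⟨nat_lit 30,nat_lit 4,nat_lit 2⟩,⟨nat_lit 29,nat_lit 4,nat_lit 3⟩,⟨nat_lit 28,nat_lit 4,nat_lit 4⟩,⟨nat_lit 31,nat_lit 5,nat_lit 0⟩,⟨nat_lit 30,nat_lit 5,nat_lit 1⟩,⟨nat_lit 29,nat_lit 5,nat_lit 2⟩,⟨nat_lit 28,nat_lit 5,nat_lit 3⟩,⟨nat_lit 27,nat_lit 5,nat_lit 4⟩,⟨nat_lit 26,nat_lit 5,nat_lit 5⟩,⟨nat_lit 30,nat_lit 6,nat_lit 0⟩,⟨nat_lit 29,nat_lit 6,nat_lit 1⟩,⟨nat_lit 28,nat_lit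 6,nat_lit 2⟩,⟨nat_lit 27,nat_lit 6,nat_lit 3⟩,⟨nat_lit 26,nat_lit 6,nat_lit 4⟩,⟨nat_lit 25,nat_lit 6,nat_lit 5⟩,⟨nat_lit 24,nat_lit 6,nat_lit 6⟩,⟨nat_lit 29,nat_lit 7,nat_lit 0⟩,⟨nat_lit 28,nat_lit 7,nat_lit 1⟩,⟨nat_lit 27,nat_lit 7,nat_lit 2⟩,⟨nat_lit 26,nat_lit 7,nat_lit 3⟩,⟨nat_lit 25,nat_lit 7,nat_lit 4⟩,⟨nat_lit 24,nat_lit 7,nat_lit 5⟩,⟨nat_lit 23,nat_lit 7,nat_lit 6⟩,⟨nat_lit 22,nat_lit 7,nat_lit 7⟩,⟨nat_lit 28,nat_lit 8,nat_lit 0⟩,⟨nat_lit 27,nat_lit 8,nat_lit 1⟩,⟨nat_lit 26,nat_lit 8,nat_lit 2⟩,⟨nat_lit 25,nat_lit 8,nat_lit 3⟩,⟨nat_lit 24,nat_lit 8,nat_lit 4⟩,⟨nat_lit 23,nat_lit 8,nat_lit 5⟩,⟨nat_lit 22,nat_lit 8,nat_lit 6⟩,⟨nat_lit 21,nat_lit 8,nat_lit 7⟩,⟨nat_lit 20,nat_lit 8,nat_lit 8⟩,⟨nat_lit 27,nat_lit 9,nat_lit 0⟩,⟨nat_lit 26,nat_lit 9,nat_lit 1⟩,⟨nat_lit 25,nat_lit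 9,nat_lit 2⟩,⟨nat_lit 24,nat_lit 9,nat_lit 3⟩,⟨nat_lit 23,nat_lit 9,nat_lit 4⟩,⟨nat_lit 22,nat_lit 9,nat_lit 5⟩,⟨nat_lit 21,nat_lit 9,nat_lit 6⟩,⟨nat_lit 20,nat_lit 9,nat_lit 7⟩,⟨nat_lit 19,nat_lit 9,nat_lit 8⟩,⟨nat_lit 18,nat_lit 9,nat_lit 9⟩,⟨nat_lit 26,nat_lit 10,nat_lit 0⟩,⟨nat_lit 25,nat_lit 10,nat_lit 1⟩,⟨nat_lit 24,nat_lit 10,nat_lit 2⟩,⟨nat_lit 23,nat_lit 10,nat_lit 3⟩,⟨nat_lit 22,nat_lit 10,nat_lit 4⟩,⟨nat_lit 21,nat_lit 10,nat_lit 5⟩,⟨nat_lit 20,nat_lit 10,nat_lit 6⟩,⟨nat_lit 19,nat_lit 10,nat_lit 7⟩,⟨nat_lit 18,nat_lit 10,nat_lit 8⟩,⟨nat_lit 17,nat_lit 10,nat_lit 9⟩,⟨nat_lit 16,nat_lit 10,nat_lit 10⟩,⟨nat_lit 25,nat_lit 11,nat_lit 0⟩,⟨nat_lit 24,nat_lit 11,nat_lit 1⟩,⟨nat_lit 23,nat_lit 11,nat_lit 2⟩,⟨nat_lit 22,nat_lit 11,nat_lit 3⟩,⟨nat_lit 21,nat_lit 11,nat_lit 4⟩,⟨nat_lit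 20,nat_lit 11,nat_lit 5⟩,⟨nat_lit 19,nat_lit 11,nat_lit 6⟩,⟨nat_lit 18,nat_lit 11,nat_lit 7⟩,⟨nat_lit 17,nat_lit 11,nat_lit 8⟩,⟨nat_lit 16,nat_lit 11,nat_lit 9⟩,⟨nat_lit 15,nat_lit 11,nat_lit 10⟩,⟨nat_lit 14,nat_lit 11,nat_lit 11⟩,⟨nat_lit 24,nat_lit 12,nat_lit 0⟩,⟨nat_lit 23,nat_lit 12,nat_lit 1⟩,⟨nat_lit 22,nat_lit 12,nat_lit 2⟩,⟨nat_lit 21,nat_lit 12,nat_lit 3⟩,⟨nat_lit 20,nat_lit 12,nat_lit 4⟩,⟨nat_lit 19,nat_lit 12,nat_lit 5⟩,⟨nat_lit 18,nat_lit 12,nat_lit 6⟩,⟨nat_lit 17,nat_lit 12,nat_lit 7⟩,⟨nat_lit 16,nat_lit 12,nat_lit 8⟩,⟨nat_lit 15,nat_lit 12,nat_lit 9⟩,⟨nat_lit 14,nat_lit 12,nat_lit 10⟩,⟨nat_lit 13,nat_lit 12,nat_lit 11⟩,⟨nat_lit 12,nat_lit 12,nat_lit 12⟩,⟨nat_lit 23,nat_lit 13,nat_lit 0⟩,⟨nat_lit 22,nat_lit 13,nat_lit 1⟩,⟨nat_lit 21,nat_lit 13,nat_lit 2⟩,⟨nat_lit 20,nat_lit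 13,nat_lit 3⟩,⟨nat_lit 19,nat_lit 13,nat_lit 4⟩,⟨nat_lit 18,nat_lit 13,nat_lit 5⟩,⟨nat_lit 17,nat_lit 13,nat_lit 6⟩,⟨nat_lit 16,nat_lit 13,nat_lit 7⟩,⟨nat_lit 15,nat_lit 13,nat_lit 8⟩,⟨nat_lit 14,nat_lit 13,nat_lit 9⟩,⟨nat_lit 13,nat_lit 13,nat_lit 10⟩,⟨nat_lit 22,nat_lit 14,nat_lit 0⟩,⟨nat_lit 21,nat_lit 14,nat_lit 1⟩,⟨nat_lit 20,nat_lit 14,nat_lit 2⟩,⟨nat_lit 19,nat_lit 14,nat_lit 3⟩,⟨nat_lit 18,nat_lit 14,nat_lit 4⟩,⟨nat_lit 17,nat_lit 14,nat_lit 5⟩,⟨nat_lit 16,nat_lit 14,nat_lit 6⟩,⟨nat_lit 15,nat_lit 14,nat_lit 7⟩,⟨nat_lit 14,nat_lit 14,nat_lit 8⟩,⟨nat_lit 21,nat_lit 15,nat_lit 0⟩,⟨nat_lit 20,nat_lit 15,nat_lit 1⟩,⟨nat_lit 19,nat_lit 15,nat_lit 2⟩,⟨nat_lit 18,nat_lit 15,nat_lit 3⟩,⟨nat_lit 17,nat_lit 15,nat_lit 4⟩,⟨nat_lit 16,nat_lit 15,nat_lit 5⟩,⟨nat_lit 15,nat_lit 15,nat_lit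 6⟩,⟨nat_lit 20,nat_lit 16,nat_lit 0⟩,⟨nat_lit 19,nat_lit 16,nat_lit 1⟩,⟨nat_lit 18,nat_lit 16,nat_lit 2⟩,⟨nat_lit 17,nat_lit 16,nat_lit 3⟩,⟨nat_lit 16,nat_lit 16,nat_lit 4⟩,⟨nat_lit 19,nat_lit 17,nat_lit 0⟩,⟨nat_lit 18,nat_lit 17,nat_lit 1⟩,⟨nat_lit 17,nat_lit 17,nat_lit 2⟩,⟨nat_lit 18,nat_lit 18,nat_lit 0⟩]
def K : List Pt := [⟨nat_lit 72,nat_lit 5364,nat_lit 5364⟩,⟨nat_lit 219,nat_lit 5217,nat_lit 5364⟩,⟨nat_lit 366,nat_lit 5217,nat_lit 5217⟩,⟨nat_lit 366,nat_lit 5070,nat_lit 5364⟩,⟨nat_lit 513,nat_lit 5070,nat_lit 5217⟩,⟨nat_lit 660,nat_lit 5070,nat_lit 5070⟩,⟨nat_lit 513,nat_lit 4923,nat_lit 5364⟩,⟨nat_lit 660,nat_lit 4923,nat_lit 5217⟩,⟨nat_lit 807,nat_lit 4923,nat_lit 5070⟩,⟨nat_lit 954,nat_lit 4923,nat_lit 4923⟩,⟨nat_lit 660,nat_lit 4776,nat_lit 5364⟩,⟨nat_lit 807,nat_lit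 4776,nat_lit 5217⟩,⟨nat_lit 954,nat_lit 4776,nat_lit 5070⟩,⟨nat_lit 1101,nat_lit 4776,nat_lit 4923⟩,⟨nat_lit 1248,nat_lit 4776,nat_lit 4776⟩,⟨nat_lit 807,nat_lit 4629,nat_lit 5364⟩,⟨nat_lit 954,nat_lit 4629,nat_lit 5217⟩,⟨nat_lit 1101,nat_lit 4629,nat_lit 5070⟩,⟨nat_lit 1248,nat_lit 4629,nat_lit 4923⟩,⟨nat_lit 1395,nat_lit 4629,nat_lit 4776⟩,⟨nat_lit 1542,nat_lit 4629,nat_lit 4629⟩,⟨nat_lit 954,nat_lit 4482,nat_lit 5364⟩,⟨nat_lit 1101,nat_lit 4482,nat_lit 5217⟩,⟨nat_lit 1248,nat_lit 4482,nat_lit 5070⟩,⟨nat_lit 1395,nat_lit 4482,nat_lit 4923⟩,⟨nat_lit 1542,nat_lit 4482,nat_lit 4776⟩,⟨nat_lit 1689,nat_lit 4482,nat_lit 4629⟩,⟨nat_lit 1836,nat_lit 4482,nat_lit 4482⟩,⟨nat_lit 1101,nat_lit 4335,nat_lit 5364⟩,⟨nat_lit 1248,nat_lit 4335,nat_lit 5217⟩,⟨nat_lit 1395,nat_lit 4335,nat_lit 5070⟩,⟨nat_lit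 1542,nat_lit 4335,nat_lit 4923⟩,⟨nat_lit 1689,nat_lit 4335,nat_lit 4776⟩,⟨nat_lit 1836,nat_lit 4335,nat_lit 4629⟩,⟨nat_lit 1983,nat_lit 4335,nat_lit 4482⟩,⟨nat_lit 2130,nat_lit 4335,nat_lit 4335⟩,⟨nat_lit 1248,nat_lit 4188,nat_lit 5364⟩,⟨nat_lit 1395,nat_lit 4188,nat_lit 5217⟩,⟨nat_lit 1542,nat_lit 4188,nat_lit 5070⟩,⟨nat_lit 1689,nat_lit 4188,nat_lit 4923⟩,⟨nat_lit 1836,nat_lit 4188,nat_lit 4776⟩,⟨nat_lit 1983,nat_lit 4188,nat_lit 4629⟩,⟨nat_lit 2130,nat_lit 4188,nat_lit 4482⟩,⟨nat_lit 2277,nat_lit 4188,nat_lit 4335⟩,⟨nat_lit 2424,nat_lit 4188,nat_lit 4188⟩,⟨nat_lit 1395,nat_lit 4041,nat_lit 5364⟩,⟨nat_lit 1542,nat_lit 4041,nat_lit 5217⟩,⟨nat_lit 1689,nat_lit 4041,nat_lit 5070⟩,⟨nat_lit 1836,nat_lit 4041,nat_lit 4923⟩,⟨nat_lit 1983,nat_lit 4041,nat_lit 4776⟩,⟨nat_lit 2130,nat_lit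 4041,nat_lit 4629⟩,⟨nat_lit 2277,nat_lit 4041,nat_lit 4482⟩,⟨nat_lit 2424,nat_lit 4041,nat_lit 4335⟩,⟨nat_lit 2571,nat_lit 4041,nat_lit 4188⟩,⟨nat_lit 2718,nat_lit 4041,nat_lit 4041⟩,⟨nat_lit 1542,nat_lit 3894,nat_lit 5364⟩,⟨nat_lit 1689,nat_lit 3894,nat_lit 5217⟩,⟨nat_lit 1836,nat_lit 3894,nat_lit 5070⟩,⟨nat_lit 1983,nat_lit 3894,nat_lit 4923⟩,⟨nat_lit 2130,nat_lit 3894,nat_lit 4776⟩,⟨nat_lit 2277,nat_lit 3894,nat_lit 4629⟩,⟨nat_lit 2424,nat_lit 3894,nat_lit 4482⟩,⟨nat_lit 2571,nat_lit 3894,nat_lit 4335⟩,⟨nat_lit 2718,nat_lit 3894,nat_lit 4188⟩,⟨nat_lit 2865,nat_lit 3894,nat_lit 4041⟩,⟨nat_lit 3012,nat_lit 3894,nat_lit 3894⟩,⟨nat_lit 1689,nat_lit 3747,nat_lit 5364⟩,⟨nat_lit 1836,nat_lit 3747,nat_lit 5217⟩,⟨nat_lit 1983,nat_lit 3747,nat_lit 5070⟩,⟨nat_lit 2130,nat_lit 3747,nat_lit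 4923⟩,⟨nat_lit 2277,nat_lit 3747,nat_lit 4776⟩,⟨nat_lit 2424,nat_lit 3747,nat_lit 4629⟩,⟨nat_lit 2571,nat_lit 3747,nat_lit 4482⟩,⟨nat_lit 2718,nat_lit 3747,nat_lit 4335⟩,⟨nat_lit 2865,nat_lit 3747,nat_lit 4188⟩,⟨nat_lit 3012,nat_lit 3747,nat_lit 4041⟩,⟨nat_lit 3159,nat_lit 3747,nat_lit 3894⟩,⟨nat_lit 3306,nat_lit 3747,nat_lit 3747⟩,⟨nat_lit 1836,nat_lit 3600,nat_lit 5364⟩,⟨nat_lit 1983,nat_lit 3600,nat_lit 5217⟩,⟨nat_lit 2130,nat_lit 3600,nat_lit 5070⟩,⟨nat_lit 2277,nat_lit 3600,nat_lit 4923⟩,⟨nat_lit 2424,nat_lit 3600,nat_lit 4776⟩,⟨nat_lit 2571,nat_lit 3600,nat_lit 4629⟩,⟨nat_lit 2718,nat_lit 3600,nat_lit 4482⟩,⟨nat_lit 2865,nat_lit 3600,nat_lit 4335⟩,⟨nat_lit 3012,nat_lit 3600,nat_lit 4188⟩,⟨nat_lit 3159,nat_lit 3600,nat_lit 4041⟩,⟨nat_lit 3306,nat_lit 3600,nat_lit 3894⟩,⟨nat_lit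 3453,nat_lit 3600,nat_lit 3747⟩,⟨nat_lit 3600,nat_lit 3600,nat_lit 3600⟩,⟨nat_lit 1983,nat_lit 3453,nat_lit 5364⟩,⟨nat_lit 2130,nat_lit 3453,nat_lit 5217⟩,⟨nat_lit 2277,nat_lit 3453,nat_lit 5070⟩,⟨nat_lit 2424,nat_lit 3453,nat_lit 4923⟩,⟨nat_lit 2571,nat_lit 3453,nat_lit 4776⟩,⟨nat_lit 2718,nat_lit 3453,nat_lit 4629⟩,⟨nat_lit 2865,nat_lit 3453,nat_lit 4482⟩,⟨nat_lit 3012,nat_lit 3453,nat_lit 4335⟩,⟨nat_lit 3159,nat_lit 3453,nat_lit 4188⟩,⟨nat_lit 3306,nat_lit 3453,nat_lit 4041⟩,⟨nat_lit 3453,nat_lit 3453,nat_lit 3894⟩,⟨nat_lit 2130,nat_lit 3306,nat_lit 5364⟩,⟨nat_lit 2277,nat_lit 3306,nat_lit 5217⟩,⟨nat_lit 2424,nat_lit 3306,nat_lit 5070⟩,⟨nat_lit 2571,nat_lit 3306,nat_lit 4923⟩,⟨nat_lit 2718,nat_lit 3306,nat_lit 4776⟩,⟨nat_lit 2865,nat_lit 3306,nat_lit 4629⟩,⟨nat_lit 3012,nat_lit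 3306,nat_lit 4482⟩,⟨nat_lit 3159,nat_lit 3306,nat_lit 4335⟩,⟨nat_lit 3306,nat_lit 3306,nat_lit 4188⟩,⟨nat_lit 2277,nat_lit 3159,nat_lit 5364⟩,⟨nat_lit 2424,nat_lit 3159,nat_lit 5217⟩,⟨nat_lit 2571,nat_lit 3159,nat_lit 5070⟩,⟨nat_lit 2718,nat_lit 3159,nat_lit 4923⟩,⟨nat_lit 2865,nat_lit 3159,nat_lit 4776⟩,⟨nat_lit 3012,nat_lit 3159,nat_lit 4629⟩,⟨nat_lit 3159,nat_lit 3159,nat_lit 4482⟩,⟨nat_lit 2424,nat_lit 3012,nat_lit 5364⟩,⟨nat_lit 2571,nat_lit 3012,nat_lit 5217⟩,⟨nat_lit 2718,nat_lit 3012,nat_lit 5070⟩,⟨nat_lit 2865,nat_lit 3012,nat_lit 4923⟩,⟨nat_lit 3012,nat_lit 3012,nat_lit 4776⟩,⟨nat_lit 2571,nat_lit 2865,nat_lit 5364⟩,⟨nat_lit 2718,nat_lit 2865,nat_lit 5217⟩,⟨nat_lit 2865,nat_lit 2865,nat_lit 5070⟩,⟨nat_lit 2718,nat_lit 2718,nat_lit 5364⟩]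
theorem hP0 : eqPtsP P (ptsOf 36 13 ks) = true := by decide +kernel
theorem hK0 : eqPtsP K (P.map (tiltPtQ 49 100 36)) = true := by decide +kernel
theorem hP : P = ptsOf 36 13 ks := eqPtsP_eq _ _ hP0
theorem hK : K = P.map (tiltPtQ 49 100 36) := eqPtsP_eq _ _ hK0
theorem hnodup : ks.Nodup := by decide +kernel
theorem hvalid : ∀ k ∈ ks, k < 247 ∧ Valid 36 13 k := by
  have : ∀ k ∈ ks, k < 247 ∧ k / 13 + k % 13 ≤ 36 := by decide +kernel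
  exact this
def g0 : List ℕ := [nat_lit 0,nat_lit 0,nat_lit 0,nat_lit 0,nat_lit 0,nat_lit 0,nat_lit 0,nat_lit 0,nat_lit 0,nat_lit 0,nat_lit 0,nat_lit 0,nat_lit 0,nat_lit 0,nat_lit 0,nat_lit 0,nat_lit 0,nat_lit 0,nat_lit 0,nat_lit 0,nat_lit 0,nat_lit 0,nat_lit 0,nat_lit 0,nat_lit 0,nat_lit 0,nat_lit 0,nat_lit 0,nat_lit 0,nat_lit 0,nat_lit 0,nat_lit 0,nat_lit 0,nat_lit 0,nat_lit 0,nat_lit 0,nat_lit 0,nat_lit 0,nat_lit 0,nat_lit 0,nat_lit 0,nat_lit 0,nat_lit 0,nat_lit 0,nat_lit 0,nat_lit 0,nat_lit 0,nat_lit 0,nat_lit 0,nat_lit 0,nat_lit 0,nat_lit 0,nat_lit 0,nat_lit 0,nat_lit 0,nat_lit 0,nat_lit 0,nat_lit 0,nat_lit 0,nat_lit 0,nat_lit 0,nat_lit 0,nat_lit 0,nat_lit 0,nat_lit 0,nat_lit 0,nat_lit 0,nat_lit 0,nat_lit 0,nat_lit 0,nat_lit 0,nat_lit 0,nat_lit 0,nat_lit 0,nat_lit 0,nat_lit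 0,nat_lit 0,nat_lit 0,nat_lit 0,nat_lit 0,nat_lit 0,nat_lit 0,nat_lit 0,nat_lit 0,nat_lit 0,nat_lit 0,nat_lit 0,nat_lit 0,nat_lit 0,nat_lit 0,nat_lit 268435456,nat_lit 0,nat_lit 0,nat_lit 0,nat_lit 0,nat_lit 0,nat_lit 0,nat_lit 0,nat_lit 0,nat_lit 0,nat_lit 0,nat_lit 0,nat_lit 0,nat_lit 0,nat_lit 0,nat_lit 0,nat_lit 0,nat_lit 0,nat_lit 0,nat_lit 0,nat_lit 0,nat_lit 0,nat_lit 0,nat_lit 0,nat_lit 0,nat_lit 0,nat_lit 0,nat_lit 0,nat_lit 0,nat_lit 0,nat_lit 0,nat_lit 0,nat_lit 0,nat_lit 0,nat_lit 0,nat_lit 0,nat_lit 0]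
def ms : List ℕ := [nat_lit 3821375,nat_lit 16248489,nat_lit 34544288,nat_lit 48960772,nat_lit 52045300,nat_lit 44259323,nat_lit 31365107,nat_lit 19052062,nat_lit 10126171,nat_lit 4784053,nat_lit 2034179,nat_lit 786302,nat_lit 278613,nat_lit 91127,nat_lit 27676,nat_lit 7845,nat_lit 2084]
theorem hg0 : Good 36 268435456 (ptsOf 36 13 ks) g0 := by
  rw [← hP]
  refine ⟨by norm_num, by norm_num, ?_, ?_, ?_⟩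
  · have : ∀ p ∈ P, p.a + p.b + p.c = 36 := by decide +kernel
    exact this
  · decide +kernel
  · decide +kernel
theorem hd0 : (0 : ℝ) ≤ (((1063 : ℕ) : ℝ) / ((250 : ℕ) : ℝ)) := by positivity
theorem hq0 : ∀ i, i < ms.length → ((ms.getD i 0 : ℕ) : ℝ) / ((268435456 : ℕ) : ℝ)
    ≤ Real.exp (-(((1063 : ℕ) : ℝ) / ((250 : ℕ) : ℝ))) * (((1063 : ℕ) : ℝ) / ((250 : ℕ) : ℝ)) ^ i / Nat.factorial i :=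
  hq_of_chk (a := 1063) (b := 250) (en := 4007002878208) (ed := 281474976710656) (by norm_num) (by norm_num) (by norm_num)
    (by decide +kernel) (by decide +kernel)
theorem setup : SetupP 36 13 76 247 268435456 49 100 268435456 ks g0 ms (((1063 : ℕ) : ℝ) / ((250 : ℕ) : ℝ)) :=
  ⟨by norm_num, by norm_num, by norm_num, by norm_num, by norm_num, by norm_num, by norm_num, by norm_num,
    by norm_num, hnodup, hvalid, hg0, by decide +kernel, hd0, hq0⟩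
theorem hB : 75557863725914323419136 = 2 ^ 76 := by norm_num
theorem hT : 56031985123892763033600 = 2 * 36 * (3 * 100 * 36) * 268435456 * 268435456 := by norm_num
theorem hTE : 72057594037927936 = 268435456 * 268435456 := by norm_num
theorem hdfc : 185220464640 = (268435456 - ms.sum) * 268435456 := by decide +kernel
lemma hch0 (i j : Fin 3) : 0 ≤ channel 3 (-(((49 : ℕ) : ℝ) / ((100 : ℕ) : ℝ))) i j :=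
  ch3 (by norm_num) (by norm_num) i j
def w0 : List ℕ := [nat_lit 268435456,nat_lit 0,nat_lit 0,nat_lit 0,nat_lit 0,nat_lit 0,nat_lit 0,nat_lit 0,nat_lit 0,nat_lit 0,nat_lit 0,nat_lit 0,nat_lit 0,nat_lit 0,nat_lit 0,nat_lit 0,nat_lit 0,nat_lit 0,nat_lit 0,nat_lit 0,nat_lit 0,nat_lit 0,nat_lit 0,nat_lit 0,nat_lit 0,nat_lit 0,nat_lit 0,nat_lit 0,nat_lit 0,nat_lit 0,nat_lit 0,nat_lit 0,nat_lit 0,nat_lit 0,nat_lit 0,nat_lit 0,nat_lit 0,nat_lit 0,nat_lit 0,nat_lit 0,nat_lit 0,nat_lit 0,nat_lit 0,nat_lit 0,nat_lit 0,nat_lit 0,nat_lit 0,nat_lit 0,nat_lit 0,nat_lit 0,nat_lit 0,nat_lit 0,nat_lit 0,nat_lit 0,nat_lit 0,nat_lit 0,nat_lit 0,nat_lit 0,nat_lit 0,nat_lit 0,nat_lit 0,nat_lit 0,nat_lit 0,nat_lit 0,nat_lit 0,nat_lit 0,nat_lit 0,nat_lit 0,nat_lit 0,nat_lit 0,nat_lit 0,nat_lit 0,nat_lit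 0,nat_lit 0,nat_lit 0,nat_lit 0,nat_lit 0,nat_lit 0,nat_lit 0,nat_lit 0,nat_lit 0,nat_lit 0,nat_lit 0,nat_lit 0,nat_lit 0,nat_lit 0,nat_lit 0,nat_lit 0,nat_lit 0,nat_lit 0,nat_lit 0,nat_lit 0,nat_lit 0,nat_lit 0,nat_lit 0,nat_lit 0,nat_lit 0,nat_lit 0,nat_lit 0,nat_lit 0,nat_lit 0,nat_lit 0,nat_lit 0,nat_lit 0,nat_lit 0,nat_lit 0,nat_lit 0,nat_lit 0,nat_lit 0,nat_lit 0,nat_lit 0,nat_lit 0,nat_lit 0,nat_lit 0,nat_lit 0,nat_lit 0,nat_lit 0,nat_lit 0,nat_lit 0,nat_lit 0,nat_lit 0,nat_lit 0,nat_lit 0,nat_lit 0,nat_lit 0,nat_lit 0,nat_lit 0]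
theorem h0 : w0 = 268435456 :: List.replicate ks.length 0 := by decide +kernel
theorem inv0 : InvP (-(((49 : ℕ) : ℝ) / ((100 : ℕ) : ℝ))) (((1063 : ℕ) : ℝ) / ((250 : ℕ) : ℝ)) hd0 hch0 36 13 268435456 ks 0 w0 := by
  rw [h0]
  exact InvP.zero setup
def wE : List ℕ := [nat_lit 18230202,nat_lit 14436472,nat_lit 2551002,nat_lit 10257117,nat_lit 3753829,nat_lit 1394049,nat_lit 7700183,nat_lit 2763808,nat_lit 2060392,nat_lit 778808,nat_lit 6513966,nat_lit 2345421,nat_lit 1750203,nat_lit 1297928,nat_lit 555048,nat_lit 5755354,nat_lit 2095367,nat_lit 1591755,nat_lit 1172557,nat_lit 972456,nat_lit 444349,nat_lit 5344105,nat_lit 1983926,nat_lit 1481494,nat_lit 1056880,nat_lit 891274,nat_lit 833823,nat_lit 441079,nat_lit 5080121,nat_lit 1926449,nat_lit 1417341,nat_lit 1002580,nat_lit 892830,nat_lit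 908876,nat_lit 846299,nat_lit 381576,nat_lit 4984035,nat_lit 1905965,nat_lit 1356946,nat_lit 972009,nat_lit 980694,nat_lit 879770,nat_lit 733001,nat_lit 689604,nat_lit 328985,nat_lit 4902529,nat_lit 1909223,nat_lit 1368249,nat_lit 1053899,nat_lit 972838,nat_lit 798681,nat_lit 698737,nat_lit 665719,nat_lit 616676,nat_lit 919091,nat_lit 4930521,nat_lit 1930137,nat_lit 1431039,nat_lit 1090194,nat_lit 905318,nat_lit 756865,nat_lit 681976,nat_lit 650321,nat_lit 1432782,nat_lit 1294358,nat_lit 457649,nat_lit 5041818,nat_lit 2033114,nat_lit 1526105,nat_lit 1046103,nat_lit 876986,nat_lit 745119,nat_lit 669419,nat_lit 1409266,nat_lit 1066788,nat_lit 924125,nat_lit 842719,nat_lit 380196,nat_lit 5213938,nat_lit 2179595,nat_lit 1536140,nat_lit 996368,nat_lit 856844,nat_lit 722723,nat_lit 1387257,nat_lit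 1108427,nat_lit 819293,nat_lit 876758,nat_lit 802896,nat_lit 751669,nat_lit 4200381,nat_lit 5346078,nat_lit 2278955,nat_lit 1504551,nat_lit 992707,nat_lit 861124,nat_lit 1427613,nat_lit 1102344,nat_lit 886650,nat_lit 772138,nat_lit 908413,nat_lit 408795,nat_lit 5471212,nat_lit 2317544,nat_lit 1452787,nat_lit 973706,nat_lit 1557856,nat_lit 1157355,nat_lit 920273,nat_lit 878729,nat_lit 392717,nat_lit 5683582,nat_lit 2315695,nat_lit 1431540,nat_lit 1720770,nat_lit 1300198,nat_lit 966472,nat_lit 447090,nat_lit 5971649,nat_lit 2296521,nat_lit 2408939,nat_lit 1521279,nat_lit 577236,nat_lit 6492178,nat_lit 4302717,nat_lit 1231314,nat_lit 4935952]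
theorem chk : eqF (levelsPF 76 75557863725914323419136 56031985123892763033600 72057594037927936 268435456 (mkTabF 36 13 76 P K) ks (0 :: ks) g0 ms 185220464640 10 w0) wE = true := by
  decide +kernel
theorem invE : InvP (-(((49 : ℕ) : ℝ) / ((100 : ℕ) : ℝ))) (((1063 : ℕ) : ℝ) / ((250 : ℕ) : ℝ)) hd0 hch0 36 13 268435456 ks 10 wE :=
  InvP.check (m := 0) (k := 10) setup hP hK hB hT hTE hdfc inv0 chk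
end Crest.Agent.Lib.Bc.GridO.W48a
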