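import Crest.Agent.Lib.Bc.GridPFR
import Crest.Agent.Lib.Bc.CloLite.Wire2
/-! Row 163: the Poisson grid orbit of the closure window `mu ∈ [49/100, 50/100]`: upper chain `d' = 2041/500`, tilt `-1/2`,
grid size 36, weights in units of `2^-28`; at level 75: `s < 145/1000`, `r ≤ 20851/524288`. -/
set_option maxRecDepth 1000000
open Crest.ProbabilityR.Broadcast
namespace Crest.Agent.Lib.Bc.GridO.W49a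
def ks : List ℕ := [nat_lit 13,nat_lit 14,nat_lit 26,nat_lit 27,nat_lit 28,nat_lit 39,nat_lit 40,nat_lit 41,nat_lit 42,nat_lit 52,nat_lit 53,nat_lit 54,nat_lit 55,nat_lit 56,nat_lit 65,nat_lit 66,nat_lit 67,nat_lit 68,nat_lit 69,nat_lit 70,nat_lit 78,nat_lit 79,nat_lit 80,nat_lit 81,nat_lit 82,nat_lit 83,nat_lit 84,nat_lit 91,nat_lit 92,nat_lit 93,nat_lit 94,nat_lit 95,nat_lit 96,nat_lit 97,nat_lit 98,nat_lit 104,nat_lit 105,nat_lit 106,nat_lit 107,nat_lit 108,nat_lit 109,nat_lit 110,nat_lit 111,nat_lit 112,nat_lit 117,nat_lit 118,nat_lit 119,nat_lit 120,nat_lit 121,nat_lit 122,nat_lit 123,nat_lit 124,nat_lit 125,nat_lit 126,nat_lit 130,nat_lit 131,nat_lit 132,nat_lit 133,nat_lit 134,nat_lit 135,nat_lit 136,nat_lit 137,nat_lit 138,nat_lit 139,nat_lit 140,nat_lit 143,nat_lit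 144,nat_lit 145,nat_lit 146,nat_lit 147,nat_lit 148,nat_lit 149,nat_lit 150,nat_lit 151,nat_lit 152,nat_lit 153,nat_lit 154,nat_lit 156,nat_lit 157,nat_lit 158,nat_lit 159,nat_lit 160,nat_lit 161,nat_lit 162,nat_lit 163,nat_lit 164,nat_lit 165,nat_lit 166,nat_lit 167,nat_lit 168,nat_lit 169,nat_lit 170,nat_lit 171,nat_lit 172,nat_lit 173,nat_lit 174,nat_lit 175,nat_lit 176,nat_lit 177,nat_lit 178,nat_lit 179,nat_lit 182,nat_lit 183,nat_lit 184,nat_lit 185,nat_lit 186,nat_lit 187,nat_lit 188,nat_lit 189,nat_lit 190,nat_lit 195,nat_lit 196,nat_lit 197,nat_lit 198,nat_lit 199,nat_lit 200,nat_lit 201,nat_lit 208,nat_lit 209,nat_lit 210,nat_lit 211,nat_lit 212,nat_lit 221,nat_lit 222,nat_lit 223,nat_lit 234]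
def P : List Pt := [⟨nat_lit 36,nat_lit 0,nat_lit 0⟩,⟨nat_lit 35,nat_lit 1,nat_lit 0⟩,⟨nat_lit 34,nat_lit 1,nat_lit 1⟩,⟨nat_lit 34,nat_lit 2,nat_lit 0⟩,⟨nat_lit 33,nat_lit 2,nat_lit 1⟩,⟨nat_lit 32,nat_lit 2,nat_lit 2⟩,⟨nat_lit 33,nat_lit 3,nat_lit 0⟩,⟨nat_lit 32,nat_lit 3,nat_lit 1⟩,⟨nat_lit 31,nat_lit 3,nat_lit 2⟩,⟨nat_lit 30,nat_lit 3,nat_lit 3⟩,⟨nat_lit 32,nat_lit 4,nat_lit 0⟩,⟨nat_lit 31,nat_lit 4,nat_lit 1⟩,⟨nat_lit 30,nat_lit 4,nat_lit 2⟩,⟨nat_lit 29,nat_lit 4,nat_lit 3⟩,⟨nat_lit 28,nat_lit 4,nat_lit 4⟩,⟨nat_lit 31,nat_lit 5,nat_lit 0⟩,⟨nat_lit 30,nat_lit 5,nat_lit 1⟩,⟨nat_lit 29,nat_lit 5,nat_lit 2⟩,⟨nat_lit 28,nat_lit 5,nat_lit 3⟩,⟨nat_lit 27,nat_lit 5,nat_lit 4⟩,⟨nat_lit 26,nat_lit 5,nat_lit 5⟩,⟨nat_lit 30,nat_lit 6,nat_lit 0⟩,⟨nat_lit 29,nat_lit 6,nat_lit 1⟩,⟨nat_lit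 28,nat_lit 6,nat_lit 2⟩,⟨nat_lit 27,nat_lit 6,nat_lit 3⟩,⟨nat_lit 26,nat_lit 6,nat_lit 4⟩,⟨nat_lit 25,nat_lit 6,nat_lit 5⟩,⟨nat_lit 24,nat_lit 6,nat_lit 6⟩,⟨nat_lit 29,nat_lit 7,nat_lit 0⟩,⟨nat_lit 28,nat_lit 7,nat_lit 1⟩,⟨nat_lit 27,nat_lit 7,nat_lit 2⟩,⟨nat_lit 26,nat_lit 7,nat_lit 3⟩,⟨nat_lit 25,nat_lit 7,nat_lit 4⟩,⟨nat_lit 24,nat_lit 7,nat_lit 5⟩,⟨nat_lit 23,nat_lit 7,nat_lit 6⟩,⟨nat_lit 22,nat_lit 7,nat_lit 7⟩,⟨nat_lit 28,nat_lit 8,nat_lit 0⟩,⟨nat_lit 27,nat_lit 8,nat_lit 1⟩,⟨nat_lit 26,nat_lit 8,nat_lit 2⟩,⟨nat_lit 25,nat_lit 8,nat_lit 3⟩,⟨nat_lit 24,nat_lit 8,nat_lit 4⟩,⟨nat_lit 23,nat_lit 8,nat_lit 5⟩,⟨nat_lit 22,nat_lit 8,nat_lit 6⟩,⟨nat_lit 21,nat_lit 8,nat_lit 7⟩,⟨nat_lit 20,nat_lit 8,nat_lit 8⟩,⟨nat_lit 27,nat_lit 9,nat_lit 0⟩,⟨nat_lit 26,nat_lit 9,nat_lit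 1⟩,⟨nat_lit 25,nat_lit 9,nat_lit 2⟩,⟨nat_lit 24,nat_lit 9,nat_lit 3⟩,⟨nat_lit 23,nat_lit 9,nat_lit 4⟩,⟨nat_lit 22,nat_lit 9,nat_lit 5⟩,⟨nat_lit 21,nat_lit 9,nat_lit 6⟩,⟨nat_lit 20,nat_lit 9,nat_lit 7⟩,⟨nat_lit 19,nat_lit 9,nat_lit 8⟩,⟨nat_lit 18,nat_lit 9,nat_lit 9⟩,⟨nat_lit 26,nat_lit 10,nat_lit 0⟩,⟨nat_lit 25,nat_lit 10,nat_lit 1⟩,⟨nat_lit 24,nat_lit 10,nat_lit 2⟩,⟨nat_lit 23,nat_lit 10,nat_lit 3⟩,⟨nat_lit 22,nat_lit 10,nat_lit 4⟩,⟨nat_lit 21,nat_lit 10,nat_lit 5⟩,⟨nat_lit 20,nat_lit 10,nat_lit 6⟩,⟨nat_lit 19,nat_lit 10,nat_lit 7⟩,⟨nat_lit 18,nat_lit 10,nat_lit 8⟩,⟨nat_lit 17,nat_lit 10,nat_lit 9⟩,⟨nat_lit 16,nat_lit 10,nat_lit 10⟩,⟨nat_lit 25,nat_lit 11,nat_lit 0⟩,⟨nat_lit 24,nat_lit 11,nat_lit 1⟩,⟨nat_lit 23,nat_lit 11,nat_lit 2⟩,⟨nat_lit 22,nat_lit 11,nat_lit 3⟩,⟨nat_lit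 21,nat_lit 11,nat_lit 4⟩,⟨nat_lit 20,nat_lit 11,nat_lit 5⟩,⟨nat_lit 19,nat_lit 11,nat_lit 6⟩,⟨nat_lit 18,nat_lit 11,nat_lit 7⟩,⟨nat_lit 17,nat_lit 11,nat_lit 8⟩,⟨nat_lit 16,nat_lit 11,nat_lit 9⟩,⟨nat_lit 15,nat_lit 11,nat_lit 10⟩,⟨nat_lit 14,nat_lit 11,nat_lit 11⟩,⟨nat_lit 24,nat_lit 12,nat_lit 0⟩,⟨nat_lit 23,nat_lit 12,nat_lit 1⟩,⟨nat_lit 22,nat_lit 12,nat_lit 2⟩,⟨nat_lit 21,nat_lit 12,nat_lit 3⟩,⟨nat_lit 20,nat_lit 12,nat_lit 4⟩,⟨nat_lit 19,nat_lit 12,nat_lit 5⟩,⟨nat_lit 18,nat_lit 12,nat_lit 6⟩,⟨nat_lit 17,nat_lit 12,nat_lit 7⟩,⟨nat_lit 16,nat_lit 12,nat_lit 8⟩,⟨nat_lit 15,nat_lit 12,nat_lit 9⟩,⟨nat_lit 14,nat_lit 12,nat_lit 10⟩,⟨nat_lit 13,nat_lit 12,nat_lit 11⟩,⟨nat_lit 12,nat_lit 12,nat_lit 12⟩,⟨nat_lit 23,nat_lit 13,nat_lit 0⟩,⟨nat_lit 22,nat_lit 13,nat_lit 1⟩,⟨nat_lit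 21,nat_lit 13,nat_lit 2⟩,⟨nat_lit 20,nat_lit 13,nat_lit 3⟩,⟨nat_lit 19,nat_lit 13,nat_lit 4⟩,⟨nat_lit 18,nat_lit 13,nat_lit 5⟩,⟨nat_lit 17,nat_lit 13,nat_lit 6⟩,⟨nat_lit 16,nat_lit 13,nat_lit 7⟩,⟨nat_lit 15,nat_lit 13,nat_lit 8⟩,⟨nat_lit 14,nat_lit 13,nat_lit 9⟩,⟨nat_lit 13,nat_lit 13,nat_lit 10⟩,⟨nat_lit 22,nat_lit 14,nat_lit 0⟩,⟨nat_lit 21,nat_lit 14,nat_lit 1⟩,⟨nat_lit 20,nat_lit 14,nat_lit 2⟩,⟨nat_lit 19,nat_lit 14,nat_lit 3⟩,⟨nat_lit 18,nat_lit 14,nat_lit 4⟩,⟨nat_lit 17,nat_lit 14,nat_lit 5⟩,⟨nat_lit 16,nat_lit 14,nat_lit 6⟩,⟨nat_lit 15,nat_lit 14,nat_lit 7⟩,⟨nat_lit 14,nat_lit 14,nat_lit 8⟩,⟨nat_lit 21,nat_lit 15,nat_lit 0⟩,⟨nat_lit 20,nat_lit 15,nat_lit 1⟩,⟨nat_lit 19,nat_lit 15,nat_lit 2⟩,⟨nat_lit 18,nat_lit 15,nat_lit 3⟩,⟨nat_lit 17,nat_lit 15,nat_lit 4⟩,⟨nat_lit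 16,nat_lit 15,nat_lit 5⟩,⟨nat_lit 15,nat_lit 15,nat_lit 6⟩,⟨nat_lit 20,nat_lit 16,nat_lit 0⟩,⟨nat_lit 19,nat_lit 16,nat_lit 1⟩,⟨nat_lit 18,nat_lit 16,nat_lit 2⟩,⟨nat_lit 17,nat_lit 16,nat_lit 3⟩,⟨nat_lit 16,nat_lit 16,nat_lit 4⟩,⟨nat_lit 19,nat_lit 17,nat_lit 0⟩,⟨nat_lit 18,nat_lit 17,nat_lit 1⟩,⟨nat_lit 17,nat_lit 17,nat_lit 2⟩,⟨nat_lit 18,nat_lit 18,nat_lit 0⟩]
def K : List Pt := [⟨nat_lit 0,nat_lit 108,nat_lit 108⟩,⟨nat_lit 3,nat_lit 105,nat_lit 108⟩,⟨nat_lit 6,nat_lit 105,nat_lit 105⟩,⟨nat_lit 6,nat_lit 102,nat_lit 108⟩,⟨nat_lit 9,nat_lit 102,nat_lit 105⟩,⟨nat_lit 12,nat_lit 102,nat_lit 102⟩,⟨nat_lit 9,nat_lit 99,nat_lit 108⟩,⟨nat_lit 12,nat_lit 99,nat_lit 105⟩,⟨nat_lit 15,nat_lit 99,nat_lit 102⟩,⟨nat_lit 18,nat_lit 99,nat_lit 99⟩,⟨nat_lit 12,nat_lit 96,nat_lit 108⟩,⟨nat_lit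 15,nat_lit 96,nat_lit 105⟩,⟨nat_lit 18,nat_lit 96,nat_lit 102⟩,⟨nat_lit 21,nat_lit 96,nat_lit 99⟩,⟨nat_lit 24,nat_lit 96,nat_lit 96⟩,⟨nat_lit 15,nat_lit 93,nat_lit 108⟩,⟨nat_lit 18,nat_lit 93,nat_lit 105⟩,⟨nat_lit 21,nat_lit 93,nat_lit 102⟩,⟨nat_lit 24,nat_lit 93,nat_lit 99⟩,⟨nat_lit 27,nat_lit 93,nat_lit 96⟩,⟨nat_lit 30,nat_lit 93,nat_lit 93⟩,⟨nat_lit 18,nat_lit 90,nat_lit 108⟩,⟨nat_lit 21,nat_lit 90,nat_lit 105⟩,⟨nat_lit 24,nat_lit 90,nat_lit 102⟩,⟨nat_lit 27,nat_lit 90,nat_lit 99⟩,⟨nat_lit 30,nat_lit 90,nat_lit 96⟩,⟨nat_lit 33,nat_lit 90,nat_lit 93⟩,⟨nat_lit 36,nat_lit 90,nat_lit 90⟩,⟨nat_lit 21,nat_lit 87,nat_lit 108⟩,⟨nat_lit 24,nat_lit 87,nat_lit 105⟩,⟨nat_lit 27,nat_lit 87,nat_lit 102⟩,⟨nat_lit 30,nat_lit 87,nat_lit 99⟩,⟨nat_lit 33,nat_lit 87,nat_lit 96⟩,⟨nat_lit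 36,nat_lit 87,nat_lit 93⟩,⟨nat_lit 39,nat_lit 87,nat_lit 90⟩,⟨nat_lit 42,nat_lit 87,nat_lit 87⟩,⟨nat_lit 24,nat_lit 84,nat_lit 108⟩,⟨nat_lit 27,nat_lit 84,nat_lit 105⟩,⟨nat_lit 30,nat_lit 84,nat_lit 102⟩,⟨nat_lit 33,nat_lit 84,nat_lit 99⟩,⟨nat_lit 36,nat_lit 84,nat_lit 96⟩,⟨nat_lit 39,nat_lit 84,nat_lit 93⟩,⟨nat_lit 42,nat_lit 84,nat_lit 90⟩,⟨nat_lit 45,nat_lit 84,nat_lit 87⟩,⟨nat_lit 48,nat_lit 84,nat_lit 84⟩,⟨nat_lit 27,nat_lit 81,nat_lit 108⟩,⟨nat_lit 30,nat_lit 81,nat_lit 105⟩,⟨nat_lit 33,nat_lit 81,nat_lit 102⟩,⟨nat_lit 36,nat_lit 81,nat_lit 99⟩,⟨nat_lit 39,nat_lit 81,nat_lit 96⟩,⟨nat_lit 42,nat_lit 81,nat_lit 93⟩,⟨nat_lit 45,nat_lit 81,nat_lit 90⟩,⟨nat_lit 48,nat_lit 81,nat_lit 87⟩,⟨nat_lit 51,nat_lit 81,nat_lit 84⟩,⟨nat_lit 54,nat_lit 81,nat_lit 81⟩,⟨nat_lit 30,nat_lit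 78,nat_lit 108⟩,⟨nat_lit 33,nat_lit 78,nat_lit 105⟩,⟨nat_lit 36,nat_lit 78,nat_lit 102⟩,⟨nat_lit 39,nat_lit 78,nat_lit 99⟩,⟨nat_lit 42,nat_lit 78,nat_lit 96⟩,⟨nat_lit 45,nat_lit 78,nat_lit 93⟩,⟨nat_lit 48,nat_lit 78,nat_lit 90⟩,⟨nat_lit 51,nat_lit 78,nat_lit 87⟩,⟨nat_lit 54,nat_lit 78,nat_lit 84⟩,⟨nat_lit 57,nat_lit 78,nat_lit 81⟩,⟨nat_lit 60,nat_lit 78,nat_lit 78⟩,⟨nat_lit 33,nat_lit 75,nat_lit 108⟩,⟨nat_lit 36,nat_lit 75,nat_lit 105⟩,⟨nat_lit 39,nat_lit 75,nat_lit 102⟩,⟨nat_lit 42,nat_lit 75,nat_lit 99⟩,⟨nat_lit 45,nat_lit 75,nat_lit 96⟩,⟨nat_lit 48,nat_lit 75,nat_lit 93⟩,⟨nat_lit 51,nat_lit 75,nat_lit 90⟩,⟨nat_lit 54,nat_lit 75,nat_lit 87⟩,⟨nat_lit 57,nat_lit 75,nat_lit 84⟩,⟨nat_lit 60,nat_lit 75,nat_lit 81⟩,⟨nat_lit 63,nat_lit 75,nat_lit 78⟩,⟨nat_lit 66,nat_lit 75,nat_lit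 75⟩,⟨nat_lit 36,nat_lit 72,nat_lit 108⟩,⟨nat_lit 39,nat_lit 72,nat_lit 105⟩,⟨nat_lit 42,nat_lit 72,nat_lit 102⟩,⟨nat_lit 45,nat_lit 72,nat_lit 99⟩,⟨nat_lit 48,nat_lit 72,nat_lit 96⟩,⟨nat_lit 51,nat_lit 72,nat_lit 93⟩,⟨nat_lit 54,nat_lit 72,nat_lit 90⟩,⟨nat_lit 57,nat_lit 72,nat_lit 87⟩,⟨nat_lit 60,nat_lit 72,nat_lit 84⟩,⟨nat_lit 63,nat_lit 72,nat_lit 81⟩,⟨nat_lit 66,nat_lit 72,nat_lit 78⟩,⟨nat_lit 69,nat_lit 72,nat_lit 75⟩,⟨nat_lit 72,nat_lit 72,nat_lit 72⟩,⟨nat_lit 39,nat_lit 69,nat_lit 108⟩,⟨nat_lit 42,nat_lit 69,nat_lit 105⟩,⟨nat_lit 45,nat_lit 69,nat_lit 102⟩,⟨nat_lit 48,nat_lit 69,nat_lit 99⟩,⟨nat_lit 51,nat_lit 69,nat_lit 96⟩,⟨nat_lit 54,nat_lit 69,nat_lit 93⟩,⟨nat_lit 57,nat_lit 69,nat_lit 90⟩,⟨nat_lit 60,nat_lit 69,nat_lit 87⟩,⟨nat_lit 63,nat_lit 69,nat_lit 84⟩,⟨nat_lit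 66,nat_lit 69,nat_lit 81⟩,⟨nat_lit 69,nat_lit 69,nat_lit 78⟩,⟨nat_lit 42,nat_lit 66,nat_lit 108⟩,⟨nat_lit 45,nat_lit 66,nat_lit 105⟩,⟨nat_lit 48,nat_lit 66,nat_lit 102⟩,⟨nat_lit 51,nat_lit 66,nat_lit 99⟩,⟨nat_lit 54,nat_lit 66,nat_lit 96⟩,⟨nat_lit 57,nat_lit 66,nat_lit 93⟩,⟨nat_lit 60,nat_lit 66,nat_lit 90⟩,⟨nat_lit 63,nat_lit 66,nat_lit 87⟩,⟨nat_lit 66,nat_lit 66,nat_lit 84⟩,⟨nat_lit 45,nat_lit 63,nat_lit 108⟩,⟨nat_lit 48,nat_lit 63,nat_lit 105⟩,⟨nat_lit 51,nat_lit 63,nat_lit 102⟩,⟨nat_lit 54,nat_lit 63,nat_lit 99⟩,⟨nat_lit 57,nat_lit 63,nat_lit 96⟩,⟨nat_lit 60,nat_lit 63,nat_lit 93⟩,⟨nat_lit 63,nat_lit 63,nat_lit 90⟩,⟨nat_lit 48,nat_lit 60,nat_lit 108⟩,⟨nat_lit 51,nat_lit 60,nat_lit 105⟩,⟨nat_lit 54,nat_lit 60,nat_lit 102⟩,⟨nat_lit 57,nat_lit 60,nat_lit 99⟩,⟨nat_lit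 60,nat_lit 60,nat_lit 96⟩,⟨nat_lit 51,nat_lit 57,nat_lit 108⟩,⟨nat_lit 54,nat_lit 57,nat_lit 105⟩,⟨nat_lit 57,nat_lit 57,nat_lit 102⟩,⟨nat_lit 54,nat_lit 54,nat_lit 108⟩]
theorem hP0 : eqPtsP P (ptsOf 36 13 ks) = true := by decide +kernel
theorem hK0 : eqPtsP K (P.map (tiltPtQ 1 2 36)) = true := by decide +kernel
theorem hP : P = ptsOf 36 13 ks := eqPtsP_eq _ _ hP0
theorem hK : K = P.map (tiltPtQ 1 2 36) := eqPtsP_eq _ _ hK0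
theorem hnodup : ks.Nodup := by decide +kernel
theorem hvalid : ∀ k ∈ ks, k < 247 ∧ Valid 36 13 k := by
  have : ∀ k ∈ ks, k < 247 ∧ k / 13 + k % 13 ≤ 36 := by decide +kernel
  exact this
def g0 : List ℕ := [nat_lit 0,nat_lit 0,nat_lit 0,nat_lit 0,nat_lit 0,nat_lit 0,nat_lit 0,nat_lit 0,nat_lit 0,nat_lit 0,nat_lit 0,nat_lit 0,nat_lit 0,nat_lit 0,nat_lit 0,nat_lit 0,nat_lit 0,nat_lit 0,nat_lit 0,nat_lit 0,nat_lit 0,nat_lit 0,nat_lit 0,nat_lit 0,nat_lit 0,nat_lit 0,nat_lit 0,nat_lit 0,nat_lit 0,nat_lit 0,nat_lit 0,nat_lit 0,nat_lit 0,nat_lit 0,nat_lit 0,nat_lit 0,nat_lit 0,nat_lit 0,nat_lit 0,nat_lit 0,nat_lit 0,nat_lit 0,nat_lit 0,nat_lit 0,nat_lit 0,nat_lit 0,nat_lit 0,nat_lit 0,nat_lit 0,nat_lit 0,nat_lit 0,nat_lit 0,nat_lit 0,nat_lit 0,nat_lit 0,nat_lit 0,nat_lit 0,nat_lit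 0,nat_lit 0,nat_lit 0,nat_lit 0,nat_lit 0,nat_lit 0,nat_lit 0,nat_lit 0,nat_lit 0,nat_lit 0,nat_lit 0,nat_lit 0,nat_lit 0,nat_lit 0,nat_lit 0,nat_lit 0,nat_lit 0,nat_lit 0,nat_lit 0,nat_lit 0,nat_lit 0,nat_lit 0,nat_lit 0,nat_lit 0,nat_lit 0,nat_lit 0,nat_lit 0,nat_lit 0,nat_lit 0,nat_lit 0,nat_lit 0,nat_lit 0,nat_lit 0,nat_lit 268435456,nat_lit 0,nat_lit 0,nat_lit 0,nat_lit 0,nat_lit 0,nat_lit 0,nat_lit 0,nat_lit 0,nat_lit 0,nat_lit 0,nat_lit 0,nat_lit 0,nat_lit 0,nat_lit 0,nat_lit 0,nat_lit 0,nat_lit 0,nat_lit 0,nat_lit 0,nat_lit 0,nat_lit 0,nat_lit 0,nat_lit 0,nat_lit 0,nat_lit 0,nat_lit 0,nat_lit 0,nat_lit 0,nat_lit 0,nat_lit 0,nat_lit 0,nat_lit 0,nat_lit 0,nat_lit 0,nat_lit 0,nat_lit 0]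
def ms : List ℕ := [nat_lit 4529495,nat_lit 18489399,nat_lit 37736864,nat_lit 51347293,nat_lit 52399912,nat_lit 42779288,nat_lit 29104176,nat_lit 16971892,nat_lit 8659908,nat_lit 3927749,nat_lit 1603307,nat_lit 594972,nat_lit 202389,nat_lit 63550,nat_lit 18529,nat_lit 5042,nat_lit 1286]
theorem hg0 : Good 36 268435456 (ptsOf 36 13 ks) g0 := by
  rw [← hP]
  refine ⟨by norm_num, by norm_num, ?_, ?_, ?_⟩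
  · have : ∀ p ∈ P, p.a + p.b + p.c = 36 := by decide +kernel
    exact this
  · decide +kernel
  · decide +kernel
theorem hd0 : (0 : ℝ) ≤ (((2041 : ℕ) : ℝ) / ((500 : ℕ) : ℝ)) := by positivity
theorem hq0 : ∀ i, i < ms.length → ((ms.getD i 0 : ℕ) : ℝ) / ((268435456 : ℕ) : ℝ)
    ≤ Real.exp (-(((2041 : ℕ) : ℝ) / ((500 : ℕ) : ℝ))) * (((2041 : ℕ) : ℝ) / ((500 : ℕ) : ℝ)) ^ i / Nat.factorial i :=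
  hq_of_chk (a := 2041) (b := 500) (en := 4749519950795) (ed := 281474976710656) (by norm_num) (by norm_num) (by norm_num)
    (by decide +kernel) (by decide +kernel)
theorem setup : SetupP 36 13 70 247 268435456 1 2 268435456 ks g0 ms (((2041 : ℕ) : ℝ) / ((500 : ℕ) : ℝ)) :=
  ⟨by norm_num, by norm_num, by norm_num, by norm_num, by norm_num, by norm_num, by norm_num, by norm_num,
    by norm_num, hnodup, hvalid, hg0, by decide +kernel, hd0, hq0⟩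
theorem hB : 1180591620717411303424 = 2 ^ 70 := by norm_num
theorem hT : 1120639702477855260672 = 2 * 36 * (3 * 2 * 36) * 268435456 * 268435456 := by norm_num
theorem hTE : 72057594037927936 = 268435456 * 268435456 := by norm_num
theorem hdfc : 108716359680 = (268435456 - ms.sum) * 268435456 := by decide +kernel
lemma hch0 (i j : Fin 3) : 0 ≤ channel 3 (-(((1 : ℕ) : ℝ) / ((2 : ℕ) : ℝ))) i j :=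
  ch3 (by norm_num) (by norm_num) i j
def w0 : List ℕ := [nat_lit 268435456,nat_lit 0,nat_lit 0,nat_lit 0,nat_lit 0,nat_lit 0,nat_lit 0,nat_lit 0,nat_lit 0,nat_lit 0,nat_lit 0,nat_lit 0,nat_lit 0,nat_lit 0,nat_lit 0,nat_lit 0,nat_lit 0,nat_lit 0,nat_lit 0,nat_lit 0,nat_lit 0,nat_lit 0,nat_lit 0,nat_lit 0,nat_lit 0,nat_lit 0,nat_lit 0,nat_lit 0,nat_lit 0,nat_lit 0,nat_lit 0,nat_lit 0,nat_lit 0,nat_lit 0,nat_lit 0,nat_lit 0,nat_lit 0,nat_lit 0,nat_lit 0,nat_lit 0,nat_lit 0,nat_lit 0,nat_lit 0,nat_lit 0,nat_lit 0,nat_lit 0,nat_lit 0,nat_lit 0,nat_lit 0,nat_lit 0,nat_lit 0,nat_lit 0,nat_lit 0,nat_lit 0,nat_lit 0,nat_lit 0,nat_lit 0,nat_lit 0,nat_lit 0,nat_lit 0,nat_lit 0,nat_lit 0,nat_lit 0,nat_lit 0,nat_lit 0,nat_lit 0,nat_lit 0,nat_lit 0,nat_lit 0,nat_lit 0,nat_lit 0,nat_lit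 0,nat_lit 0,nat_lit 0,nat_lit 0,nat_lit 0,nat_lit 0,nat_lit 0,nat_lit 0,nat_lit 0,nat_lit 0,nat_lit 0,nat_lit 0,nat_lit 0,nat_lit 0,nat_lit 0,nat_lit 0,nat_lit 0,nat_lit 0,nat_lit 0,nat_lit 0,nat_lit 0,nat_lit 0,nat_lit 0,nat_lit 0,nat_lit 0,nat_lit 0,nat_lit 0,nat_lit 0,nat_lit 0,nat_lit 0,nat_lit 0,nat_lit 0,nat_lit 0,nat_lit 0,nat_lit 0,nat_lit 0,nat_lit 0,nat_lit 0,nat_lit 0,nat_lit 0,nat_lit 0,nat_lit 0,nat_lit 0,nat_lit 0,nat_lit 0,nat_lit 0,nat_lit 0,nat_lit 0,nat_lit 0,nat_lit 0,nat_lit 0,nat_lit 0,nat_lit 0,nat_lit 0,nat_lit 0,nat_lit 0]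
theorem h0 : w0 = 268435456 :: List.replicate ks.length 0 := by decide +kernel
theorem inv0 : InvP (-(((1 : ℕ) : ℝ) / ((2 : ℕ) : ℝ))) (((2041 : ℕ) : ℝ) / ((500 : ℕ) : ℝ)) hd0 hch0 36 13 268435456 ks 0 w0 := by
  rw [h0]
  exact InvP.zero setup
def wE : List ℕ := [nat_lit 40873569,nat_lit 12123503,nat_lit 1011305,nat_lit 10142092,nat_lit 1646293,nat_lit 687001,nat_lit 7960743,nat_lit 1296739,nat_lit 1074684,nat_lit 436299,nat_lit 7154298,nat_lit 1161878,nat_lit 967884,nat_lit 792020,nat_lit 333995,nat_lit 6466850,nat_lit 1080876,nat_lit 919667,nat_lit 706092,nat_lit 616706,nat_lit 288290,nat_lit 6246841,nat_lit 1074661,nat_lit 897349,nat_lit 642722,nat_lit 598252,nat_lit 598946,nat_lit 395166,nat_lit 5984293,nat_lit 1067330,nat_lit 845003,nat_lit 624991,nat_lit 626381,nat_lit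 775980,nat_lit 575015,nat_lit 275901,nat_lit 6023784,nat_lit 1079949,nat_lit 844496,nat_lit 654765,nat_lit 822689,nat_lit 597448,nat_lit 520004,nat_lit 510682,nat_lit 235555,nat_lit 6063345,nat_lit 1084220,nat_lit 866540,nat_lit 821425,nat_lit 677673,nat_lit 543049,nat_lit 516043,nat_lit 500563,nat_lit 453926,nat_lit 1375273,nat_lit 6142775,nat_lit 1117028,nat_lit 1019836,nat_lit 770116,nat_lit 630195,nat_lit 531080,nat_lit 504614,nat_lit 490122,nat_lit 1675976,nat_lit 898049,nat_lit 330515,nat_lit 6194469,nat_lit 1254903,nat_lit 1056314,nat_lit 671893,nat_lit 615441,nat_lit 535736,nat_lit 492418,nat_lit 1636724,nat_lit 688139,nat_lit 783345,nat_lit 672859,nat_lit 314238,nat_lit 7087065,nat_lit 1349987,nat_lit 1024710,nat_lit 672154,nat_lit 607904,nat_lit 517103,nat_lit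 1612199,nat_lit 734692,nat_lit 610624,nat_lit 800277,nat_lit 629260,nat_lit 603452,nat_lit 4979559,nat_lit 6702639,nat_lit 1421128,nat_lit 978426,nat_lit 685217,nat_lit 637556,nat_lit 1544854,nat_lit 761284,nat_lit 661903,nat_lit 619607,nat_lit 841268,nat_lit 308606,nat_lit 7022569,nat_lit 1400771,nat_lit 937696,nat_lit 667784,nat_lit 1611143,nat_lit 777687,nat_lit 735742,nat_lit 699883,nat_lit 317038,nat_lit 7145236,nat_lit 1356955,nat_lit 928667,nat_lit 1655794,nat_lit 855567,nat_lit 685436,nat_lit 350023,nat_lit 7470284,nat_lit 1329449,nat_lit 2086602,nat_lit 909254,nat_lit 386332,nat_lit 7804856,nat_lit 2920267,nat_lit 646273,nat_lit 9154845]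
theorem chk : eqF (levelsPF 70 1180591620717411303424 1120639702477855260672 72057594037927936 268435456 (mkTabF 36 13 70 P K) ks (0 :: ks) g0 ms 108716359680 10 w0) wE = true := by
  decide +kernel
theorem invE : InvP (-(((1 : ℕ) : ℝ) / ((2 : ℕ) : ℝ))) (((2041 : ℕ) : ℝ) / ((500 : ℕ) : ℝ)) hd0 hch0 36 13 268435456 ks 10 wE :=
  InvP.check (m := 0) (k := 10) setup hP hK hB hT hTE hdfc inv0 chk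
end Crest.Agent.Lib.Bc.GridO.W49a
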